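import Vale.Agent.P273.CDefs

/-!
Antisymmetric functionals and Pixton's relations: if `3d ≤ g + α`, then the relations that are not
placed at a vertex of a graph with a further edge hold automatically.
-/

noncomputable section
namespace Vale.Agent.P273.D14
open Sum Vale.Agent.P273.Q
open scoped Classical Nat

/-- The value of the functional `s` on `R^e_{γ,A}` times the psi powers `b`, pushed forward along
the legs not hit by `u`, placed at a vertex: the left hand side of the relation in `Pix`. -/
def rl {N R T L : Type} (s : Fn N) (r : R → ℕ × Multiset ℕ) (u : (T × Bool) ⊕ N → L ⊕ R × ℕ)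
    (b A : L → ℕ) (γ e : ℕ) : ℚ :=
  ∑ᶠ (k : ℕ) (m : ℕ) (a : Fin k → ℕ × Multiset ℕ) (f : (Fin m × Bool) ⊕ L → Fin k × ℕ),
      (let w := fun y => (u y).elim (fun x => (f (inr x)).map inl (· + b x)) (Prod.map inr id)
      wt a f γ e A / (k ! * m ! * 2 ^ m) * s (Fin k ⊕ R) (Fin m ⊕ T) (Sum.elim (fun v =>
        ((a v).1, (a v).2 + ∑ᶠ (x) (_ : inl x ∉ Set.range u ∧ (f (inr x)).1 = v),
          {(f (inr x)).2 + b x})) r) (Sum.elim (fun y => y.1.elim
            (fun i => (f (inl (i, y.2))).map inl id) fun t => w (inl (t, y.2))) fun i => w (inr i)))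

lemma pix_iff {g d : ℕ} {N : Type} (s : Fn N) : Pix g d s ↔ Tr g d s ∧
    ∀ (R T L : Type) (r : R → ℕ × Multiset ℕ) (u : (T × Bool) ⊕ N → L ⊕ R × ℕ)
    (b A : L → ℕ) (γ e : ℕ), Finite R → Finite T → Finite L →
    (∀ y z x, u y = inl x → u z = inl x → y = z) → (∀ x, A x ≤ 1) → γ + ∑ᶠ x, A x < 3 * e →
    rl s r u b A γ e = 0 := Iff.rfl

/-- `s` satisfies Pixton's relations placed at a vertex of a graph with at least one further
edge. -/
def BPix (g d : ℕ) {N : Type} (s : Fn N) : Prop :=
  Tr g d s ∧ ∀ (R T L : Type) (r : R → ℕ × Multiset ℕ) (u : (T × Bool) ⊕ N → L ⊕ R × ℕ)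
    (b A : L → ℕ) (γ e : ℕ), Finite R → Finite T → Finite L → Nonempty T →
    (∀ y z x, u y = inl x → u z = inl x → y = z) → (∀ x, A x ≤ 1) → γ + ∑ᶠ x, A x < 3 * e →
    rl s r u b A γ e = 0

/-- The value of `s` on one graph of the relation. -/
def inn {N R T L : Type} (s : Fn N) (r : R → ℕ × Multiset ℕ) (u : (T × Bool) ⊕ N → L ⊕ R × ℕ)
    (b : L → ℕ) {k m : ℕ} (a : Fin k → ℕ × Multiset ℕ) (f : (Fin m × Bool) ⊕ L → Fin k × ℕ) : ℚ :=
  let w := fun y => (u y).elim (fun x => (f (inr x)).map inl (· + b x)) (Prod.map inr id)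
  s (Fin k ⊕ R) (Fin m ⊕ T) (Sum.elim (fun v =>
        ((a v).1, (a v).2 + ∑ᶠ (x) (_ : inl x ∉ Set.range u ∧ (f (inr x)).1 = v),
          {(f (inr x)).2 + b x})) r) (Sum.elim (fun y => y.1.elim
            (fun i => (f (inl (i, y.2))).map inl id) fun t => w (inl (t, y.2))) fun i => w (inr i))

variable {V E L N R T : Type}

lemma nv_perm (f : (E × Bool) ⊕ L → V × ℕ) (τ : L ≃ L) (v : V) :
    nv (fun y => f (y.map id τ)) v = nv f v := by
  unfold nv
  exact Nat.card_congr (Equiv.subtypeEquiv (Equiv.sumCongr (Equiv.refl (E × Bool)) τ) fun y => by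
    rcases y with y | y <;> rfl)

lemma stab_perm (a : V → ℕ × Multiset ℕ) (f : (E × Bool) ⊕ L → V × ℕ) (g d : ℕ) (τ : L ≃ L) :
    Stab a (fun y => f (y.map id τ)) g d ↔ Stab a f g d := by
  unfold Stab
  have h : ∑ᶠ y : (E × Bool) ⊕ L, (f (y.map id τ)).2 = ∑ᶠ y, (f y).2 := by
    have := finsum_comp_equiv (f := fun y => (f y).2) (Equiv.sumCongr (Equiv.refl (E × Bool)) τ)
    rw [← this]
    congr 1
  rw [h]
  simp only [nv_perm]
  rfl

lemma wt_perm (a : V → ℕ × Multiset ℕ) (f : (E × Bool) ⊕ L → V × ℕ) (g d : ℕ) (A : L → ℕ)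
    (τ : L ≃ L) (hA : ∀ x, A (τ x) = A x) :
    wt a (fun y => f (y.map id τ)) g d A = wt a f g d A := by
  unfold wt
  have h : ∀ s : V → ℚ, (∏ᶠ x, B (A x) ((f (Sum.map id τ (inr x))).map s id).1
      ((f (Sum.map id τ (inr x))).map s id).2) =
      ∏ᶠ x, B (A x) ((f (inr x)).map s id).1 ((f (inr x)).map s id).2 := by
    intro s
    rw [← finprod_comp_equiv (f := fun x => B (A x) ((f (inr x)).map s id).1
      ((f (inr x)).map s id).2) τ]
    simp only [hA, Sum.map_inr]
  simp only [stab_perm, h, Sum.map_inl, id]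

/-- Two legs in the same position: the relation holds for functionals that are antisymmetric in
these two legs. -/
lemma rl_anti (s : Fn N) (r : R → ℕ × Multiset ℕ) (u : (T × Bool) ⊕ N → L ⊕ R × ℕ)
    (b A : L → ℕ) (γ e : ℕ) (hu : ∀ y z x, u y = inl x → u z = inl x → y = z) (i j : N)
    (hs : ∀ V E a f, s V E a (fun y => f (y.map id (Equiv.swap i j))) = - s V E a f)
    (x y : L) (hx : u (inr i) = inl x) (hy : u (inr j) = inl y) (hA : A x = A y)
    (hb : b x = b y) : rl s r u b A γ e = 0 := by
  unfold rl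
  refine finsum_eq_zero_of_forall_eq_zero fun k => finsum_eq_zero_of_forall_eq_zero fun m =>
    finsum_eq_zero_of_forall_eq_zero fun a => ?_
  set t : ((Fin m × Bool) ⊕ L → Fin k × ℕ) → ℚ := fun f =>
      (let w := fun y => (u y).elim (fun x => (f (inr x)).map inl (· + b x)) (Prod.map inr id)
      wt a f γ e A / (k ! * m ! * 2 ^ m) * s (Fin k ⊕ R) (Fin m ⊕ T) (Sum.elim (fun v =>
        ((a v).1, (a v).2 + ∑ᶠ (x) (_ : inl x ∉ Set.range u ∧ (f (inr x)).1 = v),
          {(f (inr x)).2 + b x})) r) (Sum.elim (fun y => y.1.elim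
            (fun i => (f (inl (i, y.2))).map inl id) fun t => w (inl (t, y.2))) fun i => w (inr i)))
    with ht
  change ∑ᶠ f, t f = 0
  have hA' : ∀ z, A (Equiv.swap x y z) = A z := by
    intro z
    by_cases h1 : z = x
    · subst h1; rw [Equiv.swap_apply_left, hA]
    by_cases h2 : z = y
    · subst h2; rw [Equiv.swap_apply_right, hA]
    rw [Equiv.swap_apply_of_ne_of_ne h1 h2]
  have hb' : ∀ z, b (Equiv.swap x y z) = b z := by
    intro z
    by_cases h1 : z = x
    · subst h1; rw [Equiv.swap_apply_left, hb]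
    by_cases h2 : z = y
    · subst h2; rw [Equiv.swap_apply_right, hb]
    rw [Equiv.swap_apply_of_ne_of_ne h1 h2]
  -- the reindexing of the legs
  have key : ∀ f, t (fun y' => f (y'.map id (Equiv.swap x y))) = - t f := by
    intro f
    simp only [ht]
    rw [wt_perm a f γ e A _ hA', ← mul_neg]
    congr 1
    rw [← hs]
    congr 1
    · -- vertices
      funext v
      rcases v with v | v
      · simp only [Sum.elim_inl, Sum.map_inr, Prod.mk.injEq, true_and, add_right_inj]
        refine finsum_congr fun z => ?_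
        by_cases hz : inl z ∈ Set.range u
        · simp [hz]
        · have h1 : z ≠ x := fun h => hz ⟨_, by rw [h]; exact hx⟩
          have h2 : z ≠ y := fun h => hz ⟨_, by rw [h]; exact hy⟩
          rw [Equiv.swap_apply_of_ne_of_ne h1 h2]
      · rfl
    · -- half-edges
      have hw : ∀ z : (T × Bool) ⊕ N,
          (u z).elim (fun x' => (f (Sum.map id (Equiv.swap x y) (inr x'))).map
            (inl : _ → Fin k ⊕ R) (· + b x')) (Prod.map inr id) =
          (u (z.map id (Equiv.swap i j))).elim (fun x' => (f (inr x')).map inl (· + b x'))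
            (Prod.map inr id) := by
        intro z
        have hne : ∀ z', (∃ x', u z' = inl x' ∧ (x' = x ∨ x' = y)) → z' = inr i ∨ z' = inr j := by
          rintro z' ⟨x', h1, rfl | rfl⟩
          · left; exact hu _ _ _ h1 hx
          · right; exact hu _ _ _ h1 hy
        have gen : ∀ z', z' ≠ inr i → z' ≠ inr j →
            (u z').elim (fun x' => (f (Sum.map id (Equiv.swap x y) (inr x'))).map
            (inl : _ → Fin k ⊕ R) (· + b x')) (Prod.map inr id) =
            (u z').elim (fun x' => (f (inr x')).map inl (· + b x')) (Prod.map inr id) := by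
          intro z' h1 h2
          rcases huz : u z' with x' | x'
          · simp only [Sum.elim_inl, Sum.map_inr]
            rw [Equiv.swap_apply_of_ne_of_ne]
            · rintro rfl; exact h1 (hu _ _ _ huz hx)
            · rintro rfl; exact h2 (hu _ _ _ huz hy)
          · rfl
        rcases z with z | z
        · exact gen _ (by simp) (by simp)
        · by_cases h1 : z = i
          · subst h1
            simp only [Sum.map_inr, Equiv.swap_apply_left, hx, hy, Sum.elim_inl, hb]
          by_cases h2 : z = j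
          · subst h2
            simp only [Sum.map_inr, Equiv.swap_apply_right, hx, hy, Sum.elim_inl, hb]
          rw [gen _ (by simpa using h1) (by simpa using h2)]
          simp only [Sum.map_inr, Equiv.swap_apply_of_ne_of_ne h1 h2]
      funext z
      rcases z with ⟨z | z, c⟩ | z
      · rfl
      · exact hw (inl (z, c))
      · exact hw (inr z)
  have h2 : ∑ᶠ f, t f = ∑ᶠ f : (Fin m × Bool) ⊕ L → Fin k × ℕ,
      t (fun y' => f (y'.map id (Equiv.swap x y))) := by
    have := finsum_comp_equiv (f := t) (Equiv.arrowCongr (Equiv.sumCongr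
      (Equiv.refl (Fin m × Bool)) (Equiv.swap x y)) (Equiv.refl (Fin k × ℕ)))
    rw [← this]
    refine finsum_congr fun f => ?_
    congr 1
  have h3 : ∑ᶠ f, t f = - ∑ᶠ f, t f := by
    conv_lhs => rw [h2]
    simp only [key]
    exact finsum_neg_distrib t
  linarith

/-- The relation is not placed at a vertex of a larger graph: if a term does not vanish, then the
vertex has genus `g`, there are no further vertices, and the degrees add up to `d`. -/
lemma term_ne (g d : ℕ) [Finite N] [Finite L] [IsEmpty T] [Finite R] (s : Fn N) (hs : Tr g d s)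
    (r : R → ℕ × Multiset ℕ) (u : (T × Bool) ⊕ N → L ⊕ R × ℕ) (b : L → ℕ) (γ e : ℕ)
    (hu : ∀ y z x, u y = inl x → u z = inl x → y = z) (k m : ℕ) (a : Fin k → ℕ × Multiset ℕ)
    (f : (Fin m × Bool) ⊕ L → Fin k × ℕ) (hst : Stab a f γ e)
    (hne : inn s r u b a f ≠ 0) :
    IsEmpty R ∧ γ = g ∧ e + ∑ᶠ x, b x = d := by
  have hV := not_imp_comm.mp (hs.1 _ _ _ _) hne
  obtain ⟨hV, -⟩ := hV
  obtain ⟨-, -, hk, hconn, hgen, -, hdeg⟩ := hV
  obtain ⟨-, -, hk', -, hgen', -, hdeg'⟩ := hst
  have hR : IsEmpty R := by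
    have := hconn (Set.range inl) (by
      rintro (i | t)
      · simp [Prod.map]
      · exact isEmptyElim t)
    rcases this with h | h
    · obtain ⟨v⟩ := hk'
      have h0 : (inl v : Fin k ⊕ R) ∈ Set.range (inl : Fin k → Fin k ⊕ R) := ⟨v, rfl⟩
      rw [h] at h0
      exact absurd h0 (by simp)
    · refine ⟨fun x => ?_⟩
      have : (inr x : Fin k ⊕ R) ∈ Set.range inl := h ▸ Set.mem_univ _
      simp at this
  refine ⟨hR, ?_, ?_⟩
  · have h1 : ∑ᶠ v : Fin k ⊕ R, (Sum.elim (fun v =>
        ((a v).1, (a v).2 + ∑ᶠ (x) (_ : inl x ∉ Set.range u ∧ (f (inr x)).1 = v),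
          ({(f (inr x)).2 + b x} : Multiset ℕ))) r v).1 = ∑ᶠ v, (a v).1 := by
      rw [← finsum_comp_equiv (Equiv.sumEmpty (Fin k) R).symm]
      rfl
    rw [h1] at hgen
    simp only [Nat.card_sum, Nat.card_of_isEmpty, add_zero] at hgen
    omega
  · have := Fintype.ofFinite L
    have := Fintype.ofFinite N
    have hq : ∀ n : N, ∃ x, u (inr n) = inl x := by
      intro n
      rcases h : u (inr n) with x | x
      · exact ⟨x, rfl⟩
      · exact isEmptyElim x.1
    choose q hq using hq
    have hinj : Function.Injective q := by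
      intro n n' h
      have := hu (inr n) (inr n') (q n) (hq n) (by rw [h]; exact hq n')
      simpa using this
    have hrange : ∀ x, (inl x : L ⊕ R × ℕ) ∈ Set.range u ↔ x ∈ Set.range q := by
      intro x
      constructor
      · rintro ⟨y | n, hy⟩
        · exact isEmptyElim y.1
        · rw [hq] at hy
          exact ⟨n, by simpa using hy⟩
      · rintro ⟨n, rfl⟩
        exact ⟨inr n, hq n⟩
    have h2 : ∑ᶠ v : Fin k ⊕ R, (Sum.elim (fun v =>
        ((a v).1, (a v).2 + ∑ᶠ (x) (_ : inl x ∉ Set.range u ∧ (f (inr x)).1 = v),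
          ({(f (inr x)).2 + b x} : Multiset ℕ))) r v).2.sum = ∑ᶠ v, (a v).2.sum +
            ∑ x, if x ∈ Set.range q then 0 else (f (inr x)).2 + b x := by
      rw [← finsum_comp_equiv (Equiv.sumEmpty (Fin k) R).symm]
      simp only [Equiv.sumEmpty_symm_apply, Sum.elim_inl, Multiset.sum_add, hrange,
        finsum_eq_sum_of_fintype, finsum_eq_if]
      rw [Finset.sum_add_distrib]
      congr 1
      have h3 : ∀ v : Fin k, (∑ x : L, if x ∉ Set.range q ∧ (f (inr x)).1 = v then
          ({(f (inr x)).2 + b x} : Multiset ℕ) else 0).sum =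
          ∑ x : L, if x ∉ Set.range q ∧ (f (inr x)).1 = v then (f (inr x)).2 + b x else 0 := by
        intro v
        rw [← Multiset.coe_sumAddMonoidHom, map_sum]
        refine Finset.sum_congr rfl fun x _ => ?_
        split_ifs <;> simp
      simp only [h3]
      rw [Finset.sum_comm]
      refine Finset.sum_congr rfl fun x _ => ?_
      by_cases hx : x ∈ Set.range q
      · simp [hx]
      · simp [hx]
    have h4 : ∑ᶠ y : ((Fin m ⊕ T) × Bool) ⊕ N, (Sum.elim (fun y : (Fin m ⊕ T) × Bool => y.1.elim
            (fun i => (f (inl (i, y.2))).map inl id) fun t => (u (inl (t, y.2))).elim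
              (fun x => (f (inr x)).map inl (· + b x)) (Prod.map inr id))
              (fun i => (u (inr i)).elim
              (fun x => (f (inr x)).map inl (· + b x)) (Prod.map inr id)) y : (Fin k ⊕ R) × ℕ).2 =
          ∑ y : Fin m × Bool, (f (inl y)).2 +
            ∑ x, if x ∈ Set.range q then (f (inr x)).2 + b x else 0 := by
      rw [← finsum_comp_equiv (Equiv.sumCongr (Equiv.prodCongr (Equiv.sumEmpty (Fin m) T).symm
        (Equiv.refl Bool)) (Equiv.refl N)), finsum_eq_sum_of_fintype, Fintype.sum_sum_type]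
      congr 1
      simp only [Equiv.sumCongr_apply, Equiv.coe_refl, Sum.map_inr, id, Sum.elim_inr, hq,
        Sum.elim_inl, Prod.map_snd]
      rw [← Finset.sum_filter, ← Finset.sum_image (f := fun x => (f (inr x)).2 + b x)
        (g := q) (s := Finset.univ) (fun x _ y _ h => hinj h)]
      refine Finset.sum_congr ?_ fun _ _ => rfl
      ext x
      simp
    change Nat.card (Fin m ⊕ T) + _ + ∑ᶠ y : ((Fin m ⊕ T) × Bool) ⊕ N, (Sum.elim
      (fun y : (Fin m ⊕ T) × Bool => y.1.elim
            (fun i => (f (inl (i, y.2))).map inl id) fun t => (u (inl (t, y.2))).elim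
              (fun x => (f (inr x)).map inl (· + b x)) (Prod.map inr id))
              (fun i => (u (inr i)).elim
              (fun x => (f (inr x)).map inl (· + b x)) (Prod.map inr id)) y :
              (Fin k ⊕ R) × ℕ).2 = d at hdeg
    rw [h2, h4] at hdeg
    simp only [Nat.card_sum, Nat.card_of_isEmpty, add_zero] at hdeg
    rw [finsum_eq_sum_of_fintype (fun y => (f y).2), Fintype.sum_sum_type] at hdeg'
    rw [finsum_eq_sum_of_fintype]
    have h5 : (∑ x, if x ∈ Set.range q then 0 else (f (inr x)).2 + b x) +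
        (∑ x, if x ∈ Set.range q then (f (inr x)).2 + b x else 0) =
        ∑ x, (f (inr x)).2 + ∑ x, b x := by
      rw [← Finset.sum_add_distrib, ← Finset.sum_add_distrib]
      refine Finset.sum_congr rfl fun x _ => ?_
      split_ifs <;> simp
    omega

/-- The sum of the `m` smallest numbers that are `0` or `1` modulo `3`. -/
def al (m : ℕ) : ℕ := ∑ i ∈ Finset.range m, (3 * (i / 2) + i % 2)

lemma al_le_sum (S : Finset ℕ) : al S.card ≤ ∑ i ∈ S, (3 * (i / 2) + i % 2) := by
  induction h : S.card generalizing S with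
  | zero => simp [al]
  | succ m ih =>
    have hne : S.Nonempty := by
      rw [← Finset.card_pos]; omega
    have hM := S.max'_mem hne
    have hcard : (S.erase (S.max' hne)).card = m := by
      rw [Finset.card_erase_of_mem hM]; omega
    have hle : m ≤ S.max' hne := by
      have h1 : S ⊆ Finset.range (S.max' hne + 1) := by
        intro x hx
        simpa [Nat.lt_succ_iff] using S.le_max' x hx
      have := Finset.card_le_card h1
      rw [h, Finset.card_range] at this
      omega
    rw [← Finset.add_sum_erase S _ hM, al, Finset.sum_range_succ, ← al]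
    have := ih _ hcard
    omega

/-- If the pairs `(A x, b x)` are pairwise different then the sum of all `A x + 3 b x` is large. -/
lemma al_le {X : Type} [Fintype X] (A b : X → ℕ) (hA : ∀ x, A x ≤ 1)
    (hinj : ∀ x y, A x = A y → b x = b y → x = y) : al (Fintype.card X) ≤ ∑ x, (A x + 3 * b x) := by
  have h1 : Function.Injective fun x => A x + 2 * b x := by
    intro x y h
    have hx := hA x
    have hy := hA y
    simp only at h
    exact hinj x y (by omega) (by omega)
  have h2 := al_le_sum (Finset.univ.image fun x => A x + 2 * b x)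
  rw [Finset.card_image_of_injective _ h1, Finset.sum_image fun x _ y _ h => h1 h] at h2
  refine h2.trans (Finset.sum_le_sum fun x _ => ?_)
  have hx := hA x
  omega

/-- The theorem. -/
theorem pfree (g d : ℕ) (N C : Type) (c : N → C) (s : Fn N) [Finite N]
    (hanti : ∀ i j, i ≠ j → c i = c j →
      ∀ V E a f, s V E a (fun y => f (y.map id (Equiv.swap i j))) = - s V E a f)
    (hd : 3 * d ≤ g + ∑ᶠ k, al (Nat.card {i // c i = k})) (hs : BPix g d s) : Pix g d s := by
  rw [pix_iff]
  refine ⟨hs.1, ?_⟩
  intro R T L r u b A γ e hR hT hL hu hA hlt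
  rcases isEmpty_or_nonempty T with hT' | hT'
  swap
  · exact hs.2 R T L r u b A γ e hR hT hL hT' hu hA hlt
  by_contra hne
  -- there is a nonzero term
  have hex : ∃ (k m : ℕ) (a : Fin k → ℕ × Multiset ℕ) (f : (Fin m × Bool) ⊕ L → Fin k × ℕ),
      Stab a f γ e ∧ inn s r u b a f ≠ 0 := by
    by_contra hcon
    push Not at hcon
    apply hne
    unfold rl
    refine finsum_eq_zero_of_forall_eq_zero fun k => finsum_eq_zero_of_forall_eq_zero fun m =>
      finsum_eq_zero_of_forall_eq_zero fun a => finsum_eq_zero_of_forall_eq_zero fun f => ?_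
    by_cases hst : Stab a f γ e
    · exact mul_eq_zero_of_right _ (hcon k m a f hst)
    · have : wt a f γ e A = 0 := by
        unfold wt
        simp [hst]
      simp only [this, zero_div, zero_mul]
  obtain ⟨k, m, a, f, hst, hne'⟩ := hex
  obtain ⟨hR', hγ, hdeg⟩ := term_ne g d s hs.1 r u b γ e hu k m a f hst hne'
  subst hγ
  have := Fintype.ofFinite L
  have := Fintype.ofFinite N
  have hq : ∀ n : N, ∃ x, u (inr n) = inl x := by
    intro n
    rcases h : u (inr n) with x | x
    · exact ⟨x, rfl⟩
    · exact isEmptyElim x.1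
  choose q hq using hq
  have hinj : Function.Injective q := by
    intro n n' h
    have := hu (inr n) (inr n') (q n) (hq n) (by rw [h]; exact hq n')
    simpa using this
  -- two legs of the same colour in the same position
  have htwo : ∃ i j, i ≠ j ∧ c i = c j ∧ A (q i) = A (q j) ∧ b (q i) = b (q j) := by
    by_contra hcon
    push Not at hcon
    have h1 : ∑ᶠ k, al (Nat.card {i // c i = k}) ≤ ∑ i, (A (q i) + 3 * b (q i)) := by
      have h2 : ∑ i, (A (q i) + 3 * b (q i)) =
          ∑ k ∈ Finset.univ.image c, ∑ i with c i = k, (A (q i) + 3 * b (q i)) :=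
        (Finset.sum_fiberwise_of_maps_to (fun i _ => Finset.mem_image_of_mem c
          (Finset.mem_univ i)) _).symm
      have h3 : ∑ᶠ k, al (Nat.card {i // c i = k}) =
          ∑ k ∈ Finset.univ.image c, al (Nat.card {i // c i = k}) := by
        refine finsum_eq_sum_of_support_subset _ ?_
        intro k hk
        simp only [Finset.coe_image, Finset.coe_univ, Set.image_univ, Set.mem_range]
        by_contra hcon
        apply hk
        have : IsEmpty {i // c i = k} := ⟨fun x => hcon ⟨x.1, x.2⟩⟩
        simp [al]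
      rw [h2, h3]
      refine Finset.sum_le_sum fun k _ => ?_
      have h4 := al_le (X := {i // c i = k}) (fun i => A (q i.1)) (fun i => b (q i.1))
        (fun i => hA _) (fun i j hi hj => by
          by_contra hij
          exact hcon i.1 j.1 (fun h => hij (Subtype.ext h)) (i.2.trans j.2.symm) hi hj)
      rw [Nat.card_eq_fintype_card]
      refine h4.trans (le_of_eq ?_)
      rw [← Finset.sum_subtype (p := fun i => c i = k) (s := Finset.univ.filter fun i => c i = k)
        (f := fun i => A (q i) + 3 * b (q i))]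
      intro x
      simp
    have h5 : ∑ i, (A (q i) + 3 * b (q i)) ≤ ∑ x, (A x + 3 * b x) := by
      rw [← Finset.sum_image (f := fun x => A x + 3 * b x) (g := q) (s := Finset.univ)
        (fun x _ y _ h => hinj h)]
      exact Finset.sum_le_sum_of_subset (Finset.subset_univ _)
    rw [finsum_eq_sum_of_fintype] at hlt hdeg
    have h6 : ∑ x, (A x + 3 * b x) = ∑ x, A x + 3 * ∑ x, b x := by
      rw [Finset.sum_add_distrib, ← Finset.mul_sum]
    omega
  obtain ⟨i, j, hij, hc, hAij, hbij⟩ := htwo
  exact hne (rl_anti s r u b A _ e hu i j (hanti i j hij hc) (q i) (q j) (hq i) (hq j) hAij hbij)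

end Vale.Agent.P273.D14
end
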