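import Vale.Agent.P273.C1.R1
import Vale.Agent.P273.D14.PFree

/-!
Gluing: if all restrictions of a functional to vertices of graphs with at least one further edge
satisfy Pixton's relations, then so does the functional, for graphs with at least one further edge.
-/

noncomputable section
namespace Vale.Agent.P273.D14
open Sum Vale.Agent.P273 Vale.Agent.P273.C1.R3B Vale.Agent.P273.C1.R1B
open scoped Classical

variable {V E V' E' L M N R T R' T' : Type}

lemma rl_eq (s : Q.Fn N) (W : Env R T L N) (A : L → ℕ) (γ e : ℕ) [Finite L] :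
    rl s W.dec W.use W.b A γ e =
      ∑ p ∈ supp γ A e, (wt p.2.2 γ A e / (p.1.factorial * p.2.1.factorial * 2 ^ p.2.1)) *
        s _ _ (W.graft p.2.2).dec (W.graft p.2.2).hf := by
  have key : 
      ∑ p ∈ supp γ A e, (wt p.2.2 γ A e / (p.1.factorial * p.2.1.factorial * 2 ^ p.2.1)) *
        s _ _ (W.graft p.2.2).dec (W.graft p.2.2).hf =
      ∑ᶠ (k : ℕ) (m : ℕ) (a : Fin k → ℕ × Multiset ℕ) (f : (Fin m × Bool) ⊕ L → Fin k × ℕ),
        (wt (⟨a, f⟩ : Gr (Fin k) (Fin m) L) γ A e /
          (k.factorial * m.factorial * 2 ^ m)) *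
          s _ _ (W.graft ⟨a, f⟩).dec (W.graft ⟨a, f⟩).hf := by
    rw [← finsum_supp γ e A (fun k m G => (wt G γ A e / (k.factorial * m.factorial * 2 ^ m)) *
        s _ _ (W.graft G).dec (W.graft G).hf)]
    · apply finsum_congr
      intro k
      apply finsum_congr
      intro m
      rw [← finsum_Gr]
      apply (finite_wt_km γ e A k m).subset
      intro G hG h0
      apply hG
      dsimp only
      rw [h0, zero_div, zero_mul]
    · intro k m G h0
      rw [h0, zero_div, zero_mul]
  rw [key]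
  unfold rl
  apply finsum_congr
  intro k
  apply finsum_congr
  intro m
  apply finsum_congr
  intro a
  apply finsum_congr
  intro f
  rw [← cwt_eq]
  rfl

/-- The positions of a vertex that are used. -/
def Us (u : (T × Bool) ⊕ N → L ⊕ R × ℕ) : Type := {x : L // inl x ∈ Set.range u}

lemma exists_us (u : (T × Bool) ⊕ N → L ⊕ R × ℕ) (y : (T × Bool) ⊕ N) :
    ∃ z : Us u ⊕ R × ℕ, (∀ x, z = inl x ↔ u y = inl x.1) ∧ ∀ p, z = inr p ↔ u y = inr p := by
  rcases h : u y with x | p
  · refine ⟨inl ⟨x, y, h⟩, fun x' => ?_, fun p => by simp⟩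
    constructor
    · intro h'
      rw [← inl.inj h']
    · intro h'
      have h'' := inl.inj h'
      exact congrArg inl (Subtype.ext h'')
  · exact ⟨inr p, fun x => by simp, fun p' => by simp⟩

/-- The environment, with only the used positions. -/
def us (u : (T × Bool) ⊕ N → L ⊕ R × ℕ) (y : (T × Bool) ⊕ N) : Us u ⊕ R × ℕ :=
  (exists_us u y).choose

lemma us_inl {u : (T × Bool) ⊕ N → L ⊕ R × ℕ} {y : (T × Bool) ⊕ N} {x : Us u} :
    us u y = inl x ↔ u y = inl x.1 := (exists_us u y).choose_spec.1 x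

lemma us_inr {u : (T × Bool) ⊕ N → L ⊕ R × ℕ} {y : (T × Bool) ⊕ N} {z : R × ℕ} :
    us u y = inr z ↔ u y = inr z := (exists_us u y).choose_spec.2 z

/-- The trivial environment for the relation. -/
def triv (u : (T × Bool) ⊕ N → L ⊕ R × ℕ) (b : L → ℕ) : Env Empty Empty L (Us u) :=
  ⟨Empty.elim, Sum.elim (fun y => y.1.elim) (fun x => inl x.1), b⟩

lemma triv_range (u : (T × Bool) ⊕ N → L ⊕ R × ℕ) (b : L → ℕ) (x : L) :
    inl x ∈ Set.range (triv u b).use ↔ inl x ∈ Set.range u := by
  constructor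
  · rintro ⟨y | y, h⟩
    · exact y.1.elim
    · have : y.1 = x := by simpa [triv] using h
      rw [← this]
      exact y.2
  · intro h
    exact ⟨inr ⟨x, h⟩, rfl⟩

lemma triv_graft (s : Q.Fn N) {g d : ℕ} (hs : Q.Tr g d s) (r : R → ℕ × Multiset ℕ)
    (u : (T × Bool) ⊕ N → L ⊕ R × ℕ) (b : L → ℕ) (G : Gr V E L) :
    s _ _ (big ((triv u b).graft G) r (us u)).dec (big ((triv u b).graft G) r (us u)).hf =
      s _ _ ((⟨r, u, b⟩ : Env R T L N).graft G).dec ((⟨r, u, b⟩ : Env R T L N).graft G).hf := by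
  apply iso_s hs _ _ (Sum.map (Sum.elim id Empty.elim) id) (Sum.map (Sum.elim id Empty.elim) id)
  · constructor
    · rintro ((v | v) | v) ((w | w) | w) h
      all_goals first | exact v.elim | exact w.elim | skip
      all_goals simp at h ⊢
      all_goals exact h
    · rintro (v | v)
      · exact ⟨inl (inl v), rfl⟩
      · exact ⟨inr v, rfl⟩
  · constructor
    · rintro ((v | v) | v) ((w | w) | w) h
      all_goals first | exact v.elim | exact w.elim | skip
      all_goals simp at h ⊢
      all_goals exact h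
    · rintro (v | v)
      · exact ⟨inl (inl v), rfl⟩
      · exact ⟨inr v, rfl⟩
  · rintro ((v | v) | v)
    · show ((⟨r, u, b⟩ : Env R T L N).graft G).dec (inl v) = ((triv u b).graft G).dec (inl v)
      rw [Env.graft_dec_inl, Env.graft_dec_inl]
      unfold Env.unused
      simp only [triv_range]
      rfl
    · exact v.elim
    · rfl
  · intro y
    rcases cases_lf y with ⟨e | e, c, rfl⟩ | ⟨z, rfl⟩
    · rfl
    · exact e.elim
    · have h0 : (lf (E ⊕ Empty) z).map (Prod.map (Sum.map (Sum.elim id Empty.elim) id) id) id =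
          lft E z := by
        rcases z with ⟨t, b⟩ | n <;> rfl
      rw [h0, graft_hf_lft, big_hf_lf]
      rcases hz : u z with l | p
      · have h1 : us u z = inl ⟨l, z, hz⟩ := us_inl.2 hz
        rw [h1, Env.usehf_inl hz]
        rfl
      · have h1 : us u z = inr p := us_inr.2 hz
        rw [h1, Env.usehf_inr hz]
        rfl

/-- Gluing. -/
theorem bpix_of_res {g d : ℕ} [Finite N] {s : Q.Fn N} (hs : Q.Tr g d s)
    (h : ∀ (γ e : ℕ) (M R T : Type) (r : R → ℕ × Multiset ℕ) (u : (T × Bool) ⊕ N → M ⊕ R × ℕ),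
      Finite M → Finite R → Finite T → Nonempty T → (∀ x, ∃! y, u y = inl x) →
      Q.Pix γ e (Q.res γ e s r u)) : BPix g d s := by
  refine ⟨hs, ?_⟩
  intro R T L r u b A γ e hR hT hL hne hu hA hlt
  have hU : Finite (Us u) := Subtype.finite
  set W0 : Env R T L N := ⟨r, u, b⟩ with hW0
  set W := triv u b with hW
  have hus : ∀ x, ∃! y, us u y = inl x := by
    rintro ⟨x, y, hy⟩
    refine ⟨y, us_inl.2 hy, ?_⟩
    intro z hz
    exact hu _ _ _ (us_inl.1 hz) hy
  have hWi : ∀ y z x, W.use y = inl x → W.use z = inl x → y = z := by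
    rintro (y | y) (z | z) x h1 h2
    all_goals first | exact y.1.elim | exact z.1.elim | skip
    have h3 : y.1 = x := by simpa [hW, triv] using h1
    have h4 : z.1 = x := by simpa [hW, triv] using h2
    rw [Subtype.ext (h3.trans h4.symm)]
  have hpix := h γ (e + W.cdeg) (Us u) R T r (us u) hU hR hT hne hus
  rw [Pix_iff] at hpix
  have h1 := hpix.2 Empty Empty L W A γ e inferInstance inferInstance hL hWi hA hlt
  change rl s W0.dec W0.use W0.b A γ e = 0
  rw [rl_eq, ← h1]
  apply Finset.sum_congr rfl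
  intro p _
  by_cases hp : wt p.2.2 γ A e = 0
  · rw [hp, zero_div, zero_mul, zero_mul]
  congr 1
  obtain ⟨p1, p2, _⟩ := wt_ne_zero hp
  rw [← triv_graft s hs r u b p.2.2]
  unfold Q.res
  rw [ins_eq]
  split_ifs with hv
  · rfl
  apply hs.1
  intro hb
  apply hv
  rw [cValid_iff] at hb ⊢
  refine ⟨⟨inferInstance, inferInstance, ⟨⟨inl p1.1.some⟩, ?_, ?_, ?_⟩, ?_⟩, ?_⟩
  · intro t ht
    have h2 := p1.2.1 (inl ⁻¹' t) (by
      intro e'
      have := ht (inl e')
      rw [Env.graft_hf_inl, Env.graft_hf_inl] at this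
      exact this)
    rcases h2 with h2 | h2
    · left
      ext v
      rcases v with v | v
      · have : v ∈ inl ⁻¹' t ↔ v ∈ (∅ : Set (Fin p.1)) := by rw [h2]
        simpa using this
      · exact v.elim
    · right
      ext v
      rcases v with v | v
      · have : v ∈ inl ⁻¹' t ↔ v ∈ (Set.univ : Set (Fin p.1)) := by rw [h2]
        simpa using this
      · exact v.elim
  · have h2 := p1.2.2.1
    rw [finsum_eq_sum_of_fintype] at h2 ⊢
    rw [Fintype.sum_sum_type, Nat.card_sum, Nat.card_sum, Nat.card_of_isEmpty (α := Empty)]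
    have e1 : ∑ v, ((W.graft p.2.2).dec (inl v)).1 = ∑ v, (p.2.2.dec v).1 := rfl
    rw [e1]
    simpa using h2
  · intro w
    have h2 := hb.1.2.2.1.2.2.2 (inl w)
    rw [nv_big _ r hus] at h2
    exact h2
  · intro w
    have h2 := hb.1.2.2.2 (inl w)
    rw [nv_big _ r hus, ← degAt_eq, degAt_big _ r hus, degAt_eq] at h2
    exact h2
  · have h2 := deg_graft W hWi p.2.2
    rw [p2] at h2
    exact h2

end Vale.Agent.P273.D14
end
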