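import Vale.Agent.P273.D14.Move3

/-!
The criterion: for a functional killed by the forgetful pullback of some legs, Pixton's relations
follow from those in which none of these legs sits at a position with `A = b = 0`.
-/

noncomputable section
namespace Vale.Agent.P273.D14.Mv
open Sum Vale.Agent.P273 Vale.Agent.P273.C1.R3B Vale.Agent.P273.C1.R1B
open scoped Classical Nat

variable {V E V' E' L L' M N N' R T : Type}

/-! ### relabelling -/

lemma nv_relab (f : (E × Bool) ⊕ L' → V × ℕ) (ε : L ≃ L') (v : V) :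
    Q.nv (fun y => f (y.map id ε)) v = Q.nv f v := by
  unfold Q.nv
  exact Nat.card_congr (Equiv.subtypeEquiv (Equiv.sumCongr (Equiv.refl (E × Bool)) ε) fun y => by
    rcases y with y | y <;> rfl)

lemma stab_relab (a : V → ℕ × Multiset ℕ) (f : (E × Bool) ⊕ L' → V × ℕ) (g d : ℕ) (ε : L ≃ L') :
    Q.Stab a (fun y => f (y.map id ε)) g d ↔ Q.Stab a f g d := by
  unfold Q.Stab
  have h : ∑ᶠ y : (E × Bool) ⊕ L, (f (y.map id ε)).2 = ∑ᶠ y, (f y).2 := by
    have := finsum_comp_equiv (f := fun y => (f y).2) (Equiv.sumCongr (Equiv.refl (E × Bool)) ε)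
    rw [← this]
    congr 1
  rw [h]
  simp only [nv_relab]
  rfl

lemma valid_relab (a : V → ℕ × Multiset ℕ) (f : (E × Bool) ⊕ L' → V × ℕ) (g d : ℕ) (ε : L ≃ L') :
    Q.Valid a (fun y => f (y.map id ε)) g d ↔ Q.Valid a f g d := by
  unfold Q.Valid
  have h : ∀ v, ∑ᶠ (y : (E × Bool) ⊕ L) (_ : (f (y.map id ε)).1 = v), (f (y.map id ε)).2 =
      ∑ᶠ (y) (_ : (f y).1 = v), (f y).2 := by
    intro v
    have := finsum_comp_equiv (f := fun y => ∑ᶠ (_ : (f y).1 = v), (f y).2)
      (Equiv.sumCongr (Equiv.refl (E × Bool)) ε)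
    rw [← this]
    congr 1
  simp only [stab_relab, h, nv_relab]

lemma wt_relab (a : V → ℕ × Multiset ℕ) (f : (E × Bool) ⊕ L' → V × ℕ) (g d : ℕ) (A : L' → ℕ)
    (ε : L ≃ L') :
    Q.wt a (fun y => f (y.map id ε)) g d (fun x => A (ε x)) = Q.wt a f g d A := by
  unfold Q.wt
  have h : ∀ s : V → ℚ, (∏ᶠ x, Q.B (A (ε x)) ((f (Sum.map id ε (inr x))).map s id).1
      ((f (Sum.map id ε (inr x))).map s id).2) =
      ∏ᶠ x, Q.B (A x) ((f (inr x)).map s id).1 ((f (inr x)).map s id).2 := by
    intro s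
    rw [← finprod_comp_equiv (f := fun x => Q.B (A x) ((f (inr x)).map s id).1
      ((f (inr x)).map s id).2) ε]
    simp only [Sum.map_inr]
  simp only [stab_relab, h, Sum.map_inl, id]

/-- Relabelling the positions of a relation. -/
lemma rl_relab (s : Q.Fn N) (r : R → ℕ × Multiset ℕ) (u : (T × Bool) ⊕ N → L ⊕ R × ℕ)
    (b A : L → ℕ) (γ e : ℕ) (ε : L ≃ L') :
    rl s r (fun y => (u y).map ε id) (fun x => b (ε.symm x)) (fun x => A (ε.symm x)) γ e =
      rl s r u b A γ e := by
  unfold rl
  apply finsum_congr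
  intro k
  apply finsum_congr
  intro m
  apply finsum_congr
  intro a
  rw [← finsum_comp_equiv (Equiv.arrowCongr (Equiv.sumCongr (Equiv.refl (Fin m × Bool)) ε.symm)
    (Equiv.refl (Fin k × ℕ)))]
  apply finsum_congr
  intro f
  have hf : (Equiv.arrowCongr (Equiv.sumCongr (Equiv.refl (Fin m × Bool)) ε.symm)
      (Equiv.refl (Fin k × ℕ))) f = fun y => f (y.map id ε) := by
    funext y
    rcases y with y | y <;> rfl
  rw [hf]
  have h1 := wt_relab a f γ e (fun x => A (ε.symm x)) ε
  simp only [Equiv.symm_apply_apply] at h1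
  rw [h1]
  have hu : ∀ y, ((u y).map ε id : L' ⊕ R × ℕ).elim
      (fun x => ((f (inr x)).map inl (· + b (ε.symm x)) : (Fin k ⊕ R) × ℕ)) (Prod.map inr id) =
      (u y).elim (fun x => (f (Sum.map id ε (inr x))).map inl (· + b x)) (Prod.map inr id) := by
    intro y
    rcases u y with x | p
    · simp
    · rfl
  simp only [hu]
  refine congrArg (_ * ·) (congrArg₂ (s (Fin k ⊕ R) (Fin m ⊕ T)) ?_ ?_)
  rotate_left
  · funext y
    rcases y with ⟨e' | t, c⟩ | y <;> rfl
  funext w
  rcases w with v | x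
  · simp only [Sum.elim_inl]
    congr 2
    rw [← finsum_comp_equiv ε]
    apply finsum_congr
    intro x
    have h2 : (inl (ε x) ∈ Set.range fun y => ((u y).map ε id : L' ⊕ R × ℕ)) ↔
        inl x ∈ Set.range u := by
      constructor
      · rintro ⟨y, hy⟩
        refine ⟨y, ?_⟩
        rcases hy' : u y with x' | p
        · simp only [hy', Sum.map_inl, inl.injEq, EmbeddingLike.apply_eq_iff_eq] at hy
          rw [hy]
        · simp [hy'] at hy
      · rintro ⟨y, hy⟩
        exact ⟨y, by simp [hy]⟩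
    rw [h2]
    simp
  · rfl

/-- Relabelling the legs of a functional. -/
def rb (ε : N ≃ N') (s : Q.Fn N') : Q.Fn N := fun V E a f => s V E a fun y => f (y.map id ε.symm)

lemma rl_rb (ε : N ≃ N') (s : Q.Fn N') (r : R → ℕ × Multiset ℕ)
    (u : (T × Bool) ⊕ N' → L ⊕ R × ℕ) (b A : L → ℕ) (γ e : ℕ) :
    rl (rb ε s) r (fun y => u (y.map id ε)) b A γ e = rl s r u b A γ e := by
  unfold rl rb
  apply finsum_congr
  intro k
  apply finsum_congr
  intro m
  apply finsum_congr
  intro a
  apply finsum_congr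
  intro f
  have h2 : ∀ x : L, (inl x ∈ Set.range fun y : (T × Bool) ⊕ N => u (y.map id ε)) ↔
      inl x ∈ Set.range u := by
    intro x
    constructor
    · rintro ⟨y, hy⟩
      exact ⟨_, hy⟩
    · rintro ⟨y, hy⟩
      refine ⟨y.map id ε.symm, ?_⟩
      rw [← hy]
      rcases y with y | y <;> simp
  simp only [h2]
  refine congrArg (_ * ·) (congrArg₂ (s (Fin k ⊕ R) (Fin m ⊕ T)) rfl ?_)
  funext y
  rcases y with y | y
  · rfl
  · simp

lemma tr_rb (ε : N ≃ N') {s : Q.Fn N'} {g d : ℕ} (hs : Q.Tr g d s) : Q.Tr g d (rb ε s) := by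
  refine ⟨?_, ?_, ?_⟩
  · intro V E a f hv
    apply hs.1
    rw [valid_relab a f g d ε.symm]
    exact hv
  · intro V E V' E' a f f' p q h1 h2 h3 h4
    apply hs.2.1 V E V' E' a _ _ p q h1 h2 h3
    intro y
    have := h4 (y.map id ε.symm)
    rw [← this]
    rcases y with y | y <;> rfl
  · intro V E a f v
    have h := hs.2.2 V E a (fun y => f (y.map id ε.symm)) v
    rw [nv_relab] at h
    exact h

/-! ### the criterion -/

/-- The functional `s` is killed by the forgetful pullback of the leg `i`. -/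
def Kills (g d : ℕ) (s : Q.Fn N') (i : N') : Prop :=
  ∃ (M : Type) (ε : Option M ≃ N'), ε none = i ∧
    ∀ (V E : Type) a f, Q.pull g d (rb ε s) V E a f = 0

lemma exists_res {x0 : L} {u : (T × Bool) ⊕ N' → L ⊕ R × ℕ} {ε : Option M ≃ N'}
    (hu : ∀ y z x, u y = inl x → u z = inl x → y = z) (h0 : u (inr (ε none)) = inl x0)
    (y : (T × Bool) ⊕ M) : ∃ z : {x // x ≠ x0} ⊕ R × ℕ,
      z.map Subtype.val id = u (y.map id fun m => ε (some m)) := by
  rcases h : u (y.map id fun m => ε (some m)) with x | p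
  · have hx : x ≠ x0 := by
      rintro rfl
      have := hu _ _ _ h h0
      rcases y with y | y
      · cases this
      · have h1 := inr.inj this
        have h2 := ε.injective h1
        cases h2
    exact ⟨inl ⟨x, hx⟩, rfl⟩
  · exact ⟨inr p, rfl⟩

/-- The induction step. -/
lemma step {g d : ℕ} [Finite N'] {s : Q.Fn N'} (hs : Q.Tr g d s)
    (hg : 3 < 2 * g + Nat.card N') {i : N'} (hi : Kills g d s i)
    [Finite R] [Finite T] [Finite L] (r : R → ℕ × Multiset ℕ)
    (u : (T × Bool) ⊕ N' → L ⊕ R × ℕ) (b A : L → ℕ) (γ e : ℕ)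
    (hu : ∀ y z x, u y = inl x → u z = inl x → y = z) (hA : ∀ x, A x ≤ 1)
    (hlt : γ + ∑ᶠ x, A x < 3 * e) {x0 : L} (hx : u (inr i) = inl x0) (hA0 : A x0 = 0)
    (hb0 : b x0 = 0)
    (ih : ∀ (R T L' : Type) (r : R → ℕ × Multiset ℕ) (u : (T × Bool) ⊕ N' → L' ⊕ R × ℕ)
      (b A : L' → ℕ), Finite R → Finite T → Finite L' → Nat.card L' < Nat.card L →
      (∀ y z x, u y = inl x → u z = inl x → y = z) → (∀ x, A x ≤ 1) →
      γ + ∑ᶠ x, A x < 3 * e → rl s r u b A γ e = 0) :
    rl s r u b A γ e = 0 := by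
  obtain ⟨M, ε, rfl, hp⟩ := hi
  have hM : Finite (Option M) := Finite.of_equiv _ ε.symm
  have hM' : Finite M := Finite.of_injective some (Option.some_injective M)
  choose w hw using exists_res hu hx
  let W : Env R T {x // x ≠ x0} M := ⟨r, w, fun x => b x.1⟩
  have hW : ∀ y z x, W.use y = inl x → W.use z = inl x → y = z := by
    intro y z x hy hz
    have h1 := hw y
    have h2 := hw z
    have hy' : w y = inl x := hy
    have hz' : w z = inl x := hz
    rw [hy'] at h1
    rw [hz'] at h2
    have h3 := hu _ _ _ h1.symm h2.symm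
    rcases y with y | y <;> rcases z with z | z
    · simpa using h3
    · cases h3
    · cases h3
    · have h4 := ε.injective (inr.inj h3)
      rw [Option.some_injective M h4]
  have key : ∀ (R' T' : Type) (W' : Env R' T' {x // x ≠ x0} (Option M)), Finite R' → Finite T' →
      (∀ y z x, W'.use y = inl x → W'.use z = inl x → y = z) →
      rlE (rb ε s) W' (fun x => A x.1) γ e = 0 := by
    intro R' T' W' hR' hT' hW'
    have h1 := rl_rb ε s W'.dec (fun y => W'.use (y.map id ε.symm)) W'.b
      (fun x : {x // x ≠ x0} => A x.1) γ e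
    have h2 : (fun y : (T' × Bool) ⊕ Option M =>
        W'.use ((y.map id ε).map id ε.symm)) = W'.use := by
      funext y
      rcases y with y | y <;> simp
    rw [h2] at h1
    show rl (rb ε s) W'.dec W'.use W'.b (fun x => A x.1) γ e = 0
    rw [h1]
    apply ih
    · exact hR'
    · exact hT'
    · infer_instance
    · have := Gr.card_ne L x0
      omega
    · intro y z x hy hz
      have h3 := hW' _ _ _ hy hz
      rcases y with y | y <;> rcases z with z | z
      · simpa using h3
      · cases h3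
      · cases h3
      · have h4 := ε.symm.injective (inr.inj h3)
        rw [h4]
    · intro x
      exact hA x.1
    · rw [Gr.finsum_ne x0 A, hA0] at hlt
      simpa using hlt
  have hmain := move (tr_rb ε hs) hp (by
      have h1 : Nat.card N' = Nat.card M + 1 := by
        rw [← Finite.card_option, Nat.card_congr ε]
      omega) W hW (fun x => A x.1) (fun x => hA x.1) γ e (by omega)
    (fun x hx => key _ _ _ inferInstance inferInstance
      (put_inj hW _ (Or.inl hx) rfl (putE_use_some W _)))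
    (fun r K c => key _ _ _ inferInstance inferInstance
      (put_inj hW _ (Or.inr ⟨_, rfl⟩) rfl (kapE_use_some W r K c)))
    (fun y => key _ _ _ inferInstance inferInstance (bubE_inj hW y))
  rw [← rl_rb ε, ← rl_relab _ _ _ _ _ _ _ (Equiv.optionSubtypeNe x0).symm]
  have e1 : (fun x => A ((Equiv.optionSubtypeNe x0).symm.symm x)) =
      Option.elim' 0 (fun x : {x // x ≠ x0} => A x.1) := by
    funext x
    rcases x with _ | x
    · simpa using hA0
    · rfl
  have e2 : (fun x => b ((Equiv.optionSubtypeNe x0).symm.symm x)) =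
      Option.elim' 0 (fun x : {x // x ≠ x0} => b x.1) := by
    funext x
    rcases x with _ | x
    · simpa using hb0
    · rfl
  have e3 : (fun y : (T × Bool) ⊕ Option M =>
      ((u (y.map id ε)).map (Equiv.optionSubtypeNe x0).symm id : Option {x // x ≠ x0} ⊕ R × ℕ)) =
      (optE W).use := by
    funext y
    rcases optEquiv_cases y with rfl | ⟨y, rfl⟩
    · rw [optE_use_none]
      show (u (inr (ε none))).map _ _ = _
      rw [hx]
      simp
    · rw [optE_use_some]
      have h1 : ((optEquiv T M (some y)).map id ε : (T × Bool) ⊕ N') =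
          y.map id fun m => ε (some m) := by
        rcases y with y | y <;> rfl
      rw [h1, ← hw y]
      show _ = (w y).map some id
      rcases w y with x | p
      · simp only [Sum.map_inl]
        rw [Equiv.optionSubtypeNe_symm_of_ne x.2]
      · rfl
  rw [e1, e2, e3]
  exact hmain

/-- Pixton's relations follow from those in which no leg in `S` is at a position with
`A = b = 0`. -/
theorem crit {g d : ℕ} [Finite N'] {s : Q.Fn N'} (hs : Q.Tr g d s)
    (hg : 3 < 2 * g + Nat.card N') (S : Set N') (hS : ∀ i ∈ S, Kills g d s i)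
    (h : ∀ (R T L : Type) (r : R → ℕ × Multiset ℕ) (u : (T × Bool) ⊕ N' → L ⊕ R × ℕ)
      (b A : L → ℕ) (γ e : ℕ), Finite R → Finite T → Finite L →
      (∀ y z x, u y = inl x → u z = inl x → y = z) → (∀ x, A x ≤ 1) →
      γ + ∑ᶠ x, A x < 3 * e →
      (∀ i ∈ S, ∀ x, u (inr i) = inl x → A x ≠ 0 ∨ b x ≠ 0) → rl s r u b A γ e = 0) :
    Q.Pix g d s := by
  rw [pix_iff]
  refine ⟨hs, ?_⟩
  have key : ∀ (n : ℕ) (R T L : Type) (r : R → ℕ × Multiset ℕ)
      (u : (T × Bool) ⊕ N' → L ⊕ R × ℕ) (b A : L → ℕ) (γ e : ℕ), Finite R → Finite T → Finite L →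
      Nat.card L = n → (∀ y z x, u y = inl x → u z = inl x → y = z) → (∀ x, A x ≤ 1) →
      γ + ∑ᶠ x, A x < 3 * e → rl s r u b A γ e = 0 := by
    intro n
    induction n using Nat.strong_induction_on with
    | _ n ih =>
      intro R T L r u b A γ e hR hT hL hn hu hA hlt
      by_cases hex : ∀ i ∈ S, ∀ x, u (inr i) = inl x → A x ≠ 0 ∨ b x ≠ 0
      · exact h R T L r u b A γ e hR hT hL hu hA hlt hex
      · push Not at hex
        obtain ⟨i, hi, x, hx, hA0, hb0⟩ := hex
        apply step hs hg (hS i hi) r u b A γ e hu hA hlt hx hA0 hb0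
        intro R' T' L' r' u' b' A' hR' hT' hL' hcard hu' hA' hlt'
        exact ih _ (by omega) R' T' L' r' u' b' A' γ e hR' hT' hL' rfl hu' hA' hlt'
  intro R T L r u b A γ e hR hT hL hu hA hlt
  exact key _ R T L r u b A γ e hR hT hL rfl hu hA hlt

end Vale.Agent.P273.D14.Mv
end
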