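import Vale.Agent.P273.D14.K7

/-!
Theorem K: Pixton's relation with an additional leg `x` with `A x = 0` is the pullback of Pixton's
relation without this leg.
-/

noncomputable section
namespace Vale.Agent.P273.D14
open Sum Vale.Agent.P273
open scoped Classical

variable {V E V' E' L M N R T : Type}

lemma mu_insB (w : V) (f : E) (s : Bool) (G : Gr {v // v ≠ w} {e // e ≠ f} L)
    (z : ({e // e ≠ f} × Bool) ⊕ L) :
    mu (insB w f s G z) (w, f, s) = z.elim (fun _ => 1 / 2) (fun _ => 1) := by
  have H := insB_mark w f s G z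
  unfold mu
  rcases z with y | x
  · rw [if_neg, if_pos ⟨y, H⟩]
    · rfl
    · rintro ⟨x, H'⟩
      have := mark_z H H'
      simp at this
  · rw [if_pos ⟨x, H⟩]
    rfl

/-- The contribution of one mark. -/
lemma sum_mark [Finite V] [Finite E] [Finite L] (γ e : ℕ) (A : L → ℕ) (hA : ∀ x, A x ≤ 1)
    (t : Q.Fn (Option L)) (ht : IsoInv t) (p : V × E × Bool) :
    ∑ᶠ G : Gr V E (Option L), mu G p * (wt G γ (Option.elim' 0 A) e * vl t G) =
      - RB γ e A t {v // v ≠ p.1} {e // e ≠ p.2.1} := by
  obtain ⟨w, f, s⟩ := p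
  dsimp only
  have hE := Fintype.ofFinite E
  have hL := Fintype.ofFinite L
  have hfinw := finite_wt (V := V) (E := E) γ e (Option.elim' 0 A)
  set j : Gr {v // v ≠ w} {e // e ≠ f} L × (({e // e ≠ f} × Bool) ⊕ L) → Gr V E (Option L) :=
    fun p => insB w f s p.1 p.2 with hj
  have hjinj : Function.Injective j := insB_inj w f s
  have h1 : (Function.support fun G : Gr V E (Option L) =>
      mu G (w, f, s) * (wt G γ (Option.elim' 0 A) e * vl t G)) ⊆ Set.range j := by
    intro G hG
    have h2 : mu G (w, f, s) ≠ 0 := by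
      intro h0
      exact hG (by simp only [h0, zero_mul])
    obtain ⟨z, H⟩ := mu_ne h2
    exact ⟨(delB H, z), insB_delB H⟩
  have h2 : ∑ᶠ G : Gr V E (Option L), mu G (w, f, s) * (wt G γ (Option.elim' 0 A) e * vl t G) =
      ∑ᶠ p : Gr {v // v ≠ w} {e // e ≠ f} L × (({e // e ≠ f} × Bool) ⊕ L),
        mu (j p) (w, f, s) * (wt (j p) γ (Option.elim' 0 A) e * vl t (j p)) := by
    calc _ = ∑ᶠ G ∈ Set.range j, mu G (w, f, s) * (wt G γ (Option.elim' 0 A) e * vl t G) := by
          rw [finsum_mem_def, Set.indicator_eq_self.2 h1]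
      _ = _ := finsum_mem_range hjinj
  rw [h2, finsum_curry]
  swap
  · refine (hfinw.preimage hjinj.injOn).subset ?_
    intro p hp h0
    exact hp (by simp only [h0, zero_mul, mul_zero])
  have h3 : ∀ G : Gr {v // v ≠ w} {e // e ≠ f} L,
      ∑ᶠ z, mu (j (G, z)) (w, f, s) * (wt (j (G, z)) γ (Option.elim' 0 A) e * vl t (j (G, z))) =
      ∑ z, - (wt (rai G z) γ A e * vl t ((rai G z).bubble z)) := by
    intro G
    rw [finsum_eq_sum_of_fintype, Fintype.sum_sum_type, Fintype.sum_sum_type]
    congr 1
    · -- edges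
      have h4 : ∀ y : {e // e ≠ f} × Bool, mu (j (G, inl y)) (w, f, s) *
          (wt (j (G, inl y)) γ (Option.elim' 0 A) e * vl t (j (G, inl y))) =
          - (1 / 2) * (wt (rai G (inl y)) γ A e * vl t (insB w f s G (inl y))) -
            (1 / 2) * (wt (rai G (inl (y.1, !y.2))) γ A e *
              vl t (insB w f s G (inl (y.1, !y.2)))) := by
        rintro ⟨e0, c⟩
        simp only [hj]
        rw [mu_insB, wt_insB_edge, ht _ _ _ _ _ _ (insB_iso_swap w f s G e0 c)]
        simp only [Sum.elim_inl]
        ring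
      have h5 : ∑ y : {e // e ≠ f} × Bool, (wt (rai G (inl (y.1, !y.2))) γ A e *
              vl t (insB w f s G (inl (y.1, !y.2)))) =
          ∑ y : {e // e ≠ f} × Bool, (wt (rai G (inl y)) γ A e *
              vl t (insB w f s G (inl y))) := by
        exact Equiv.sum_comp (Equiv.prodCongr (Equiv.refl {e // e ≠ f})
          (Function.Involutive.toPerm not Bool.not_not))
          (fun y => wt (rai G (inl y)) γ A e * vl t (insB w f s G (inl y)))
      rw [Finset.sum_congr rfl fun y _ => h4 y, Finset.sum_sub_distrib, ← Finset.mul_sum,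
        ← Finset.mul_sum, h5, Finset.sum_neg_distrib]
      have h6 : ∑ y : {e // e ≠ f} × Bool, (wt (rai G (inl y)) γ A e *
              vl t (insB w f s G (inl y))) = ∑ y : {e // e ≠ f} × Bool,
            wt (rai G (inl y)) γ A e * vl t ((rai G (inl y)).bubble (inl y)) := by
        apply Finset.sum_congr rfl
        intro y _
        rw [ht _ _ _ _ _ _ (bubble_iso w f s G (inl y))]
      rw [h6]
      ring
    · -- legs
      apply Finset.sum_congr rfl
      intro x _
      simp only [hj]
      rw [mu_insB, wt_insB_leg w f s G x γ A (hA x), ← ht _ _ _ _ _ _ (bubble_iso w f s G (inr x))]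
      simp only [Sum.elim_inr]
      ring
  rw [finsum_congr h3]
  simp only [Finset.sum_neg_distrib]
  rw [finsum_neg_distrib]
  congr 1
  -- reindex
  have hfin2 := finite_wt (V := {v // v ≠ w}) (E := {e // e ≠ f}) γ e A
  have hrinj : ∀ z, Function.Injective (fun G : Gr {v // v ≠ w} {e // e ≠ f} L => rai G z) := by
    intro z G G' h
    replace h : rai G z = rai G' z := h
    apply Gr.ext'
    · intro v
      have := congrFun (congrArg Gr.dec h) v
      exact this
    · intro y
      have h7 := congrFun (congrArg Gr.hf h) y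
      by_cases hy : y = z
      · subst hy
        rw [rai_self, rai_self] at h7
        simp only [Prod.mk.injEq, Nat.add_right_cancel_iff] at h7
        exact Prod.ext h7.1 h7.2
      · rwa [rai_ne _ hy, rai_ne _ hy] at h7
  rw [finsum_sum_comm]
  swap
  · intro z _
    refine (hfin2.preimage (hrinj z).injOn).subset ?_
    intro G hG h0
    exact hG (by simp only [h0, zero_mul])
  unfold RB
  have h8 : ∀ G : Gr {v // v ≠ w} {e // e ≠ f} L, wt G γ A e * pbb t G =
      ∑ z, (if (G.hf z).2 ≠ 0 then wt G γ A e * vl t (G.bubble z) else 0) := by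
    intro G
    unfold pbb
    rw [finsum_eq_sum_of_fintype, Finset.mul_sum]
    apply Finset.sum_congr rfl
    intro z _
    rw [finsum_eq_if, mul_ite, mul_zero]
  rw [finsum_congr h8, finsum_sum_comm]
  swap
  · intro z _
    refine hfin2.subset ?_
    intro G hG h0
    exact hG (by simp only [h0, zero_mul, ite_self])
  apply Finset.sum_congr rfl
  intro z _
  have h9 : (Function.support fun G : Gr {v // v ≠ w} {e // e ≠ f} L =>
      if (G.hf z).2 ≠ 0 then wt G γ A e * vl t (G.bubble z) else 0) ⊆
      Set.range (fun G : Gr {v // v ≠ w} {e // e ≠ f} L => rai G z) := by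
    intro G hG
    have h10 : (G.hf z).2 ≠ 0 := by
      intro h0
      exact hG (by simp only [h0, ne_eq, not_true_eq_false, if_false])
    refine ⟨⟨G.dec, Function.update G.hf z ((G.hf z).1, (G.hf z).2 - 1)⟩, ?_⟩
    apply Gr.ext'
    · intro v; rfl
    · intro y
      by_cases hy : y = z
      · subst hy
        simp only [rai_self, Function.update_self]
        exact Prod.ext rfl (by simp only; omega)
      · dsimp only
        rw [rai_ne _ hy]
        exact Function.update_of_ne hy _ _
  symm
  calc _ = ∑ᶠ G ∈ Set.range (fun G : Gr {v // v ≠ w} {e // e ≠ f} L => rai G z),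
        (if (G.hf z).2 ≠ 0 then wt G γ A e * vl t (G.bubble z) else 0) := by
        rw [finsum_mem_def, Set.indicator_eq_self.2 h9]
    _ = _ := finsum_mem_range (hrinj z)
    _ = _ := by
        apply finsum_congr
        intro G
        rw [if_pos]
        rw [rai_self]
        exact Nat.succ_ne_zero _

/-- The part of the pullback with bubbles. -/
lemma partB [Fintype V] [Fintype E] [Finite L] (γ e : ℕ) (hγ : 2 < 2 * γ + Nat.card L) (A : L → ℕ)
    (hA : ∀ x, A x ≤ 1) (t : Q.Fn (Option L)) (ht : IsoInv t) (h0 : BubZero t) :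
    ∑ᶠ G : Gr V E (Option L), (if CaseA G then 0 else wt G γ (Option.elim' 0 A) e * vl t G) =
      - ∑ p : V × E × Bool, RB γ e A t {v // v ≠ p.1} {e // e ≠ p.2.1} := by
  rw [← Finset.sum_neg_distrib, ← Finset.sum_congr rfl fun p _ => sum_mark γ e A hA t ht p,
    ← finsum_sum_comm]
  · apply finsum_congr
    intro G
    rw [← Finset.sum_mul]
    split_ifs with hc
    · rw [Finset.sum_eq_zero, zero_mul]
      intro p _
      by_contra hne
      obtain ⟨z, H⟩ := mu_ne hne
      exact mark_caseA H hc
    · by_cases hw : wt G γ (Option.elim' 0 A) e = 0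
      · rw [hw]; ring
      by_cases hv : vl t G = 0
      · rw [hv]; ring
      obtain ⟨hst, -, -⟩ := wt_ne_zero hw
      -- clean
      have hcl : Clean G := by
        by_contra hcl
        have h1 := hst.2.2.2 (G.hf (inr none)).1
        unfold CaseA at hc
        have h2 : ((G.dec (G.hf (inr none)).1).1 = 0 ∧ G.nv (G.hf (inr none)).1 = 3) ∨
            ((G.dec (G.hf (inr none)).1).1 = 1 ∧ G.nv (G.hf (inr none)).1 = 1) := by omega
        rcases h2 with h2 | h2
        · exact hv (h0 V E G h2.1 h2.2 hcl)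
        · have h3 : ∀ y, (G.hf y).1 = (G.hf (inr none)).1 → y = inr none := by
            have h4 := h2.2
            unfold Gr.nv at h4
            have h5 := (Nat.card_eq_one_iff_unique.1 h4).1
            intro y hy
            have := h5.elim ⟨y, hy⟩ ⟨inr none, rfl⟩
            exact congrArg Subtype.val this
          have h4 := only_one hst (fun e => by
            constructor
            · intro h; exact absurd (h3 _ h) (by simp)
            · intro h; exact absurd (h3 _ h) (by simp))
          have hE : IsEmpty E := ⟨fun e => absurd (h3 (inl (e, true)) (h4.1 _)) (by simp)⟩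
          have hLe : IsEmpty L := ⟨fun x => absurd (h3 (inr (some x)) (h4.1 _)) (by simp)⟩
          have h5 := h4.2
          rw [h2.1, Nat.card_of_isEmpty] at h5
          rw [Nat.card_of_isEmpty] at hγ
          omega
      rw [sum_mu hγ G hst hc hcl, one_mul]
  · intro p _
    refine (finite_wt γ e (Option.elim' 0 A)).subset ?_
    intro G hG h1
    exact hG (by simp only [h1, zero_mul, mul_zero])

/-- Both parts. -/
lemma partAB [Fintype V] [Fintype E] [Finite L] (γ e : ℕ) (hγ : 2 < 2 * γ + Nat.card L)
    (A : L → ℕ) (hA : ∀ x, A x ≤ 1) (t : Q.Fn (Option L)) (ht : IsoInv t) (h0 : BubZero t) :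
    ∑ᶠ G : Gr V E (Option L), wt G γ (Option.elim' 0 A) e * vl t G =
      ∑ᶠ G : Gr V E L, wt G γ A e * pba t G -
        ∑ p : V × E × Bool, RB γ e A t {v // v ≠ p.1} {e // e ≠ p.2.1} := by
  rw [← partA, sub_eq_add_neg, ← partB γ e hγ A hA t ht h0, ← finsum_add_distrib]
  · apply finsum_congr
    intro G
    split_ifs <;> simp
  · refine (finite_wt γ e (Option.elim' 0 A)).subset ?_
    intro G hG h1
    exact hG (by simp only [h1, zero_mul, ite_self])
  · refine (finite_wt γ e (Option.elim' 0 A)).subset ?_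
    intro G hG h1
    exact hG (by simp only [h1, zero_mul, ite_self])

/-- The relation as a sum over a large range. -/
lemma supp_sum_eq [Finite L] (γ e : ℕ) (A : L → ℕ) (h : ∀ k m : ℕ, Gr (Fin k) (Fin m) L → ℚ)
    (K : ℕ) (hK : e + 2 ≤ K) :
    ∑ p ∈ supp γ A e, (wt p.2.2 γ A e / (p.1.factorial * p.2.1.factorial * 2 ^ p.2.1)) *
        h p.1 p.2.1 p.2.2 =
      ∑ k ∈ Finset.range K, ∑ m ∈ Finset.range K,
        (1 / ((k.factorial : ℚ) * m.factorial * 2 ^ m)) * ∑ᶠ G : Gr (Fin k) (Fin m) L,
          wt G γ A e * h k m G := by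
  rw [supp, Finset.sum_sigma]
  have hz1 : ∀ k m, ¬ (k < e + 2 ∧ m < e + 1) →
      ∑ᶠ G : Gr (Fin k) (Fin m) L, wt G γ A e * h k m G = 0 := by
    intro k m hkm
    apply finsum_eq_zero_of_forall_eq_zero
    intro G
    have : wt G γ A e = 0 := by
      by_contra hne
      exact hkm (wt_bound hne)
    rw [this, zero_mul]
  have h1 : ∑ k ∈ Finset.range K, ∑ m ∈ Finset.range K,
        (1 / ((k.factorial : ℚ) * m.factorial * 2 ^ m)) * ∑ᶠ G : Gr (Fin k) (Fin m) L,
          wt G γ A e * h k m G = ∑ k ∈ Finset.range (e + 2), ∑ m ∈ Finset.range (e + 1),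
        (1 / ((k.factorial : ℚ) * m.factorial * 2 ^ m)) * ∑ᶠ G : Gr (Fin k) (Fin m) L,
          wt G γ A e * h k m G := by
    rw [← Finset.sum_subset (Finset.range_subset_range.2 hK)]
    · apply Finset.sum_congr rfl
      intro k _
      rw [← Finset.sum_subset (Finset.range_subset_range.2 (by omega : e + 1 ≤ K))]
      intro m _ hm
      rw [hz1 k m (by simp at hm; omega), mul_zero]
    · intro k _ hk
      apply Finset.sum_eq_zero
      intro m _
      rw [hz1 k m (by simp at hk; omega), mul_zero]
  rw [h1]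
  apply Finset.sum_congr rfl
  intro k _
  rw [Finset.sum_sigma]
  apply Finset.sum_congr rfl
  intro m _
  rw [finsum_eq_sum_of_support_subset (s := (finite_wt_km γ e A k m).toFinset), Finset.mul_sum]
  · apply Finset.sum_congr rfl
    intro G _
    dsimp only
    ring
  · intro G hG
    rw [Set.Finite.coe_toFinset]
    intro h0
    exact hG (by simp only [h0, zero_mul])

/-- Theorem K. -/
theorem thmK [Finite L] (γ e : ℕ) (hγ : 2 < 2 * γ + Nat.card L) (A : L → ℕ)
    (hA : ∀ x, A x ≤ 1) (t : Q.Fn (Option L)) (ht : IsoInv t) (h0 : BubZero t) :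
    ∑ p ∈ supp γ (Option.elim' 0 A) e, (wt p.2.2 γ (Option.elim' 0 A) e /
        (p.1.factorial * p.2.1.factorial * 2 ^ p.2.1)) * vl t p.2.2 =
      ∑ p ∈ supp γ A e, (wt p.2.2 γ A e / (p.1.factorial * p.2.1.factorial * 2 ^ p.2.1)) *
        pb t p.2.2 := by
  rw [supp_sum_eq γ e (Option.elim' 0 A) (fun k m G => vl t G) (e + 3) (by omega),
    supp_sum_eq γ e A (fun k m G => pb t G) (e + 2) le_rfl]
  have hfinA : ∀ (k m : ℕ) (h : Gr (Fin k) (Fin m) L → ℚ),
      (Function.support fun G => wt G γ A e * h G).Finite := by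
    intro k m h
    refine (finite_wt γ e A).subset ?_
    intro G hG h1
    exact hG (by simp only [h1, zero_mul])
  have h1 : ∀ k m : ℕ, ∑ᶠ G : Gr (Fin k) (Fin m) L, wt G γ A e * pb t G =
      ∑ᶠ G : Gr (Fin k) (Fin m) L, wt G γ A e * pba t G - RB γ e A t (Fin k) (Fin m) := by
    intro k m
    unfold RB
    rw [← finsum_sub_distrib (hfinA k m _) (hfinA k m _)]
    apply finsum_congr
    intro G
    unfold pb
    ring
  have h2 : ∀ k m : ℕ, ∑ᶠ G : Gr (Fin k) (Fin m) (Option L),
      wt G γ (Option.elim' 0 A) e * vl t G =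
      ∑ᶠ G : Gr (Fin k) (Fin m) L, wt G γ A e * pba t G - 
        (k * m * 2 : ℚ) * RB γ e A t (Fin (k - 1)) (Fin (m - 1)) := by
    intro k m
    rw [partAB γ e hγ A hA t ht h0]
    congr 1
    have h3 : ∀ p : Fin k × Fin m × Bool, RB γ e A t {v // v ≠ p.1} {e // e ≠ p.2.1} =
        RB γ e A t (Fin (k - 1)) (Fin (m - 1)) := by
      rintro ⟨w, f, s⟩
      apply RB_congr γ e A t ht
      · exact Fintype.equivFinOfCardEq (by simp)
      · exact Fintype.equivFinOfCardEq (by simp)
    rw [Finset.sum_congr rfl fun p _ => h3 p, Finset.sum_const, Finset.card_univ,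
      Fintype.card_prod, Fintype.card_prod, Fintype.card_fin, Fintype.card_fin,
      Fintype.card_bool, nsmul_eq_mul]
    push_cast
    ring
  simp only [h1, h2, mul_sub, Finset.sum_sub_distrib]
  congr 1
  · -- first part: the range does not matter
    have hz : ∀ k m, ¬ (k < e + 2 ∧ m < e + 2) →
        ∑ᶠ G : Gr (Fin k) (Fin m) L, wt G γ A e * pba t G = 0 := by
      intro k m hkm
      apply finsum_eq_zero_of_forall_eq_zero
      intro G
      have : wt G γ A e = 0 := by
        by_contra hne
        have := wt_bound hne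
        omega
      rw [this, zero_mul]
    rw [← Finset.sum_subset (Finset.range_subset_range.2 (by omega : e + 2 ≤ e + 3))]
    · apply Finset.sum_congr rfl
      intro k _
      rw [← Finset.sum_subset (Finset.range_subset_range.2 (by omega : e + 2 ≤ e + 3))]
      intro m _ hm
      rw [hz k m (by simp at hm; omega), mul_zero]
    · intro k _ hk
      apply Finset.sum_eq_zero
      intro m _
      rw [hz k m (by simp at hk; omega), mul_zero]
  · -- second part: shift
    rw [Finset.sum_range_succ']
    have h3 : ∑ m ∈ Finset.range (e + 3), 1 / (((0 : ℕ).factorial : ℚ) * m.factorial * 2 ^ m) *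
        (((0 : ℕ) : ℚ) * m * 2 * RB γ e A t (Fin (0 - 1)) (Fin (m - 1))) = 0 := by
      apply Finset.sum_eq_zero
      intro m _
      push_cast
      ring
    rw [h3, add_zero]
    apply Finset.sum_congr rfl
    intro k _
    rw [Finset.sum_range_succ']
    have h4 : 1 / (((k + 1).factorial : ℚ) * (0 : ℕ).factorial * 2 ^ 0) *
        (((k + 1 : ℕ) : ℚ) * (0 : ℕ) * 2 * RB γ e A t (Fin (k + 1 - 1)) (Fin (0 - 1))) = 0 := by
      push_cast
      ring
    rw [h4, add_zero]
    apply Finset.sum_congr rfl
    intro m _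
    rw [Nat.add_sub_cancel, Nat.add_sub_cancel, Nat.factorial_succ, Nat.factorial_succ, pow_succ]
    push_cast
    have a1 : (k.factorial : ℚ) ≠ 0 := by exact_mod_cast Nat.factorial_ne_zero k
    have a2 : (m.factorial : ℚ) ≠ 0 := by exact_mod_cast Nat.factorial_ne_zero m
    have a3 : ((k : ℚ) + 1) ≠ 0 := by positivity
    have a4 : ((m : ℚ) + 1) ≠ 0 := by positivity
    field_simp

end Vale.Agent.P273.D14
end
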