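import Vale.Agent.P273.Bdl.B1

/-!
Pullback of Pixton's relations: local identities, and the part where the new leg sits at a vertex
that is stable without it.
-/

noncomputable section
namespace Vale.Agent.P273.D14
open Sum Vale.Agent.P273
open scoped Classical

variable {V E V' E' L M N R T : Type}

/-! ### Local identities -/

lemma kapF_cons (μ : Multiset ℕ) (c : ℕ) (ζ : ℚ) :
    ((μ.count c : ℚ) + 1) * kapF (c ::ₘ μ) ζ = kapF μ ζ * (0 ^ c - B 0 ζ c) := by
  unfold kapF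
  have h1 : (∏ x ∈ (c ::ₘ μ).toFinset, (((c ::ₘ μ).count x).factorial : ℚ)) =
      ((μ.count c : ℚ) + 1) * ∏ x ∈ μ.toFinset, ((μ.count x).factorial : ℚ) := by
    rw [Multiset.toFinset_cons]
    have h2 : ∏ x ∈ μ.toFinset, ((μ.count x).factorial : ℚ) =
        ∏ x ∈ insert c μ.toFinset, ((μ.count x).factorial : ℚ) := by
      apply Finset.prod_subset (Finset.subset_insert _ _)
      intro x _ hx
      rw [Multiset.mem_toFinset] at hx
      rw [Multiset.count_eq_zero_of_notMem hx]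
      simp
    rw [h2, ← Finset.mul_prod_erase _ _ (Finset.mem_insert_self c _),
      ← Finset.mul_prod_erase (insert c μ.toFinset) (fun x => ((μ.count x).factorial : ℚ))
        (Finset.mem_insert_self c _), Multiset.count_cons_self, Nat.factorial_succ]
    push_cast
    have h3 : ∏ x ∈ (insert c μ.toFinset).erase c, (((c ::ₘ μ).count x).factorial : ℚ) =
        ∏ x ∈ (insert c μ.toFinset).erase c, ((μ.count x).factorial : ℚ) := by
      apply Finset.prod_congr rfl
      intro x hx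
      rw [Multiset.count_cons_of_ne (Finset.ne_of_mem_erase hx)]
    rw [h3]
    ring
  rw [h1, Multiset.map_cons, Multiset.prod_cons]
  have h4 : ((μ.count c : ℚ) + 1) ≠ 0 := by positivity
  have h5 : (∏ x ∈ μ.toFinset, ((μ.count x).factorial : ℚ)) ≠ 0 := by
    apply Finset.prod_ne_zero_iff.2
    intro x _
    exact_mod_cast Nat.factorial_ne_zero _
  field_simp

lemma edgeF_rec (ζ ξ : ℚ) (p q : ℕ) :
    edgeF (ζ, p) (ξ, q + 1) + edgeF (ζ, p + 1) (ξ, q) = - TT ζ ξ (p + 1) (q + 1) := by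
  rw [edgeF_eq, edgeF_eq, Finset.sum_range_succ']
  have h : ∀ j ∈ Finset.range (q + 1), (-1 : ℚ) ^ (j + 1) * TT ζ ξ (p + 1 + (j + 1))
      (q + 1 - (j + 1)) = - ((-1) ^ j * TT ζ ξ (p + 1 + 1 + j) (q - j)) := by
    intro j _
    rw [show p + 1 + (j + 1) = p + 1 + 1 + j by ring, show q + 1 - (j + 1) = q - j by omega,
      pow_succ]
    ring
  rw [Finset.sum_congr rfl h, Finset.sum_neg_distrib]
  simp

lemma edgeF_zero {ζ ξ : ℚ} (hζ : ζ ^ 2 = 1) (hξ : ξ ^ 2 = 1) (q : ℕ) :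
    edgeF (ζ, 0) (ξ, q) = - (B 1 ξ (q + 1) + ζ * B 0 ξ (q + 1)) := by
  rw [edgeF_symm hζ hξ, edgeF_eq]
  simp only [zero_add, Finset.range_one, Finset.sum_singleton, pow_zero, one_mul, add_zero,
    tsub_zero]
  unfold TT
  rw [B_zero_zero, B_one_zero]
  ring

/-- The bubble at a leg. -/
lemma bub_leg {ξ : ℚ} (hξ : ξ ^ 2 = 1) (a q : ℕ) (ha : a ≤ 1) :
    ∑ b : Bool, sg b * B a (sg b) 0 * edgeF (sg b, 0) (ξ, q) = - 2 * B a ξ (q + 1) := by
  rw [Fintype.sum_bool, edgeF_zero (sg_sq _) hξ, edgeF_zero (sg_sq _) hξ, B_at_zero, B_at_zero]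
  simp only [sg, cond_true, cond_false]
  interval_cases a
  · ring
  · ring

/-- The bubble in an edge. -/
lemma bub_edge {ζ ξ : ℚ} (hζ : ζ ^ 2 = 1) (hξ : ξ ^ 2 = 1) (p q : ℕ) :
    ∑ b : Bool, sg b * edgeF (sg b, 0) (ζ, p) * edgeF (sg b, 0) (ξ, q) =
      - 2 * (edgeF (ζ, p + 1) (ξ, q) + edgeF (ζ, p) (ξ, q + 1)) := by
  rw [add_comm (edgeF (ζ, p + 1) (ξ, q)), edgeF_rec, Fintype.sum_bool,
    edgeF_zero (sg_sq _) hζ, edgeF_zero (sg_sq _) hζ, edgeF_zero (sg_sq _) hξ,
    edgeF_zero (sg_sq _) hξ]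
  simp only [sg, cond_true, cond_false]
  unfold TT
  ring

/-! ### Adding the leg at a vertex -/

lemma nv_addLeg [Finite E] [Finite L] (G : Gr V E L) (v w : V) (K : Multiset ℕ) (c : ℕ) :
    (G.addLeg v K c).nv w = G.nv w + if w = v then 1 else 0 := by
  have := Fintype.ofFinite E
  have := Fintype.ofFinite L
  rw [nv_eq_finsum, nv_eq_finsum, finsum_eq_sum_of_fintype, finsum_eq_sum_of_fintype,
    Fintype.sum_sum_type, Fintype.sum_sum_type, Fintype.sum_option]
  have e1 : ((G.addLeg v K c).hf (inr none)).1 = v := rfl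
  have e2 : ∀ y, (G.addLeg v K c).hf (inl y) = G.hf (inl y) := fun y => rfl
  have e3 : ∀ x, (G.addLeg v K c).hf (inr (some x)) = G.hf (inr x) := fun x => rfl
  simp only [e1, e2, e3]
  rw [if_congr (Iff.intro Eq.symm Eq.symm : w = v ↔ v = w) rfl rfl]
  ring

lemma deg_addLeg [Finite V] [Finite E] [Finite L] (G : Gr V E L) (v : V) (c : ℕ) :
    (G.addLeg v (G.dec v).2 c).deg = G.deg + c := by
  have := Fintype.ofFinite V
  have := Fintype.ofFinite E
  have := Fintype.ofFinite L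
  unfold Gr.deg
  simp only [finsum_eq_sum_of_fintype]
  rw [Fintype.sum_sum_type, Fintype.sum_sum_type, Fintype.sum_option]
  have e1 : ((G.addLeg v (G.dec v).2 c).hf (inr none)).2 = c := rfl
  have e2 : ∀ y, (G.addLeg v (G.dec v).2 c).hf (inl y) = G.hf (inl y) := fun y => rfl
  have e3 : ∀ x, (G.addLeg v (G.dec v).2 c).hf (inr (some x)) = G.hf (inr x) := fun x => rfl
  have e4 : ∀ w, (G.addLeg v (G.dec v).2 c).dec w = G.dec w := by
    intro w
    by_cases h : w = v
    · subst h; rw [addLeg_dec_self]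
    · rw [addLeg_dec_ne _ h]
  simp only [e1, e2, e3, e4]
  ring

lemma deg_upd [Finite V] (G : Gr V E L) (v : V) (c : ℕ) :
    (G.upd v (c ::ₘ (G.dec v).2)).deg = G.deg + c := by
  have := Fintype.ofFinite V
  unfold Gr.deg
  simp only [finsum_eq_sum_of_fintype (α := V)]
  have e1 : ∀ w, ((G.upd v (c ::ₘ (G.dec v).2)).dec w).2.sum =
      (G.dec w).2.sum + if w = v then c else 0 := by
    intro w
    by_cases h : w = v
    · subst h
      simp [Gr.upd, add_comm]
    · simp [Gr.upd, h]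
  have e2 : (G.upd v (c ::ₘ (G.dec v).2)).hf = G.hf := rfl
  simp only [e1, e2, Finset.sum_add_distrib, Finset.sum_ite_eq', Finset.mem_univ, if_true]
  ring

lemma stab_addLeg [Finite E] [Finite L] (G : Gr V E L) (v : V) (c : ℕ) (γ : ℕ)
    (h : 2 < 2 * (G.dec v).1 + G.nv v) :
    (G.addLeg v (G.dec v).2 c).Stab γ ↔ G.Stab γ := by
  unfold Gr.Stab
  have e4 : ∀ w, (G.addLeg v (G.dec v).2 c).dec w = G.dec w := by
    intro w
    by_cases h : w = v
    · subst h; rw [addLeg_dec_self]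
    · rw [addLeg_dec_ne _ h]
  have e2 : ∀ y, (G.addLeg v (G.dec v).2 c).hf (inl y) = G.hf (inl y) := fun y => rfl
  simp only [e4, e2]
  have e5 : (∀ w, 2 < 2 * (G.dec w).1 + (G.addLeg v (G.dec v).2 c).nv w) ↔
      ∀ w, 2 < 2 * (G.dec w).1 + G.nv w := by
    constructor
    · intro h1 w
      by_cases hw : w = v
      · subst hw; exact h
      · have := h1 w
        rw [nv_addLeg, if_neg hw] at this
        exact this
    · intro h1 w
      have := h1 w
      rw [nv_addLeg]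
      omega
  rw [e5]

lemma stab_upd (G : Gr V E L) (v : V) (K : Multiset ℕ) (γ : ℕ) :
    (G.upd v K).Stab γ ↔ G.Stab γ := by
  have e1 : ∀ w, ((G.upd v K).dec w).1 = (G.dec w).1 := by
    intro w
    by_cases h : w = v
    · subst h; simp [Gr.upd]
    · simp [Gr.upd, h]
  unfold Gr.Stab
  simp only [e1]
  rfl

/-- Everything in the summand of the weight except the kappa factor of `v`. -/
def Wv (G : Gr V E L) (A : L → ℕ) (v : V) (s : V → ℚ) : ℚ :=
  (s v ^ ((G.dec v).1 + 1) * ∏ᶠ w : {w // w ≠ v}, s w.1 ^ ((G.dec w.1).1 + 1) *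
    kapF (G.dec w.1).2 (s w.1)) *
  (∏ᶠ e, edgeF (s (G.hf (inl (e, true))).1, (G.hf (inl (e, true))).2)
    (s (G.hf (inl (e, false))).1, (G.hf (inl (e, false))).2)) *
  ∏ᶠ x, B (A x) (s (G.hf (inr x)).1) (G.hf (inr x)).2

lemma wsum_eq_Wv [Finite V] (G : Gr V E L) (A : L → ℕ) (v : V) (s : V → ℚ) :
    wsum G A s = kapF (G.dec v).2 (s v) * Wv G A v s := by
  unfold wsum Wv
  rw [finprod_ne v]
  ring

lemma Wv_upd (G : Gr V E L) (A : L → ℕ) (v : V) (K : Multiset ℕ) (s : V → ℚ) :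
    Wv (G.upd v K) A v s = Wv G A v s := by
  unfold Wv
  have e1 : ((G.upd v K).dec v).1 = (G.dec v).1 := by simp [Gr.upd]
  have e2 : ∀ w : {w // w ≠ v}, (G.upd v K).dec w.1 = G.dec w.1 := by
    intro w; simp [Gr.upd, w.2]
  rw [e1]
  simp only [e2]
  rfl

lemma wsum_addLeg [Finite V] [Finite L] (G : Gr V E L) (A : L → ℕ) (v : V) (c : ℕ) (s : V → ℚ) :
    wsum (G.addLeg v (G.dec v).2 c) (Option.elim' 0 A) s = B 0 (s v) c * wsum G A s := by
  have := Fintype.ofFinite L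
  have e4 : ∀ w, (G.addLeg v (G.dec v).2 c).dec w = G.dec w := by
    intro w
    by_cases h : w = v
    · subst h; rw [addLeg_dec_self]
    · rw [addLeg_dec_ne _ h]
  have e2 : ∀ y, (G.addLeg v (G.dec v).2 c).hf (inl y) = G.hf (inl y) := fun y => rfl
  unfold wsum
  rw [finprod_eq_prod_of_fintype (fun x : Option L => _), Fintype.prod_option,
    finprod_eq_prod_of_fintype (fun x : L => _)]
  simp only [e4, e2]
  have e1 : (G.addLeg v (G.dec v).2 c).hf (inr none) = (v, c) := rfl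
  have e3 : ∀ x, (G.addLeg v (G.dec v).2 c).hf (inr (some x)) = G.hf (inr x) := fun x => rfl
  simp only [e1, e3, Option.elim'_none, Option.elim'_some]
  ring

/-- The weights match at a vertex which is stable without the new leg. -/
lemma wt_addLeg [Finite V] [Finite E] [Finite L] (G : Gr V E L) (γ : ℕ) (A : L → ℕ) (e : ℕ) (v : V)
    (c : ℕ) (h : 2 < 2 * (G.dec v).1 + G.nv v) :
    wt (G.addLeg v (G.dec v).2 c) γ (Option.elim' 0 A) e = (if c = 0 then wt G γ A e else 0) -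
      (((G.dec v).2.count c : ℚ) + 1) * wt (G.upd v (c ::ₘ (G.dec v).2)) γ A e := by
  rw [wt_eq_wsum, wt_eq_wsum, wt_eq_wsum, deg_addLeg, deg_upd, stab_addLeg _ _ _ _ h, stab_upd]
  by_cases hs : G.Stab γ ∧ G.deg + c = e
  swap
  · rw [if_neg hs, if_neg hs]
    have : (if c = 0 then (if G.Stab γ ∧ G.deg = e then
        ∑ᶠ ζ : V → Bool, (1 / 2 : ℚ) ^ (Nat.card E + 1) * wsum G A (fun v => sg (ζ v)) else 0)
        else 0) = 0 := by
      split_ifs with h1 h2
      · exfalso; apply hs; rw [h1]; exact h2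
      · rfl
      · rfl
    rw [this]; ring
  rw [if_pos hs, if_pos hs]
  have := Fintype.ofFinite V
  simp only [finsum_eq_sum_of_fintype]
  have h2 : (if c = 0 then (if G.Stab γ ∧ G.deg = e then
        ∑ ζ : V → Bool, (1 / 2 : ℚ) ^ (Nat.card E + 1) * wsum G A (fun v => sg (ζ v)) else 0)
        else 0) = ∑ ζ : V → Bool, (1 / 2 : ℚ) ^ (Nat.card E + 1) * (0 ^ c *
          wsum G A (fun v => sg (ζ v))) := by
    by_cases hc : c = 0
    · subst hc
      rw [if_pos rfl, if_pos (by simpa using hs)]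
      simp
    · rw [if_neg hc]
      simp [hc]
  rw [h2, Finset.mul_sum, ← Finset.sum_sub_distrib]
  apply Finset.sum_congr rfl
  intro ζ _
  rw [wsum_addLeg, wsum_eq_Wv G A v, wsum_eq_Wv (G.upd v _) A v, Wv_upd]
  have e1 : ((G.upd v (c ::ₘ (G.dec v).2)).dec v).2 = c ::ₘ (G.dec v).2 := by simp [Gr.upd]
  rw [e1]
  have h3 := kapF_cons (G.dec v).2 c (sg (ζ v))
  linear_combination ((1 / 2 : ℚ) ^ (Nat.card E + 1) * Wv G A v (fun v => sg (ζ v))) * h3

end Vale.Agent.P273.D14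
end
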