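import Vale.Agent.P273.D14.K1

/-!
Pullback of Pixton's relations: the new leg sits at a vertex that is stable without it.
-/

noncomputable section
namespace Vale.Agent.P273.D14
open Sum Vale.Agent.P273
open scoped Classical

variable {V E V' E' L M N R T : Type}

lemma finite_wt [Finite V] [Finite E] [Finite L] (γ d : ℕ) (A : L → ℕ) :
    {G : Gr V E L | wt G γ A d ≠ 0}.Finite := by
  have := Fintype.ofFinite V
  have := Fintype.ofFinite E
  refine ((finite_wt_km γ d A (Fintype.card V) (Fintype.card E)).preimage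
    ((relabEquiv (Fintype.equivFin V) (Fintype.equivFin E)).injective.injOn)).subset ?_
  intro G hG
  change wt (G.relab _ _) γ A d ≠ 0
  rw [wt_relab]
  exact hG

lemma finsum_fib {α ι β : Type*} (Φ : α → ℚ) (hfin : (Function.support Φ).Finite)
    (I : Finset ι) (p : α → ι) (hp : ∀ x, Φ x ≠ 0 → p x ∈ I) (j : ι → β → α)
    (hj : ∀ i, (j i).Injective) (hr : ∀ i x, Φ x ≠ 0 → (p x = i ↔ x ∈ Set.range (j i))) :
    ∑ᶠ x, Φ x = ∑ i ∈ I, ∑ᶠ b, Φ (j i b) := by
  rw [finsum_eq_sum_of_support_subset Φ (s := hfin.toFinset) (by simp),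
    ← Finset.sum_fiberwise_of_maps_to (g := p) (t := I)]
  · apply Finset.sum_congr rfl
    intro i _
    rw [← finsum_mem_range (hj i)]
    symm
    apply finsum_mem_eq_sum_of_inter_support_eq
    ext x
    simp only [Set.mem_inter_iff, Function.mem_support, Finset.coe_filter, Set.Finite.mem_toFinset,
      Set.mem_ofPred_eq]
    constructor
    · rintro ⟨h1, h2⟩
      exact ⟨⟨h2, (hr i x h2).2 h1⟩, h2⟩
    · rintro ⟨⟨_, h1⟩, h2⟩
      exact ⟨(hr i x h2).1 h1, h2⟩
  · intro x hx
    exact hp x (by simpa using hx)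

/-- The value of a functional on a graph. -/
def vl (t : Q.Fn L) (G : Gr V E L) : ℚ := t V E G.dec G.hf

/-- First part of the pullback. -/
def pba (t : Q.Fn (Option L)) (G : Gr V E L) : ℚ :=
  ∑ᶠ v, (vl t (G.addLeg v (G.dec v).2 0) -
    ((G.dec v).2.map fun k => vl t (G.addLeg v ((G.dec v).2.erase k) k)).sum)

/-- The leg `none` sits at a vertex which is stable without it. -/
def CaseA (G : Gr V E (Option L)) : Prop :=
  3 < 2 * (G.dec (G.hf (inr none)).1).1 + G.nv (G.hf (inr none)).1

lemma addLeg_dec (G : Gr V E L) (v : V) (c : ℕ) (w : V) :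
    (G.addLeg v (G.dec v).2 c).dec w = G.dec w := by
  by_cases h : w = v
  · subst h; rw [addLeg_dec_self]
  · rw [addLeg_dec_ne _ h]

lemma caseA_addLeg [Finite E] [Finite L] (G : Gr V E L) (v : V) (c : ℕ) :
    CaseA (G.addLeg v (G.dec v).2 c) ↔ 2 < 2 * (G.dec v).1 + G.nv v := by
  unfold CaseA
  have e1 : (G.addLeg v (G.dec v).2 c).hf (inr none) = (v, c) := rfl
  rw [e1, addLeg_dec, nv_addLeg, if_pos rfl]
  dsimp only
  omega

/-- Forget the leg `none`. -/
def dropN (G : Gr V E (Option L)) : Gr V E L :=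
  ⟨G.dec, Sum.elim (fun y => G.hf (inl y)) fun x => G.hf (inr (some x))⟩

lemma addLeg_dropN (G : Gr V E (Option L)) {v : V} {c : ℕ} (h : G.hf (inr none) = (v, c)) :
    (dropN G).addLeg v ((dropN G).dec v).2 c = G := by
  apply Gr.ext'
  · intro w
    rw [addLeg_dec]
    rfl
  · rintro (y | (_ | x))
    · rfl
    · exact h.symm
    · rfl

lemma dropN_addLeg (G : Gr V E L) (v : V) (c : ℕ) :
    dropN (G.addLeg v (G.dec v).2 c) = G := by
  apply Gr.ext'
  · intro w
    exact addLeg_dec G v c w
  · rintro (y | x) <;> rfl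

lemma upd_inj (v : V) (c : ℕ) : Function.Injective
    (fun G : Gr V E L => G.upd v (c ::ₘ (G.dec v).2)) := by
  intro G G' h
  replace h : G.upd v (c ::ₘ (G.dec v).2) = G'.upd v (c ::ₘ (G'.dec v).2) := h
  have h1 : ∀ w, (G.upd v (c ::ₘ (G.dec v).2)).dec w = (G'.upd v (c ::ₘ (G'.dec v).2)).dec w := by
    intro w
    exact congrFun (congrArg Gr.dec h) w
  have h2 : G.hf = G'.hf := by
    have := congrArg Gr.hf h
    exact this
  apply Gr.ext'
  · intro w
    by_cases hw : w = v
    · subst hw
      have := h1 w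
      simp only [Gr.upd, Function.update_self, Prod.mk.injEq, Multiset.cons_inj_right] at this
      exact Prod.ext this.1 this.2
    · have := h1 w
      simpa [Gr.upd, hw] using this
  · intro y
    rw [h2]

lemma upd_erase (G : Gr V E L) {v : V} {c : ℕ} (h : c ∈ (G.dec v).2) :
    (G.upd v ((G.dec v).2.erase c)).upd v (c ::ₘ ((G.upd v ((G.dec v).2.erase c)).dec v).2) = G := by
  apply Gr.ext'
  · intro w
    by_cases hw : w = v
    · subst hw
      simp [Gr.upd, Multiset.cons_erase h]
    · simp [Gr.upd, hw]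
  · intro y; rfl

lemma addLeg_upd (G : Gr V E L) (v : V) (K K' : Multiset ℕ) (c : ℕ) :
    (G.upd v K).addLeg v K' c = G.addLeg v K' c := by
  apply Gr.ext'
  · intro w
    by_cases hw : w = v
    · subst hw
      simp [Gr.upd, Gr.addLeg]
    · simp [Gr.upd, Gr.addLeg, hw]
  · rintro (y | (_ | x)) <;> rfl

/-- The part of the pullback with the new leg at a stable vertex. -/
theorem partA [Finite V] [Finite E] [Finite L] (γ e : ℕ) (A : L → ℕ) (t : Q.Fn (Option L)) :
    ∑ᶠ G : Gr V E (Option L), (if CaseA G then wt G γ (Option.elim' 0 A) e * vl t G else 0) =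
      ∑ᶠ G : Gr V E L, wt G γ A e * pba t G := by
  have := Fintype.ofFinite V
  have := Fintype.ofFinite E
  have := Fintype.ofFinite L
  have hfin : ∀ h : Gr V E L → ℚ, (Function.support fun G => wt G γ A e * h G).Finite := by
    intro h
    refine (finite_wt γ e A).subset ?_
    intro G hG h0
    exact hG (by simp only [h0, zero_mul])
  -- left hand side
  have h1 : ∑ᶠ G : Gr V E (Option L),
      (if CaseA G then wt G γ (Option.elim' 0 A) e * vl t G else 0) =
      ∑ p ∈ (Finset.univ : Finset V) ×ˢ Finset.range (e + 1), ∑ᶠ G : Gr V E L,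
        ((if p.2 = 0 then wt G γ A e else 0) - (((G.dec p.1).2.count p.2 : ℚ) + 1) *
          wt (G.upd p.1 (p.2 ::ₘ (G.dec p.1).2)) γ A e) *
          vl t (G.addLeg p.1 (G.dec p.1).2 p.2) := by
    rw [finsum_fib (I := (Finset.univ : Finset V) ×ˢ Finset.range (e + 1))
      (p := fun G => G.hf (inr none))
      (j := fun p (G : Gr V E L) => G.addLeg p.1 (G.dec p.1).2 p.2)]
    · apply Finset.sum_congr rfl
      rintro ⟨v, c⟩ _
      apply finsum_congr
      intro G
      rw [if_congr (caseA_addLeg G v c) rfl rfl]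
      split_ifs with h2 h3
      · rw [wt_addLeg _ _ _ _ _ _ h2, if_pos h3]
      · rw [wt_addLeg _ _ _ _ _ _ h2, if_neg h3]
      · have h4 : ¬ G.Stab γ := fun h => h2 (h.2.2.2 v)
        have h5 : wt G γ A e = 0 := by
          rw [wt_eq_wsum, if_neg (fun h => h4 h.1)]
        have h6 : wt (G.upd v (c ::ₘ (G.dec v).2)) γ A e = 0 := by
          rw [wt_eq_wsum, if_neg (fun h => h4 ((stab_upd _ _ _ _).1 h.1))]
        rw [h5, h6]
        ring
      · have h4 : ¬ G.Stab γ := fun h => h2 (h.2.2.2 v)
        have h6 : wt (G.upd v (c ::ₘ (G.dec v).2)) γ A e = 0 := by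
          rw [wt_eq_wsum, if_neg (fun h => h4 ((stab_upd _ _ _ _).1 h.1))]
        rw [h6]
        ring
    · refine (finite_wt γ e (Option.elim' 0 A)).subset ?_
      intro G hG h0
      apply hG
      simp only [h0, zero_mul, ite_self]
    · intro G hG
      rw [Finset.mem_product]
      refine ⟨Finset.mem_univ _, ?_⟩
      rw [Finset.mem_range]
      have h2 : wt G γ (Option.elim' 0 A) e ≠ 0 := by
        intro h0
        apply hG
        simp only [h0, zero_mul, ite_self]
      have h3 := (wt_ne_zero h2).2.1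
      unfold Gr.deg at h3
      rw [finsum_eq_sum_of_fintype (fun y => (G.hf y).2)] at h3
      have : (G.hf (inr none)).2 ≤ ∑ y, (G.hf y).2 :=
        Finset.single_le_sum (f := fun y => (G.hf y).2) (fun _ _ => Nat.zero_le _)
          (Finset.mem_univ _)
      omega
    · rintro ⟨v, c⟩ G G' h
      have := congrArg dropN h
      simp only at this
      rwa [dropN_addLeg, dropN_addLeg] at this
    · rintro ⟨v, c⟩ G _
      constructor
      · intro h
        exact ⟨dropN G, addLeg_dropN G h⟩
      · rintro ⟨G0, rfl⟩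
        rfl
  rw [h1, Finset.sum_product]
  -- right hand side
  have h2 : ∑ᶠ G : Gr V E L, wt G γ A e * pba t G =
      ∑ v, ∑ᶠ G : Gr V E L, wt G γ A e * (vl t (G.addLeg v (G.dec v).2 0) -
        ((G.dec v).2.map fun k => vl t (G.addLeg v ((G.dec v).2.erase k) k)).sum) := by
    rw [← finsum_sum_comm Finset.univ _ (fun v _ => hfin _)]
    apply finsum_congr
    intro G
    unfold pba
    rw [finsum_eq_sum_of_fintype, Finset.mul_sum]
  rw [h2]
  apply Finset.sum_congr rfl
  intro v _
  -- the kappa corrections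
  have h3 : ∀ c, ∑ᶠ G : Gr V E L, wt G γ A e * (((G.dec v).2.count c : ℚ) *
      vl t (G.addLeg v ((G.dec v).2.erase c) c)) =
      ∑ᶠ G : Gr V E L, (((G.dec v).2.count c : ℚ) + 1) *
          wt (G.upd v (c ::ₘ (G.dec v).2)) γ A e * vl t (G.addLeg v (G.dec v).2 c) := by
    intro c
    have h4 : (Function.support fun G : Gr V E L => wt G γ A e * (((G.dec v).2.count c : ℚ) *
      vl t (G.addLeg v ((G.dec v).2.erase c) c))) ⊆
      Set.range (fun G : Gr V E L => G.upd v (c ::ₘ (G.dec v).2)) := by
      intro G hG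
      have h5 : c ∈ (G.dec v).2 := by
        by_contra h5
        apply hG
        simp only [Multiset.count_eq_zero_of_notMem h5, Nat.cast_zero, zero_mul, mul_zero]
      exact ⟨_, upd_erase G h5⟩
    calc _ = ∑ᶠ G ∈ Set.range (fun G : Gr V E L => G.upd v (c ::ₘ (G.dec v).2)),
          wt G γ A e * (((G.dec v).2.count c : ℚ) *
            vl t (G.addLeg v ((G.dec v).2.erase c) c)) := by
          rw [finsum_mem_def, Set.indicator_eq_self.2 h4]
      _ = _ := finsum_mem_range (upd_inj v c)
      _ = _ := by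
          apply finsum_congr
          intro G
          have e1 : ((G.upd v (c ::ₘ (G.dec v).2)).dec v).2 = c ::ₘ (G.dec v).2 := by
            simp [Gr.upd]
          rw [e1, Multiset.count_cons_self, Multiset.erase_cons_head, addLeg_upd]
          push_cast
          ring
  have h5 : ∀ G : Gr V E L, wt G γ A e * ((G.dec v).2.map fun k =>
      vl t (G.addLeg v ((G.dec v).2.erase k) k)).sum = ∑ c ∈ Finset.range (e + 1),
        wt G γ A e * (((G.dec v).2.count c : ℚ) *
          vl t (G.addLeg v ((G.dec v).2.erase c) c)) := by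
    intro G
    by_cases h0 : wt G γ A e = 0
    · simp [h0]
    rw [← Finset.mul_sum]
    congr 1
    rw [Finset.sum_multiset_map_count]
    have h6 : (G.dec v).2.toFinset ⊆ Finset.range (e + 1) := by
      intro c hc
      rw [Multiset.mem_toFinset] at hc
      have h7 := (wt_ne_zero h0).2.1
      unfold Gr.deg at h7
      rw [finsum_eq_sum_of_fintype (fun v => (G.dec v).2.sum)] at h7
      have h8 : (G.dec v).2.sum ≤ ∑ v, (G.dec v).2.sum :=
        Finset.single_le_sum (f := fun v => (G.dec v).2.sum) (fun _ _ => Nat.zero_le _)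
          (Finset.mem_univ _)
      have h9 := Multiset.single_le_sum (fun _ _ => Nat.zero_le _) _ hc
      rw [Finset.mem_range]
      omega
    rw [← Finset.sum_subset h6]
    · simp only [nsmul_eq_mul]
    · intro c _ hc
      rw [Multiset.mem_toFinset] at hc
      rw [Multiset.count_eq_zero_of_notMem hc]
      simp
  have h6 : ∑ᶠ G : Gr V E L, wt G γ A e * (vl t (G.addLeg v (G.dec v).2 0) -
        ((G.dec v).2.map fun k => vl t (G.addLeg v ((G.dec v).2.erase k) k)).sum) =
      ∑ᶠ G : Gr V E L, wt G γ A e * vl t (G.addLeg v (G.dec v).2 0) -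
      ∑ c ∈ Finset.range (e + 1), ∑ᶠ G : Gr V E L, (((G.dec v).2.count c : ℚ) + 1) *
          wt (G.upd v (c ::ₘ (G.dec v).2)) γ A e * vl t (G.addLeg v (G.dec v).2 c) := by
    rw [Finset.sum_congr rfl (fun c _ => (h3 c).symm),
      ← finsum_sum_comm _ _ (fun c _ => hfin _), ← finsum_sub_distrib (hfin _)]
    · apply finsum_congr
      intro G
      rw [mul_sub, h5]
    · refine (finite_wt γ e A).subset ?_
      intro G hG h0
      exact hG (by simp only [h0, zero_mul, Finset.sum_const_zero])
  rw [h6]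
  -- compare
  have hfin2 : ∀ c : ℕ, (Function.support fun G : Gr V E L => (((G.dec v).2.count c : ℚ) + 1) *
          wt (G.upd v (c ::ₘ (G.dec v).2)) γ A e * vl t (G.addLeg v (G.dec v).2 c)).Finite := by
    intro c
    refine ((finite_wt γ e A).preimage (upd_inj v c).injOn).subset ?_
    intro G hG h0
    exact hG (by simp only [h0, mul_zero, zero_mul])
  have h7 : ∀ c : ℕ, ∑ᶠ G : Gr V E L,
        ((if c = 0 then wt G γ A e else 0) - (((G.dec v).2.count c : ℚ) + 1) *
          wt (G.upd v (c ::ₘ (G.dec v).2)) γ A e) *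
          vl t (G.addLeg v (G.dec v).2 c) =
      (if c = 0 then ∑ᶠ G : Gr V E L, wt G γ A e * vl t (G.addLeg v (G.dec v).2 0) else 0) -
        ∑ᶠ G : Gr V E L, (((G.dec v).2.count c : ℚ) + 1) *
          wt (G.upd v (c ::ₘ (G.dec v).2)) γ A e * vl t (G.addLeg v (G.dec v).2 c) := by
    intro c
    by_cases hc : c = 0
    · subst hc
      simp only [if_true]
      rw [← finsum_sub_distrib (hfin _) (hfin2 0)]
      apply finsum_congr
      intro G
      ring
    · simp only [if_neg hc]
      rw [zero_sub, ← finsum_neg_distrib]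
      apply finsum_congr
      intro G
      ring
  simp only [h7, Finset.sum_sub_distrib]
  congr 1
  rw [Finset.sum_ite_eq']
  simp

end Vale.Agent.P273.D14
end
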