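import Vale.Agent.P273.D14.K2

/-!
Pullback of Pixton's relations: inserting a bubble.
-/

noncomputable section
namespace Vale.Agent.P273.D14
open Sum Vale.Agent.P273
open scoped Classical

variable {V E V' E' L M N R T : Type}

/-! ### Inserting a bubble -/

/-- Half-edges of the small graph in the large graph. -/
def emz (f : E) (y : ({e // e ≠ f} × Bool) ⊕ L) : (E × Bool) ⊕ Option L :=
  y.map (fun p => (p.1.1, p.2)) some

/-- Put the half-edge `z` and the leg `none` at the new vertex `w`, joined by the edge `f` to the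
old place of `z`. -/
def insB (w : V) (f : E) (s : Bool) (G : Gr {v // v ≠ w} {e // e ≠ f} L)
    (z : ({e // e ≠ f} × Bool) ⊕ L) : Gr V E (Option L) :=
  let hz := fun y => if y = z then (w, 0) else ((G.hf y).1.1, (G.hf y).2)
  ⟨fun v => if h : v = w then (0, 0) else G.dec ⟨v, h⟩,
   Sum.elim (fun p => if h : p.1 = f then (if p.2 = s then (w, 0) else ((G.hf z).1.1, (G.hf z).2))
      else hz (inl (⟨p.1, h⟩, p.2))) (Option.elim' (w, 0) fun x => hz (inr x))⟩

section
variable (w : V) (f : E) (s : Bool) (G : Gr {v // v ≠ w} {e // e ≠ f} L)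
    (z : ({e // e ≠ f} × Bool) ⊕ L)

lemma insB_dec_self : (insB w f s G z).dec w = (0, 0) := by simp [insB]

lemma insB_dec (v : {v // v ≠ w}) : (insB w f s G z).dec v.1 = G.dec v := by
  simp [insB, v.2]

lemma insB_none : (insB w f s G z).hf (inr none) = (w, 0) := rfl

lemma insB_fs : (insB w f s G z).hf (inl (f, s)) = (w, 0) := by simp [insB]

lemma insB_fns : (insB w f s G z).hf (inl (f, !s)) = ((G.hf z).1.1, (G.hf z).2) := by
  simp [insB]

lemma insB_emz (y : ({e // e ≠ f} × Bool) ⊕ L) : (insB w f s G z).hf (emz f y) =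
    if y = z then (w, 0) else ((G.hf y).1.1, (G.hf y).2) := by
  rcases y with ⟨e, b⟩ | x
  · simp [insB, emz, e.2]
  · simp [insB, emz]

lemma insB_z : (insB w f s G z).hf (emz f z) = (w, 0) := by rw [insB_emz, if_pos rfl]

end

lemma emz_cases (f : E) (s : Bool) (y : (E × Bool) ⊕ Option L) :
    y = inr none ∨ y = inl (f, s) ∨ y = inl (f, !s) ∨ ∃ y0, y = emz f y0 := by
  rcases y with ⟨e, b⟩ | (_ | x)
  · by_cases he : e = f
    · subst he
      by_cases hb : b = s
      · right; left; rw [hb]
      · right; right; left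
        have : b = !s := by cases b <;> cases s <;> simp_all
        rw [this]
    · right; right; right
      exact ⟨inl (⟨e, he⟩, b), rfl⟩
  · left; rfl
  · right; right; right
    exact ⟨inr x, rfl⟩

lemma emz_inj (f : E) : Function.Injective (emz f : ({e // e ≠ f} × Bool) ⊕ L → _) := by
  rintro (⟨e, b⟩ | x) (⟨e', b'⟩ | x') h
  · simp only [emz, Sum.map_inl, inl.injEq, Prod.mk.injEq] at h
    rw [Subtype.ext h.1, h.2]
  · simp [emz] at h
  · simp [emz] at h
  · simp only [emz, Sum.map_inr, inr.injEq, Option.some.injEq] at h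
    rw [h]

lemma emz_ne_none (f : E) (y : ({e // e ≠ f} × Bool) ⊕ L) : emz f y ≠ inr none := by
  rcases y with y | y <;> simp [emz]

lemma emz_ne_f (f : E) (y : ({e // e ≠ f} × Bool) ⊕ L) (b : Bool) : emz f y ≠ inl (f, b) := by
  rcases y with ⟨e, c⟩ | y
  · simp only [emz, Sum.map_inl, ne_eq, inl.injEq, Prod.mk.injEq, not_and]
    intro h
    exact absurd h e.2
  · simp [emz]

/-- `G` has a bubble at `w` with the leg `none` and the half-edges `(f, s)` and `z`. -/
structure MarkAt (G : Gr V E (Option L)) (w : V) (f : E) (s : Bool)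
    (z : ({e // e ≠ f} × Bool) ⊕ L) : Prop where
  dec : G.dec w = (0, 0)
  none : G.hf (inr none) = (w, 0)
  fs : G.hf (inl (f, s)) = (w, 0)
  atz : G.hf (emz f z) = (w, 0)
  fns : (G.hf (inl (f, !s))).1 ≠ w
  oth : ∀ y, y ≠ z → (G.hf (emz f y)).1 ≠ w

lemma insB_mark (w : V) (f : E) (s : Bool) (G : Gr {v // v ≠ w} {e // e ≠ f} L)
    (z : ({e // e ≠ f} × Bool) ⊕ L) : MarkAt (insB w f s G z) w f s z where
  dec := insB_dec_self _ _ _ _ _
  none := rfl
  fs := insB_fs _ _ _ _ _
  atz := insB_z _ _ _ _ _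
  fns := by rw [insB_fns]; exact (G.hf z).1.2
  oth := fun y hy => by rw [insB_emz, if_neg hy]; exact (G.hf y).1.2

/-- Remove the bubble. -/
def delB {G : Gr V E (Option L)} {w : V} {f : E} {s : Bool} {z : ({e // e ≠ f} × Bool) ⊕ L}
    (H : MarkAt G w f s z) : Gr {v // v ≠ w} {e // e ≠ f} L :=
  ⟨fun v => G.dec v.1, fun y => if h : y = z then (⟨(G.hf (inl (f, !s))).1, H.fns⟩,
    (G.hf (inl (f, !s))).2) else (⟨(G.hf (emz f y)).1, H.oth y h⟩, (G.hf (emz f y)).2)⟩

lemma insB_delB {G : Gr V E (Option L)} {w : V} {f : E} {s : Bool}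
    {z : ({e // e ≠ f} × Bool) ⊕ L} (H : MarkAt G w f s z) : insB w f s (delB H) z = G := by
  apply Gr.ext'
  · intro v
    by_cases h : v = w
    · subst h
      rw [insB_dec_self, H.dec]
    · exact insB_dec w f s (delB H) z ⟨v, h⟩
  · intro y
    rcases emz_cases f s y with rfl | rfl | rfl | ⟨y0, rfl⟩
    · exact H.none.symm
    · rw [insB_fs, H.fs]
    · rw [insB_fns]
      simp [delB]
    · rw [insB_emz]
      split_ifs with h
      · subst h; exact H.atz.symm
      · simp [delB, h]

lemma mark_z {G : Gr V E (Option L)} {w : V} {f : E} {s : Bool}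
    {z z' : ({e // e ≠ f} × Bool) ⊕ L} (H : MarkAt G w f s z) (H' : MarkAt G w f s z') :
    z = z' := by
  by_contra h
  exact H'.oth z h (by rw [H.atz])

lemma insB_inj (w : V) (f : E) (s : Bool) : Function.Injective
    fun p : Gr {v // v ≠ w} {e // e ≠ f} L × (({e // e ≠ f} × Bool) ⊕ L) =>
      insB w f s p.1 p.2 := by
  rintro ⟨G, z⟩ ⟨G', z'⟩ h
  replace h : insB w f s G z = insB w f s G' z' := h
  have hz : z = z' := mark_z (insB_mark w f s G z) (h ▸ insB_mark w f s G' z')
  subst hz
  congr 1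
  apply Gr.ext'
  · intro v
    rw [← insB_dec w f s G z v, h, insB_dec]
  · intro y
    by_cases hy : y = z
    · subst hy
      have h1 := insB_fns w f s G y
      rw [h, insB_fns] at h1
      simp only [Prod.mk.injEq] at h1
      exact Prod.ext (Subtype.ext h1.1.symm) h1.2.symm
    · have h1 := insB_emz w f s G z y
      rw [h, insB_emz, if_neg hy, if_neg hy] at h1
      simp only [Prod.mk.injEq] at h1
      exact Prod.ext (Subtype.ext h1.1.symm) h1.2.symm

/-! ### Counting the half-edges -/

lemma mark_at {G : Gr V E (Option L)} {w : V} {f : E} {s : Bool}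
    {z : ({e // e ≠ f} × Bool) ⊕ L} (H : MarkAt G w f s z) (y : (E × Bool) ⊕ Option L) :
    (G.hf y).1 = w ↔ y = inr none ∨ y = inl (f, s) ∨ y = emz f z := by
  constructor
  · intro h
    rcases emz_cases f s y with rfl | rfl | rfl | ⟨y0, rfl⟩
    · left; rfl
    · right; left; rfl
    · exact absurd h H.fns
    · right; right
      by_contra hne
      exact H.oth y0 (fun h' => hne (by rw [h'])) h
  · rintro (rfl | rfl | rfl)
    · rw [H.none]
    · rw [H.fs]
    · rw [H.atz]

lemma mark_nv {G : Gr V E (Option L)} {w : V} {f : E} {s : Bool}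
    {z : ({e // e ≠ f} × Bool) ⊕ L} (H : MarkAt G w f s z) : G.nv w = 3 := by
  unfold Gr.nv
  have h1 : {y | (G.hf y).1 = w} = {inr none, inl (f, s), emz f z} := by
    ext y
    exact mark_at H y
  have h2 : Nat.card {y // (G.hf y).1 = w} = ({y | (G.hf y).1 = w} : Set _).ncard := rfl
  rw [h2, h1, Set.ncard_insert_of_notMem, Set.ncard_pair (emz_ne_f f z s).symm]
  simp only [Set.mem_insert_iff, Set.mem_singleton_iff, reduceCtorEq, false_or]
  exact (emz_ne_none f z).symm

end Vale.Agent.P273.D14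
end
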