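import Vale.Agent.P273.D14.K3

/-!
Pullback of Pixton's relations: the weight of a graph with a bubble.
-/

noncomputable section
namespace Vale.Agent.P273.D14
open Sum Vale.Agent.P273
open scoped Classical

variable {V E V' E' L M N R T : Type}

lemma sum_emz {M : Type*} [AddCommMonoid M] [Fintype E] [Fintype L] (f : E) (s : Bool)
    (F : (E × Bool) ⊕ Option L → M) :
    ∑ y, F y = F (inr none) + F (inl (f, s)) + F (inl (f, !s)) +
      ∑ y0 : ({e // e ≠ f} × Bool) ⊕ L, F (emz f y0) := by
  rw [Fintype.sum_sum_type, Fintype.sum_option, Fintype.sum_prod_type,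
    Fintype.sum_eq_add_sum_subtype_ne (fun e => ∑ b, F (inl (e, b))) f,
    Fintype.sum_sum_type, Fintype.sum_prod_type]
  have h1 : ∑ b, F (inl (f, b)) = F (inl (f, s)) + F (inl (f, !s)) := by
    rw [Fintype.sum_bool]
    cases s
    · simp [add_comm]
    · simp
  rw [h1]
  have h2 : ∀ (e : {e // e ≠ f}) (b : Bool), F (emz f (inl (e, b) : _ ⊕ L)) =
    F (inl (e.1, b)) := fun e b => rfl
  have h3 : ∀ x : L, F (emz f (inr x)) = F (inr (some x)) := fun x => rfl
  simp only [h2, h3]
  abel

section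
variable [Finite V] [Finite E] [Finite L] (w : V) (f : E) (s : Bool)
  (G : Gr {v // v ≠ w} {e // e ≠ f} L) (z : ({e // e ≠ f} × Bool) ⊕ L)

omit [Finite V] [Finite E] [Finite L] in
lemma insB_nv (v : {v // v ≠ w}) : (insB w f s G z).nv v.1 = G.nv v := by
  unfold Gr.nv
  symm
  have h1 : ∀ y, ((insB w f s G z).hf (if y = z then inl (f, !s) else emz f y)).1 =
      (G.hf y).1.1 := by
    intro y
    split_ifs with hy
    · rw [insB_fns, hy]
    · rw [insB_emz, if_neg hy]
  refine Nat.card_congr (Equiv.ofBijective (fun y => ⟨if y.1 = z then inl (f, !s) else emz f y.1,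
    by rw [h1, y.2]⟩) ⟨?_, ?_⟩)
  · rintro ⟨y, hy⟩ ⟨y', hy'⟩ h
    simp only [Subtype.mk.injEq] at h ⊢
    split_ifs at h with h2 h3 h3
    · rw [h2, h3]
    · exact absurd h.symm (emz_ne_f f y' _)
    · exact absurd h (emz_ne_f f y _)
    · exact emz_inj f h
  · rintro ⟨y, hy⟩
    rcases emz_cases f s y with rfl | rfl | rfl | ⟨y0, rfl⟩
    · exact absurd hy.symm v.2
    · rw [insB_fs] at hy
      exact absurd hy.symm v.2
    · rw [insB_fns] at hy
      exact ⟨⟨z, Subtype.ext hy⟩, by simp⟩
    · rw [insB_emz] at hy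
      split_ifs at hy with h2
      · exact absurd hy.symm v.2
      · exact ⟨⟨y0, Subtype.ext hy⟩, by simp [h2]⟩

omit [Finite V] [Finite E] [Finite L] in
lemma insB_nv_self : (insB w f s G z).nv w = 3 := mark_nv (insB_mark w f s G z)

lemma insB_deg : (insB w f s G z).deg = G.deg + 1 := by
  have := Fintype.ofFinite V
  have := Fintype.ofFinite E
  have := Fintype.ofFinite L
  unfold Gr.deg
  rw [Gr.card_ne E f, Gr.finsum_ne w]
  simp only [insB_dec_self, insB_dec, finsum_eq_sum_of_fintype]
  rw [sum_emz f s, insB_none, insB_fs, insB_fns]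
  simp only [insB_emz]
  rw [← Finset.add_sum_erase _ _ (Finset.mem_univ z),
    ← Finset.add_sum_erase Finset.univ (fun y => (G.hf y).2) (Finset.mem_univ z)]
  have h1 : ∑ y ∈ Finset.univ.erase z, (if y = z then ((w, 0) : V × ℕ)
      else ((G.hf y).1.1, (G.hf y).2)).2 = ∑ y ∈ Finset.univ.erase z, (G.hf y).2 := by
    apply Finset.sum_congr rfl
    intro y hy
    rw [if_neg (Finset.ne_of_mem_erase hy)]
  rw [h1, if_pos rfl]
  simp only [Multiset.sum_zero]
  omega

omit [Finite V] [Finite E] [Finite L] in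
lemma insB_conn : (∀ S : Set V, (∀ e, ((insB w f s G z).hf (inl (e, true))).1 ∈ S ↔
      ((insB w f s G z).hf (inl (e, false))).1 ∈ S) → S = ∅ ∨ S = Set.univ) ↔
    ∀ S : Set {v // v ≠ w}, (∀ e, (G.hf (inl (e, true))).1 ∈ S ↔ (G.hf (inl (e, false))).1 ∈ S) →
      S = ∅ ∨ S = Set.univ := by
  have hsides : ∀ S : Set V, (∀ e, ((insB w f s G z).hf (inl (e, true))).1 ∈ S ↔
      ((insB w f s G z).hf (inl (e, false))).1 ∈ S) ↔
      (w ∈ S ↔ (G.hf z).1.1 ∈ S) ∧ ∀ e : {e // e ≠ f},
        ((insB w f s G z).hf (emz f (inl (e, true)))).1 ∈ S ↔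
        ((insB w f s G z).hf (emz f (inl (e, false)))).1 ∈ S := by
    intro S
    constructor
    · intro h
      constructor
      · have h1 := h f
        have h2 : ((insB w f s G z).hf (inl (f, s))).1 ∈ S ↔
            ((insB w f s G z).hf (inl (f, !s))).1 ∈ S := by
          cases s
          · exact h1.symm
          · exact h1
        rwa [insB_fs, insB_fns] at h2
      · intro e
        exact h e.1
    · rintro ⟨h1, h2⟩ e
      by_cases he : e = f
      · subst he
        have h3 : ((insB w e s G z).hf (inl (e, s))).1 ∈ S ↔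
            ((insB w e s G z).hf (inl (e, !s))).1 ∈ S := by
          rw [insB_fs, insB_fns]; exact h1
        cases s
        · exact h3.symm
        · exact h3
      · exact h2 ⟨e, he⟩
  constructor
  · intro h S hS
    have h1 := h {v | ∃ hv : v ≠ w, (⟨v, hv⟩ : {v // v ≠ w}) ∈ S ∨ False} 
    clear h1
    have key := h {v | if hv : v = w then (G.hf z).1 ∈ S else (⟨v, hv⟩ : {v // v ≠ w}) ∈ S} (by
      rw [hsides]
      have hmem : ∀ v : {v // v ≠ w}, v.1 ∈ {v | if hv : v = w then (G.hf z).1 ∈ S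
          else (⟨v, hv⟩ : {v // v ≠ w}) ∈ S} ↔ v ∈ S := by
        intro v
        change (if hv : v.1 = w then _ else _) ↔ _
        rw [dif_neg v.2]
      have hw : w ∈ {v | if hv : v = w then (G.hf z).1 ∈ S
          else (⟨v, hv⟩ : {v // v ≠ w}) ∈ S} ↔ (G.hf z).1 ∈ S := by
        change (if hv : w = w then _ else _) ↔ _
        rw [dif_pos rfl]
      have hall : ∀ y, ((insB w f s G z).hf (emz f y)).1 ∈ {v | if hv : v = w then (G.hf z).1 ∈ S
          else (⟨v, hv⟩ : {v // v ≠ w}) ∈ S} ↔ (G.hf y).1 ∈ S := by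
        intro y
        rw [insB_emz]
        split_ifs with hy
        · subst hy; exact hw
        · exact hmem _
      refine ⟨?_, ?_⟩
      · rw [hw, hmem]
      · intro e
        rw [hall, hall]
        exact hS e)
    rcases key with key | key
    · left
      ext v
      have : v.1 ∈ {v | if hv : v = w then (G.hf z).1 ∈ S
          else (⟨v, hv⟩ : {v // v ≠ w}) ∈ S} ↔ v ∈ S := by
        change (if hv : v.1 = w then _ else _) ↔ _
        rw [dif_neg v.2]
      rw [← this, key]
      simp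
    · right
      ext v
      have : v.1 ∈ {v | if hv : v = w then (G.hf z).1 ∈ S
          else (⟨v, hv⟩ : {v // v ≠ w}) ∈ S} ↔ v ∈ S := by
        change (if hv : v.1 = w then _ else _) ↔ _
        rw [dif_neg v.2]
      rw [← this, key]
      simp
  · intro h S hS
    rw [hsides] at hS
    obtain ⟨hw, hS⟩ := hS
    have hall : ∀ y, ((insB w f s G z).hf (emz f y)).1 ∈ S ↔ (G.hf y).1 ∈
        (Subtype.val ⁻¹' S : Set {v // v ≠ w}) := by
      intro y
      rw [insB_emz]
      split_ifs with hy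
      · subst hy; exact hw
      · exact Iff.rfl
    have key := h (Subtype.val ⁻¹' S) (by
      intro e
      rw [← hall, ← hall]
      exact hS e)
    rcases key with key | key
    · left
      ext v
      by_cases hv : v = w
      · subst hv
        rw [hw]
        have : (G.hf z).1 ∈ (Subtype.val ⁻¹' S : Set {v' // v' ≠ v}) ↔ False := by
          rw [key]; simp
        simpa using this
      · have : (⟨v, hv⟩ : {v // v ≠ w}) ∈ (Subtype.val ⁻¹' S : Set {v // v ≠ w}) ↔ False := by
          rw [key]; simp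
        simpa using this
    · right
      ext v
      by_cases hv : v = w
      · subst hv
        rw [hw]
        have : (G.hf z).1 ∈ (Subtype.val ⁻¹' S : Set {v' // v' ≠ v}) ↔ True := by
          rw [key]; simp
        simpa using this
      · have : (⟨v, hv⟩ : {v // v ≠ w}) ∈ (Subtype.val ⁻¹' S : Set {v // v ≠ w}) ↔ True := by
          rw [key]; simp
        simpa using this

omit [Finite L] in
lemma insB_stab (γ : ℕ) : (insB w f s G z).Stab γ ↔ G.Stab γ := by
  unfold Gr.Stab
  rw [insB_conn, Gr.card_ne E f, Gr.card_ne V w, Gr.finsum_ne w]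
  simp only [insB_dec_self, insB_dec]
  have h1 : Nonempty V ↔ Nonempty {v // v ≠ w} :=
    ⟨fun _ => ⟨(G.hf z).1⟩, fun _ => ⟨w⟩⟩
  have h2 : (∀ v, 2 < 2 * ((insB w f s G z).dec v).1 + (insB w f s G z).nv v) ↔
      ∀ v, 2 < 2 * (G.dec v).1 + G.nv v := by
    constructor
    · intro h v
      have := h v.1
      rwa [insB_dec, insB_nv] at this
    · intro h v
      by_cases hv : v = w
      · subst hv
        rw [insB_dec_self, insB_nv_self]
        decide
      · have := h ⟨v, hv⟩
        rw [← insB_dec w f s G z ⟨v, hv⟩, ← insB_nv w f s G z ⟨v, hv⟩] at this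
        exact this
  rw [h1, h2]
  have h3 : (0 + ∑ᶠ (x : {v // v ≠ w}), (G.dec x).1 + (Nat.card {e // e ≠ f} + 1) + 1 =
      γ + (Nat.card {v // v ≠ w} + 1)) ↔ (∑ᶠ (x : {v // v ≠ w}), (G.dec x).1 +
        Nat.card {e // e ≠ f} + 1 = γ + Nat.card {v // v ≠ w}) := by omega
  rw [h3]

end

/-- Raise the exponent of a half-edge by one. -/
def rai (G : Gr V E L) (z : (E × Bool) ⊕ L) : Gr V E L :=
  ⟨G.dec, Function.update G.hf z ((G.hf z).1, (G.hf z).2 + 1)⟩

lemma rai_fst (G : Gr V E L) (z y : (E × Bool) ⊕ L) : ((rai G z).hf y).1 = (G.hf y).1 := by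
  by_cases h : y = z
  · subst h; simp [rai]
  · simp [rai, h]

lemma rai_self (G : Gr V E L) (z : (E × Bool) ⊕ L) :
    (rai G z).hf z = ((G.hf z).1, (G.hf z).2 + 1) := by simp [rai]

lemma rai_ne (G : Gr V E L) {z y : (E × Bool) ⊕ L} (h : y ≠ z) : (rai G z).hf y = G.hf y := by
  simp [rai, h]

lemma rai_stab (G : Gr V E L) (z : (E × Bool) ⊕ L) (γ : ℕ) : (rai G z).Stab γ ↔ G.Stab γ := by
  have h1 : ∀ v, (rai G z).nv v = G.nv v := by
    intro v
    unfold Gr.nv
    simp only [rai_fst]
  unfold Gr.Stab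
  simp only [rai_fst, h1]
  rfl

lemma rai_deg [Finite E] [Finite L] (G : Gr V E L) (z : (E × Bool) ⊕ L) :
    (rai G z).deg = G.deg + 1 := by
  have := Fintype.ofFinite E
  have := Fintype.ofFinite L
  unfold Gr.deg
  rw [finsum_eq_sum_of_fintype (fun y => ((rai G z).hf y).2),
    finsum_eq_sum_of_fintype (fun y => (G.hf y).2),
    ← Finset.add_sum_erase _ _ (Finset.mem_univ z),
    ← Finset.add_sum_erase Finset.univ (fun y => (G.hf y).2) (Finset.mem_univ z), rai_self]
  have : ∑ y ∈ Finset.univ.erase z, ((rai G z).hf y).2 =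
      ∑ y ∈ Finset.univ.erase z, (G.hf y).2 := by
    apply Finset.sum_congr rfl
    intro y hy
    rw [rai_ne _ (Finset.ne_of_mem_erase hy)]
  rw [this]
  change Nat.card E + ∑ᶠ v, (G.dec v).2.sum + _ = _
  dsimp only
  omega

end Vale.Agent.P273.D14
end
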