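import Vale.Agent.P273.D14.K4

/-!
Pullback of Pixton's relations: the weight of a graph with a bubble.
-/

noncomputable section
namespace Vale.Agent.P273.D14
open Sum Vale.Agent.P273
open scoped Classical

variable {V E V' E' L M N R T : Type}

/-- The vertex factors. -/
def PV (G : Gr V E L) (σ : V → ℚ) : ℚ :=
  ∏ᶠ v, σ v ^ ((G.dec v).1 + 1) * kapF (G.dec v).2 (σ v)

/-- The factor of a half-edge pair. -/
def EG (G : Gr V E L) (σ : V → ℚ) (e : E) : ℚ :=
  edgeF (σ (G.hf (inl (e, true))).1, (G.hf (inl (e, true))).2)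
    (σ (G.hf (inl (e, false))).1, (G.hf (inl (e, false))).2)

/-- The factor of a leg. -/
def LG' (G : Gr V E L) (A : L → ℕ) (σ : V → ℚ) (x : L) : ℚ :=
  B (A x) (σ (G.hf (inr x)).1) (G.hf (inr x)).2

lemma wsum_eq (G : Gr V E L) (A : L → ℕ) (σ : V → ℚ) :
    wsum G A σ = PV G σ * (∏ᶠ e, EG G σ e) * ∏ᶠ x, LG' G A σ x := rfl

lemma EG_side (G : Gr V E L) (σ : V → ℚ) (e : E) (b : Bool) :
    EG G σ e = EF b (σ (G.hf (inl (e, b))).1, (G.hf (inl (e, b))).2)
      (σ (G.hf (inl (e, !b))).1, (G.hf (inl (e, !b))).2) := by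
  cases b <;> rfl

lemma EF_eq {b : Bool} {ζ ξ : ℚ} (hζ : ζ ^ 2 = 1) (hξ : ξ ^ 2 = 1) (p q : ℕ) :
    EF b (ζ, p) (ξ, q) = edgeF (ζ, p) (ξ, q) := by
  cases b
  · exact edgeF_symm hξ hζ q p
  · rfl

section
variable [Finite V] [Finite E] [Finite L] (w : V) (f : E) (s : Bool)
  (G : Gr {v // v ≠ w} {e // e ≠ f} L)

omit [Finite E] [Finite L] in
lemma PV_insB (z : ({e // e ≠ f} × Bool) ⊕ L) (σ : V → ℚ) :
    PV (insB w f s G z) σ = σ w * PV G (fun v => σ v.1) := by
  unfold PV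
  rw [finprod_ne w]
  simp only [insB_dec_self, insB_dec]
  have e10 : kapF 0 (σ w) = 1 := by simp [kapF]
  rw [e10]
  ring

omit [Finite V] [Finite E] [Finite L] in
lemma EG_insB_f (z : ({e // e ≠ f} × Bool) ⊕ L) (σ : V → ℚ) :
    EG (insB w f s G z) σ f = EF s (σ w, 0) (σ (G.hf z).1.1, (G.hf z).2) := by
  rw [EG_side _ _ _ s, insB_fs, insB_fns]

omit [Finite V] [Finite E] [Finite L] in
lemma EG_insB_ne (z : ({e // e ≠ f} × Bool) ⊕ L) (σ : V → ℚ) (e : {e // e ≠ f})
    (h : ∀ b, z ≠ inl (e, b)) :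
    EG (insB w f s G z) σ e.1 = EG G (fun v => σ v.1) e := by
  have h1 : ∀ b, (insB w f s G z).hf (inl (e.1, b)) =
      ((G.hf (inl (e, b))).1.1, (G.hf (inl (e, b))).2) := by
    intro b
    have := insB_emz w f s G z (inl (e, b))
    rw [if_neg (h b).symm] at this
    exact this
  unfold EG
  rw [h1, h1]

omit [Finite V] [Finite E] [Finite L] in
lemma EG_insB_z (e : {e // e ≠ f}) (b : Bool) (σ : V → ℚ) :
    EG (insB w f s G (inl (e, b))) σ e.1 = EF b (σ w, 0)
      (σ (G.hf (inl (e, !b))).1.1, (G.hf (inl (e, !b))).2) := by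
  rw [EG_side _ _ _ b]
  have h1 := insB_z w f s G (inl (e, b))
  have h2 := insB_emz w f s G (inl (e, b)) (inl (e, !b))
  rw [if_neg (by cases b <;> simp)] at h2
  have h3 : (emz f (inl (e, b)) : (E × Bool) ⊕ Option L) = inl (e.1, b) := rfl
  have h4 : (emz f (inl (e, !b)) : (E × Bool) ⊕ Option L) = inl (e.1, !b) := rfl
  rw [h3] at h1
  rw [h4] at h2
  rw [h1, h2]

omit [Finite V] [Finite E] [Finite L] in
lemma LG_insB_ne (z : ({e // e ≠ f} × Bool) ⊕ L) (A : L → ℕ) (σ : V → ℚ) (x : L)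
    (h : z ≠ inr x) :
    LG' (insB w f s G z) (Option.elim' 0 A) σ (some x) = LG' G A (fun v => σ v.1) x := by
  have h1 : (insB w f s G z).hf (inr (some x)) =
      ((G.hf (inr x)).1.1, (G.hf (inr x)).2) := by
    have := insB_emz w f s G z (inr x)
    rw [if_neg h.symm] at this
    exact this
  unfold LG'
  rw [h1]
  rfl

omit [Finite V] [Finite E] [Finite L] in
lemma LG_insB_z (A : L → ℕ) (σ : V → ℚ) (x : L) :
    LG' (insB w f s G (inr x)) (Option.elim' 0 A) σ (some x) = B (A x) (σ w) 0 := by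
  have h1 : (insB w f s G (inr x)).hf (inr (some x)) = (w, 0) := insB_z w f s G (inr x)
  unfold LG'
  rw [h1]
  rfl

omit [Finite V] [Finite E] [Finite L] in
lemma LG_insB_none (z : ({e // e ≠ f} × Bool) ⊕ L) (A : L → ℕ) (σ : V → ℚ) :
    LG' (insB w f s G z) (Option.elim' 0 A) σ none = 1 := by
  unfold LG'
  rw [insB_none]
  exact B_zero_zero _

/-- Sum over the sign of the bubble. -/
lemma sum_sign (F : (V → Bool) → ℚ) : ∑ᶠ ζ : V → Bool, F ζ =
    ∑ᶠ η : {v // v ≠ w} → Bool, ∑ b : Bool, F (fun v => if h : v = w then b else η ⟨v, h⟩) := by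
  have := Fintype.ofFinite V
  rw [finsum_eq_sum_of_fintype, finsum_eq_sum_of_fintype,
    ← Equiv.sum_comp (Equiv.funSplitAt w Bool).symm, Fintype.sum_prod_type, Finset.sum_comm]
  apply Finset.sum_congr rfl
  intro η _
  apply Finset.sum_congr rfl
  intro b _
  congr 1
  funext v
  by_cases h : v = w
  · subst h; simp [Equiv.funSplitAt, Equiv.piSplitAt]
  · simp [Equiv.funSplitAt, Equiv.piSplitAt, h]

/-- The sign function with value `b` at the bubble. -/
def ext (w : V) (η : {v // v ≠ w} → Bool) (b : Bool) : V → ℚ :=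
  fun v => sg (if h : v = w then b else η ⟨v, h⟩)

omit [Finite V] in
lemma ext_w (η : {v // v ≠ w} → Bool) (b : Bool) : ext w η b w = sg b := by simp [ext]

omit [Finite V] in
lemma ext_v (η : {v // v ≠ w} → Bool) (b : Bool) (v : {v // v ≠ w}) :
    ext w η b v.1 = sg (η v) := by simp [ext, v.2]

lemma wt_insB_eq (z : ({e // e ≠ f} × Bool) ⊕ L) (γ : ℕ) (A : L → ℕ) (e : ℕ) :
    wt (insB w f s G z) γ (Option.elim' 0 A) e = if (G.Stab γ ∧ G.deg + 1 = e) then
      ∑ᶠ η : {v // v ≠ w} → Bool, (1 / 2) ^ (Nat.card {e // e ≠ f} + 1) * ((1 / 2) *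
        ∑ b : Bool, wsum (insB w f s G z) (Option.elim' 0 A) (ext w η b)) else 0 := by
  rw [wt_eq_wsum, insB_stab, insB_deg, sum_sign w]
  congr 1
  apply finsum_congr
  intro η
  rw [Finset.mul_sum, Finset.mul_sum, Gr.card_ne E f]
  apply Finset.sum_congr rfl
  intro b _
  rw [pow_succ _ (Nat.card {e // e ≠ f} + 1)]
  unfold ext
  ring

omit [Finite V] in
lemma wt_rai_eq (z : ({e // e ≠ f} × Bool) ⊕ L) (γ : ℕ) (A : L → ℕ) (e : ℕ) :
    wt (rai G z) γ A e = if (G.Stab γ ∧ G.deg + 1 = e) then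
      ∑ᶠ η : {v // v ≠ w} → Bool, (1 / 2) ^ (Nat.card {e // e ≠ f} + 1) *
        wsum (rai G z) A (fun v => sg (η v)) else 0 := by
  rw [wt_eq_wsum, rai_stab, rai_deg]

/-- The bubble at a leg. -/
lemma wt_insB_leg (x : L) (γ : ℕ) (A : L → ℕ) (hA : A x ≤ 1) (e : ℕ) :
    wt (insB w f s G (inr x)) γ (Option.elim' 0 A) e = - wt (rai G (inr x)) γ A e := by
  have := Fintype.ofFinite E
  have := Fintype.ofFinite L
  rw [wt_insB_eq, wt_rai_eq w f G (inr x)]
  split_ifs with h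
  swap
  · simp
  rw [← finsum_neg_distrib]
  apply finsum_congr
  intro η
  rw [← mul_neg]
  congr 1
  have h1 : ∀ b, wsum (insB w f s G (inr x)) (Option.elim' 0 A) (ext w η b) =
      (sg b * B (A x) (sg b) 0 * edgeF (sg b, 0) (sg (η (G.hf (inr x)).1), (G.hf (inr x)).2)) *
      (PV G (fun v => sg (η v)) * (∏ᶠ e, EG G (fun v => sg (η v)) e) *
        ∏ x' ∈ Finset.univ.erase x, LG' G A (fun v => sg (η v)) x') := by
    intro b
    rw [wsum_eq, PV_insB, finprod_ne f, EG_insB_f, finprod_eq_prod_of_fintype (fun x => LG' _ _ _ x),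
      Fintype.prod_option, LG_insB_none, ← Finset.mul_prod_erase _ _ (Finset.mem_univ x),
      LG_insB_z]
    simp only [ext_w, ext_v]
    rw [EF_eq (sg_sq _) (sg_sq _)]
    have h2 : ∏ᶠ e : {e // e ≠ f}, EG (insB w f s G (inr x)) (ext w η b) e.1 =
        ∏ᶠ e, EG G (fun v => sg (η v)) e := by
      apply finprod_congr
      intro e
      rw [EG_insB_ne _ _ _ _ _ _ _ (by simp)]
      simp only [ext_v]
    have h3 : ∏ x' ∈ Finset.univ.erase x, LG' (insB w f s G (inr x)) (Option.elim' 0 A)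
        (ext w η b) (some x') = ∏ x' ∈ Finset.univ.erase x, LG' G A (fun v => sg (η v)) x' := by
      apply Finset.prod_congr rfl
      intro x' hx'
      rw [LG_insB_ne _ _ _ _ _ _ _ _ (by simpa using (Finset.ne_of_mem_erase hx').symm)]
      simp only [ext_v]
    rw [h2, h3]
    ring
  rw [Finset.sum_congr rfl fun b _ => h1 b, ← Finset.sum_mul, bub_leg (sg_sq _) _ _ hA]
  rw [wsum_eq, finprod_eq_prod_of_fintype (fun x => LG' _ _ _ x),
    ← Finset.mul_prod_erase _ _ (Finset.mem_univ x)]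
  have h4 : LG' (rai G (inr x)) A (fun v => sg (η v)) x =
      B (A x) (sg (η (G.hf (inr x)).1)) ((G.hf (inr x)).2 + 1) := by
    unfold LG'
    rw [rai_self]
  have h5 : ∏ x' ∈ Finset.univ.erase x, LG' (rai G (inr x)) A (fun v => sg (η v)) x' =
      ∏ x' ∈ Finset.univ.erase x, LG' G A (fun v => sg (η v)) x' := by
    apply Finset.prod_congr rfl
    intro x' hx'
    unfold LG'
    rw [rai_ne _ (by simpa using (Finset.ne_of_mem_erase hx'))]
  have h6 : ∏ᶠ e, EG (rai G (inr x)) (fun v => sg (η v)) e =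
      ∏ᶠ e, EG G (fun v => sg (η v)) e := by
    apply finprod_congr
    intro e
    unfold EG
    rw [rai_ne _ (by simp), rai_ne _ (by simp)]
  have h7 : PV (rai G (inr x)) (fun v => sg (η v)) = PV G (fun v => sg (η v)) := rfl
  rw [h4, h5, h6, h7]
  ring

/-- The bubble in an edge. -/
lemma wt_insB_edge (e0 : {e // e ≠ f}) (c : Bool) (γ : ℕ) (A : L → ℕ) (e : ℕ) :
    wt (insB w f s G (inl (e0, c))) γ (Option.elim' 0 A) e =
      - (wt (rai G (inl (e0, c))) γ A e + wt (rai G (inl (e0, !c))) γ A e) := by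
  have := Fintype.ofFinite E
  have := Fintype.ofFinite L
  rw [wt_insB_eq, wt_rai_eq w f G, wt_rai_eq w f G]
  split_ifs with h
  swap
  · simp
  rw [← finsum_add_distrib (Set.toFinite _) (Set.toFinite _), ← finsum_neg_distrib]
  apply finsum_congr
  intro η
  rw [← mul_add, ← mul_neg]
  congr 1
  set σ : {v // v ≠ w} → ℚ := fun v => sg (η v) with hσ
  have hsq : ∀ v, σ v ^ 2 = 1 := fun v => sg_sq _
  have h1 : ∀ b, wsum (insB w f s G (inl (e0, c))) (Option.elim' 0 A) (ext w η b) =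
      (sg b * edgeF (sg b, 0) (σ (G.hf (inl (e0, c))).1, (G.hf (inl (e0, c))).2) *
        edgeF (sg b, 0) (σ (G.hf (inl (e0, !c))).1, (G.hf (inl (e0, !c))).2)) *
      (PV G σ * (∏ e ∈ Finset.univ.erase e0, EG G σ e) * ∏ᶠ x', LG' G A σ x') := by
    intro b
    rw [wsum_eq, PV_insB, finprod_ne f, EG_insB_f, finprod_eq_prod_of_fintype (fun x => LG' _ _ _ x),
      Fintype.prod_option, LG_insB_none,
      finprod_eq_prod_of_fintype (fun e : {e // e ≠ f} => EG _ _ e.1),
      ← Finset.mul_prod_erase _ _ (Finset.mem_univ e0), EG_insB_z]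
    simp only [ext_w, ext_v]
    rw [EF_eq (sg_sq _) (sg_sq _), EF_eq (sg_sq _) (sg_sq _)]
    have h2 : ∏ e ∈ Finset.univ.erase e0, EG (insB w f s G (inl (e0, c))) (ext w η b) e.1 =
        ∏ e ∈ Finset.univ.erase e0, EG G σ e := by
      apply Finset.prod_congr rfl
      intro e he
      rw [EG_insB_ne _ _ _ _ _ _ _ (fun b' h' => Finset.ne_of_mem_erase he (by
        simp only [inl.injEq, Prod.mk.injEq] at h'
        exact h'.1.symm))]
      simp only [ext_v, hσ]
    have h3 : ∏ x' : L, LG' (insB w f s G (inl (e0, c))) (Option.elim' 0 A)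
        (ext w η b) (some x') = ∏ᶠ x', LG' G A σ x' := by
      rw [finprod_eq_prod_of_fintype]
      apply Finset.prod_congr rfl
      intro x' _
      rw [LG_insB_ne _ _ _ _ _ _ _ _ (by simp)]
      simp only [ext_v, hσ]
    rw [h2, h3]
    ring
  rw [Finset.sum_congr rfl fun b _ => h1 b, ← Finset.sum_mul, bub_edge (hsq _) (hsq _)]
  have h8 : ∀ b, wsum (rai G (inl (e0, b))) A σ =
      edgeF (σ (G.hf (inl (e0, b))).1, (G.hf (inl (e0, b))).2 + 1)
        (σ (G.hf (inl (e0, !b))).1, (G.hf (inl (e0, !b))).2) *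
      (PV G σ * (∏ e ∈ Finset.univ.erase e0, EG G σ e) * ∏ᶠ x', LG' G A σ x') := by
    intro b
    rw [wsum_eq, finprod_eq_prod_of_fintype (fun e : {e // e ≠ f} => EG _ _ e),
      ← Finset.mul_prod_erase _ _ (Finset.mem_univ e0)]
    have h4 : EG (rai G (inl (e0, b))) σ e0 =
        edgeF (σ (G.hf (inl (e0, b))).1, (G.hf (inl (e0, b))).2 + 1)
        (σ (G.hf (inl (e0, !b))).1, (G.hf (inl (e0, !b))).2) := by
      rw [EG_side _ _ _ b, rai_self, rai_ne _ (by cases b <;> simp), EF_eq (hsq _) (hsq _)]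
    have h5 : ∏ e ∈ Finset.univ.erase e0, EG (rai G (inl (e0, b))) σ e =
        ∏ e ∈ Finset.univ.erase e0, EG G σ e := by
      apply Finset.prod_congr rfl
      intro e he
      unfold EG
      rw [rai_ne _ (by
        simp only [ne_eq, inl.injEq, Prod.mk.injEq, not_and]
        intro h'; exact absurd h' (Finset.ne_of_mem_erase he)), rai_ne _ (by
        simp only [ne_eq, inl.injEq, Prod.mk.injEq, not_and]
        intro h'; exact absurd h' (Finset.ne_of_mem_erase he))]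
    have h6 : ∏ᶠ x', LG' (rai G (inl (e0, b))) A σ x' = ∏ᶠ x', LG' G A σ x' := by
      apply finprod_congr
      intro x'
      unfold LG'
      rw [rai_ne _ (by simp)]
    have h7 : PV (rai G (inl (e0, b))) σ = PV G σ := rfl
    rw [h4, h5, h6, h7]
    ring
  rw [h8 c, h8 (!c), Bool.not_not, edgeF_symm (hsq (G.hf (inl (e0, !c))).1) (hsq _)]
  ring

end

end Vale.Agent.P273.D14
end
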