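import Vale.Agent.P273.D14.K5

/-!
Pullback of Pixton's relations: counting the marks.
-/

noncomputable section
namespace Vale.Agent.P273.D14
open Sum Vale.Agent.P273
open scoped Classical

variable {V E V' E' L M N R T : Type}

/-- The weight of a mark. -/
def mu (G : Gr V E (Option L)) (p : V × E × Bool) : ℚ :=
  if ∃ x, MarkAt G p.1 p.2.1 p.2.2 (inr x) then 1 else
    if ∃ y, MarkAt G p.1 p.2.1 p.2.2 (inl y) then 1 / 2 else 0

lemma mu_ne {G : Gr V E (Option L)} {p : V × E × Bool} (h : mu G p ≠ 0) :
    ∃ z, MarkAt G p.1 p.2.1 p.2.2 z := by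
  unfold mu at h
  split_ifs at h with h1 h2
  · exact ⟨_, h1.choose_spec⟩
  · exact ⟨_, h2.choose_spec⟩
  · exact absurd rfl h

lemma mark_caseA {G : Gr V E (Option L)} {w : V} {f : E} {s : Bool}
    {z : ({e // e ≠ f} × Bool) ⊕ L} (H : MarkAt G w f s z) : ¬ CaseA G := by
  unfold CaseA
  rw [H.none]
  dsimp only
  rw [H.dec, mark_nv H]
  decide

/-- No kappa or psi class at the vertex of the leg `none`. -/
def Clean (G : Gr V E (Option L)) : Prop :=
  (G.dec (G.hf (inr none)).1).2 = 0 ∧
    ∀ y, (G.hf y).1 = (G.hf (inr none)).1 → (G.hf y).2 = 0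

lemma only_one {G : Gr V E (Option L)} {γ : ℕ} [Finite V] [Finite E] (hst : G.Stab γ)
    (h : ∀ e, (G.hf (inl (e, true))).1 = (G.hf (inr none)).1 ↔
      (G.hf (inl (e, false))).1 = (G.hf (inr none)).1) :
    (∀ v, v = (G.hf (inr none)).1) ∧
      (G.dec (G.hf (inr none)).1).1 + Nat.card E = γ := by
  have h1 := hst.2.1 {(G.hf (inr none)).1} (fun e => by
    simp only [Set.mem_singleton_iff]; exact h e)
  have h2 : ∀ v, v = (G.hf (inr none)).1 := by
    rcases h1 with h1 | h1
    · exact absurd h1 (Set.singleton_ne_empty _)
    · intro v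
      have : v ∈ ({(G.hf (inr none)).1} : Set V) := by rw [h1]; trivial
      exact this
  refine ⟨h2, ?_⟩
  have h3 := hst.2.2.1
  have hu : Unique V := ⟨⟨(G.hf (inr none)).1⟩, h2⟩
  have h4 : ∑ᶠ v, (G.dec v).1 = (G.dec (G.hf (inr none)).1).1 := by
    rw [finsum_eq_single _ (G.hf (inr none)).1]
    intro v hv
    exact absurd (h2 v) hv
  have h5 : Nat.card V = 1 := Nat.card_unique
  rw [h4, h5] at h3
  omega

/-- Every clean graph with a bubble is counted once. -/
theorem sum_mu [Fintype V] [Fintype E] [Finite L] {γ : ℕ} (hγ : 2 < 2 * γ + Nat.card L)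
    (G : Gr V E (Option L)) (hst : G.Stab γ) (hA : ¬ CaseA G) (hc : Clean G) :
    ∑ p : V × E × Bool, mu G p = 1 := by
  set w0 := (G.hf (inr none)).1 with hw0
  have hnv0 := hst.2.2.2 w0
  unfold CaseA at hA
  rw [← hw0] at hA
  have hL := Fintype.ofFinite L
  -- the half-edges at w0
  have hcard : ∃ S : Finset ((E × Bool) ⊕ Option L), (∀ y, y ∈ S ↔ (G.hf y).1 = w0) ∧
      S.card = G.nv w0 := by
    refine ⟨Finset.univ.filter fun y => (G.hf y).1 = w0, fun y => by simp, ?_⟩
    unfold Gr.nv
    rw [Nat.card_eq_fintype_card, Fintype.card_subtype]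
  obtain ⟨S, hS, hSc⟩ := hcard
  have hnone : inr none ∈ S := (hS _).2 rfl
  have hcases : ((G.dec w0).1 = 0 ∧ G.nv w0 = 3) ∨ ((G.dec w0).1 = 1 ∧ G.nv w0 = 1) := by omega
  rcases hcases with ⟨hg0, hnv⟩ | ⟨hg1, hnv⟩
  swap
  · -- elliptic vertex without other half-edges
    exfalso
    have h1 : ∀ y, (G.hf y).1 = w0 → y = inr none := by
      intro y hy
      rw [← hS] at hy
      rw [← hSc] at hnv
      obtain ⟨a, ha⟩ := Finset.card_eq_one.1 hnv
      rw [ha, Finset.mem_singleton] at hy hnone
      rw [hy, hnone]
    have h2 := only_one hst (fun e => by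
      constructor
      · intro h; exact absurd (h1 _ h) (by simp)
      · intro h; exact absurd (h1 _ h) (by simp))
    have hE : IsEmpty E := ⟨fun e => absurd (h1 (inl (e, true)) (h2.1 _)) (by simp)⟩
    have hLe : IsEmpty L := ⟨fun x => absurd (h1 (inr (some x)) (h2.1 _)) (by simp)⟩
    have h3 := h2.2
    rw [← hw0, hg1, Nat.card_of_isEmpty] at h3
    rw [Nat.card_of_isEmpty] at hγ
    omega
  -- three half-edges
  have h2 : (S.erase (inr none)).card = 2 := by
    rw [Finset.card_erase_of_mem hnone, hSc, hnv]
  obtain ⟨a, b, hab, hSab⟩ := Finset.card_eq_two.1 h2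
  have hmem : ∀ y, (G.hf y).1 = w0 ↔ y = inr none ∨ y = a ∨ y = b := by
    intro y
    rw [← hS, ← Finset.insert_erase hnone, hSab]
    simp
  have ha' : a ≠ inr none := by
    have : a ∈ S.erase (inr none) := by rw [hSab]; simp
    exact (Finset.mem_erase.1 this).1
  have hb' : b ≠ inr none := by
    have : b ∈ S.erase (inr none) := by rw [hSab]; simp
    exact (Finset.mem_erase.1 this).1
  have hexp : ∀ y, (G.hf y).1 = w0 → G.hf y = (w0, 0) := by
    intro y hy
    exact Prod.ext hy (hc.2 y (by rw [hy]))
  have hdec : G.dec w0 = (0, 0) := Prod.ext hg0 hc.1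
  have hnone' : G.hf (inr none) = (w0, 0) := hexp _ rfl
  -- marks are at w0
  have hmark : ∀ w f s z, MarkAt G w f s z → w = w0 ∧ (inl (f, s) = a ∨ inl (f, s) = b) := by
    intro w f s z H
    have h3 : w = w0 := by rw [hw0, H.none]
    refine ⟨h3, ?_⟩
    have h4 : (G.hf (inl (f, s))).1 = w0 := by rw [H.fs, h3]
    rw [hmem] at h4
    rcases h4 with h4 | h4 | h4
    · simp at h4
    · left; exact h4
    · right; exact h4
  -- one leg and one half-edge
  have one : ∀ (f : E) (s : Bool) (x : L),
      (∀ y, (G.hf y).1 = w0 ↔ y = inr none ∨ y = inl (f, s) ∨ y = inr (some x)) →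
      ∑ p : V × E × Bool, mu G p = 1 := by
    intro f s x hm
    have H : MarkAt G w0 f s (inr x) := by
      refine ⟨hdec, hnone', hexp _ ((hm _).2 (Or.inr (Or.inl rfl))),
        hexp _ ((hm _).2 (Or.inr (Or.inr rfl))), ?_, ?_⟩
      · intro h
        rw [hm] at h
        rcases h with h | h | h
        · simp at h
        · simp only [inl.injEq, Prod.mk.injEq, true_and] at h
          cases s <;> simp at h
        · simp at h
      · intro y hy h
        rw [hm] at h
        rcases h with h | h | h
        · exact emz_ne_none f y h
        · exact emz_ne_f f y s h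
        · exact hy (emz_inj f (h.trans rfl : emz f y = emz f (inr x)))
    rw [Finset.sum_eq_single (w0, f, s)]
    · unfold mu
      rw [if_pos ⟨x, H⟩]
    · rintro ⟨w, f', s'⟩ _ hne
      by_contra h0
      obtain ⟨z, H'⟩ := mu_ne h0
      apply hne
      dsimp only at H'
      have h3 : w = w0 := by rw [hw0, H'.none]
      have h4 : (G.hf (inl (f', s'))).1 = w0 := by rw [H'.fs, h3]
      rw [hm] at h4
      rcases h4 with h4 | h4 | h4
      · simp at h4
      · simp only [inl.injEq, Prod.mk.injEq] at h4
        rw [h3, h4.1, h4.2]
      · simp at h4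
    · intro h; exact absurd (Finset.mem_univ _) h
  rcases a with ⟨f, s⟩ | (_ | x)
  · rcases b with ⟨f', s'⟩ | (_ | x')
    · -- two half-edges
      by_cases hff : f = f'
      · exfalso
        subst hff
        have hss : s' = !s := by
          have h7 : s ≠ s' := fun h => hab (by rw [h])
          clear * - h7
          cases s <;> cases s' <;> simp at h7 ⊢
        have h3 := only_one hst (fun e => by
          rw [hmem, hmem]
          by_cases he : e = f
          · subst he
            subst hss
            cases s <;> simp
          · simp [he])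
        have hE : ∀ e, e = f := by
          intro e
          have h4 := h3.1 (G.hf (inl (e, true))).1
          rw [hmem] at h4
          rcases h4 with h4 | h4 | h4
          · simp at h4
          · simp only [inl.injEq, Prod.mk.injEq] at h4; exact h4.1
          · simp only [inl.injEq, Prod.mk.injEq] at h4; exact h4.1
        have hLe : IsEmpty L := by
          refine ⟨fun x => ?_⟩
          have h4 := h3.1 (G.hf (inr (some x))).1
          rw [hmem] at h4
          simp at h4
        have hu : Unique E := ⟨⟨f⟩, hE⟩
        have h5 := h3.2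
        rw [← hw0, hg0, Nat.card_unique] at h5
        rw [Nat.card_of_isEmpty] at hγ
        omega
      · have H1 : MarkAt G w0 f s (inl (⟨f', Ne.symm hff⟩, s')) := by
          refine ⟨hdec, hnone', hexp _ ((hmem _).2 (Or.inr (Or.inl rfl))),
            hexp _ ((hmem _).2 (Or.inr (Or.inr rfl))), ?_, ?_⟩
          · intro h
            rw [hmem] at h
            rcases h with h | h | h
            · simp at h
            · simp only [inl.injEq, Prod.mk.injEq, true_and] at h
              cases s <;> simp at h
            · simp only [inl.injEq, Prod.mk.injEq] at h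
              exact hff h.1
          · intro y hy h
            rw [hmem] at h
            rcases h with h | h | h
            · exact emz_ne_none f y h
            · exact emz_ne_f f y s h
            · exact hy (emz_inj f (h.trans rfl : emz f y = emz f (inl (⟨f', Ne.symm hff⟩, s'))))
        have H2 : MarkAt G w0 f' s' (inl (⟨f, hff⟩, s)) := by
          refine ⟨hdec, hnone', hexp _ ((hmem _).2 (Or.inr (Or.inr rfl))),
            hexp _ ((hmem _).2 (Or.inr (Or.inl rfl))), ?_, ?_⟩
          · intro h
            rw [hmem] at h
            rcases h with h | h | h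
            · simp at h
            · simp only [inl.injEq, Prod.mk.injEq] at h
              exact hff h.1.symm
            · simp only [inl.injEq, Prod.mk.injEq, true_and] at h
              cases s' <;> simp at h
          · intro y hy h
            rw [hmem] at h
            rcases h with h | h | h
            · exact emz_ne_none f' y h
            · exact hy (emz_inj f' (h.trans rfl : emz f' y = emz f' (inl (⟨f, hff⟩, s))))
            · exact emz_ne_f f' y s' h
        have hv1 : mu G (w0, f, s) = 1 / 2 := by
          unfold mu
          rw [if_neg, if_pos ⟨_, H1⟩]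
          rintro ⟨x, H⟩
          have := mark_z H H1
          simp at this
        have hv2 : mu G (w0, f', s') = 1 / 2 := by
          unfold mu
          rw [if_neg, if_pos ⟨_, H2⟩]
          rintro ⟨x, H⟩
          have := mark_z H H2
          simp at this
        have hne : (w0, f, s) ≠ (w0, f', s') := by
          intro h
          simp only [Prod.mk.injEq] at h
          exact hff h.2.1
        rw [← Finset.sum_subset (Finset.subset_univ {(w0, f, s), (w0, f', s')}),
          Finset.sum_pair hne, hv1, hv2]
        · norm_num
        · rintro ⟨w, f1, s1⟩ _ hnot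
          by_contra h0
          obtain ⟨z, H'⟩ := mu_ne h0
          apply hnot
          obtain ⟨h3, h4⟩ := hmark _ _ _ _ H'
          dsimp only at h3 h4
          subst h3
          rcases h4 with h4 | h4
          · simp only [inl.injEq, Prod.mk.injEq] at h4
            simp [h4.1, h4.2]
          · simp only [inl.injEq, Prod.mk.injEq] at h4
            simp [h4.1, h4.2]
    · exact absurd rfl hb'
    · exact one f s x' hmem
  · exact absurd rfl ha'
  · rcases b with ⟨f', s'⟩ | (_ | x')
    · exact one f' s' x (fun y => by rw [hmem]; tauto)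
    · exact absurd rfl hb'
    · exfalso
      have h3 := only_one hst (fun e => by rw [hmem, hmem]; simp)
      have hE : IsEmpty E := by
        refine ⟨fun e => ?_⟩
        have h4 := h3.1 (G.hf (inl (e, true))).1
        rw [hmem] at h4
        simp at h4
      have hLc : Nat.card L ≤ 2 := by
        rw [Nat.card_eq_fintype_card]
        have : (Finset.univ : Finset L) ⊆ {x, x'} := by
          intro x'' _
          have h4 := h3.1 (G.hf (inr (some x''))).1
          rw [hmem] at h4
          simpa using h4
        exact (Finset.card_le_card this).trans Finset.card_le_two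
      have h5 := h3.2
      rw [← hw0, hg0, Nat.card_of_isEmpty] at h5
      omega

end Vale.Agent.P273.D14
end
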