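import Vale.Agent.P273.D14.K6

/-!
Pullback of Pixton's relations: the theorem.
-/

noncomputable section
namespace Vale.Agent.P273.D14
open Sum Vale.Agent.P273
open scoped Classical

variable {V E V' E' L M N R T : Type}

/-- The second part of the pullback. -/
def pbb (t : Q.Fn (Option L)) (G : Gr V E L) : ℚ :=
  ∑ᶠ (z) (_ : (G.hf z).2 ≠ 0), vl t (G.bubble z)

/-- The pullback: add the leg `none`. -/
def pb (t : Q.Fn (Option L)) (G : Gr V E L) : ℚ := pba t G - pbb t G

/-- Isomorphism invariance. -/
def IsoInv (t : Q.Fn L) : Prop :=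
  ∀ (V E V' E' : Type) (G : Gr V E L) (G' : Gr V' E' L), G.Iso G' → vl t G = vl t G'

/-- `t` vanishes on graphs in which the leg `none` sits at a vertex of genus 0 and valence 3 with
a kappa or psi class. -/
def BubZero (t : Q.Fn (Option L)) : Prop :=
  ∀ (V E : Type) (G : Gr V E (Option L)), (G.dec (G.hf (inr none)).1).1 = 0 →
    G.nv (G.hf (inr none)).1 = 3 → ¬ Clean G → vl t G = 0

/-! ### Isomorphisms -/

/-- The two ways to put a bubble into an edge. -/
lemma insB_iso_swap [Finite E] (w : V) (f : E) (s : Bool) (G : Gr {v // v ≠ w} {e // e ≠ f} L)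
    (e0 : {e // e ≠ f}) (c : Bool) :
    (insB w f s G (inl (e0, c))).Iso (insB w f s G (inl (e0, !c))) := by
  let ρ : E × Bool → E × Bool := fun y =>
    if y.1 = f then (e0.1, if y.2 = s then !c else c)
    else if y.1 = e0.1 then (f, if y.2 = c then s else !s) else y
  have h1 : ρ (f, s) = (e0.1, !c) := by simp [ρ]
  have h2 : ρ (f, !s) = (e0.1, c) := by simp [ρ]
  have h3 : ρ (e0.1, c) = (f, s) := by simp [ρ, e0.2]
  have h4 : ρ (e0.1, !c) = (f, !s) := by simp [ρ, e0.2]
  have h5 : ∀ e b, e ≠ f → e ≠ e0.1 → ρ (e, b) = (e, b) := by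
    intro e b he he'
    simp [ρ, he, he']
  have hsurj : Function.Surjective ρ := by
    rintro ⟨e, b⟩
    by_cases he : e = f
    · subst he
      by_cases hb : b = s
      · exact ⟨_, hb ▸ h3⟩
      · have : b = !s := by cases b <;> cases s <;> simp_all
        exact ⟨_, this ▸ h4⟩
    by_cases he' : e = e0.1
    · subst he'
      by_cases hb : b = c
      · exact ⟨_, hb ▸ h2⟩
      · have : b = !c := by cases b <;> cases c <;> simp_all
        exact ⟨_, this ▸ h1⟩
    · exact ⟨(e, b), h5 e b he he'⟩
  refine ⟨id, ρ, Function.bijective_id, Finite.surjective_iff_bijective.1 hsurj, ?_, ?_, ?_⟩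
  · intro e
    by_cases he : e = f
    · subst he; simp [ρ]
    by_cases he' : e = e0.1
    · subst he'; simp [ρ, e0.2]
    · rw [h5 _ _ he he', h5 _ _ he he']
  · intro v
    by_cases hv : v = w
    · subst hv; rw [id, insB_dec_self, insB_dec_self]
    · have e1 := insB_dec w f s G (inl (e0, c)) ⟨v, hv⟩
      have e2 := insB_dec w f s G (inl (e0, !c)) ⟨v, hv⟩
      dsimp only at e1 e2
      rw [id, e1, e2]
  · have key : ∀ y, (insB w f s G (inl (e0, !c))).hf (y.map ρ id) =
        (insB w f s G (inl (e0, c))).hf y := by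
      have hz1 : (emz f (inl (e0, c)) : (E × Bool) ⊕ Option L) = inl (e0.1, c) := rfl
      have hz2 : (emz f (inl (e0, !c)) : (E × Bool) ⊕ Option L) = inl (e0.1, !c) := rfl
      have k1 := insB_z w f s G (inl (e0, c))
      have k2 := insB_z w f s G (inl (e0, !c))
      have k3 := insB_emz w f s G (inl (e0, c)) (inl (e0, !c))
      have k4 := insB_emz w f s G (inl (e0, !c)) (inl (e0, c))
      rw [if_neg (by cases c <;> simp)] at k3 k4
      rw [hz1] at k1 k4
      rw [hz2] at k2 k3
      intro y
      rcases emz_cases f s y with rfl | rfl | rfl | ⟨y0, rfl⟩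
      · rfl
      · rw [Sum.map_inl, h1, k2, insB_fs]
      · rw [Sum.map_inl, h2, k4, insB_fns]
      · by_cases hy1 : y0 = inl (e0, c)
        · subst hy1
          rw [hz1, Sum.map_inl, h3, k1, insB_fs]
        by_cases hy2 : y0 = inl (e0, !c)
        · subst hy2
          rw [hz2, Sum.map_inl, h4, k3, insB_fns]
        have h6 : (emz f y0).map ρ id = emz f y0 := by
          rcases y0 with ⟨e, b⟩ | x
          · change inl (ρ (e.1, b)) = inl (e.1, b)
            rw [h5 e.1 b e.2]
            intro h
            have h7 : e = e0 := Subtype.ext h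
            subst h7
            cases b <;> cases c <;> simp_all
          · rfl
        rw [h6, insB_emz, insB_emz, if_neg hy1, if_neg hy2]
    intro y
    rw [key]
    rfl

lemma bubble_hf (G : Gr V E L) (z y : (E × Bool) ⊕ L) :
    (G.bubble z).hf (y.map (fun p => (some p.1, p.2)) some) =
      if y = z then (none, 0) else (some (G.hf y).1, (G.hf y).2) := by
  have h1 : (G.bubble z).hf (y.map (fun p => (some p.1, p.2)) some) =
      Function.update (fun y => (some (G.hf y).1, (G.hf y).2)) z (none, 0) y := by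
    rcases y with ⟨e, b⟩ | x <;> rfl
  rw [h1]
  by_cases hy : y = z
  · subst hy; rw [Function.update_self, if_pos rfl]
  · rw [Function.update_of_ne hy, if_neg hy]

/-- A bubble in the sense of the pullback. -/
lemma bubble_iso (w : V) (f : E) (s : Bool) (G : Gr {v // v ≠ w} {e // e ≠ f} L)
    (z : ({e // e ≠ f} × Bool) ⊕ L) : ((rai G z).bubble z).Iso (insB w f s G z) := by
  let φ : Option {v // v ≠ w} → V := fun v => v.elim w Subtype.val
  let ρ : Option {e // e ≠ f} × Bool → E × Bool := fun y =>
    y.1.elim (f, if y.2 = true then s else !s) fun e => (e.1, y.2)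
  refine ⟨φ, ρ, ?_, ?_, ?_, ?_, ?_⟩
  · constructor
    · rintro (_ | v) (_ | v') h
      · rfl
      · exact absurd h.symm v'.2
      · exact absurd h v.2
      · exact congrArg some (Subtype.ext h)
    · intro v
      by_cases hv : v = w
      · exact ⟨none, hv.symm⟩
      · exact ⟨some ⟨v, hv⟩, rfl⟩
  · constructor
    · rintro ⟨_ | e, b⟩ ⟨_ | e', b'⟩ h
      · simp only [ρ, Option.elim_none, Prod.mk.injEq, true_and] at h
        have : b = b' := by cases b <;> cases b' <;> cases s <;> simp_all
        rw [this]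
      · simp only [ρ, Option.elim_none, Option.elim_some, Prod.mk.injEq] at h
        exact absurd h.1.symm e'.2
      · simp only [ρ, Option.elim_none, Option.elim_some, Prod.mk.injEq] at h
        exact absurd h.1 e.2
      · simp only [ρ, Option.elim_some, Prod.mk.injEq] at h
        rw [Subtype.ext h.1, h.2]
    · rintro ⟨e, b⟩
      by_cases he : e = f
      · subst he
        by_cases hb : b = s
        · exact ⟨(none, true), by simp [ρ, hb]⟩
        · refine ⟨(none, false), ?_⟩
          have : b = !s := by cases b <;> cases s <;> simp_all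
          simp [ρ, this]
      · exact ⟨(some ⟨e, he⟩, b), rfl⟩
  · rintro (_ | e)
    · rfl
    · rfl
  · rintro (_ | v)
    · exact insB_dec_self _ _ _ _ _
    · exact insB_dec w f s G z v
  · have key : ∀ y : ({e // e ≠ f} × Bool) ⊕ L, (insB w f s G z).hf (emz f y) =
        (((rai G z).bubble z).hf (y.map (fun p => (some p.1, p.2)) some)).map φ id := by
      intro y
      rw [insB_emz, bubble_hf]
      split_ifs with hy
      · rfl
      · rw [rai_ne _ hy]; rfl
    rintro (⟨_ | e, _ | _⟩ | (_ | x))
    · change (insB w f s G z).hf (inl (f, if false = true then s else !s)) = _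
      simp only [Bool.false_eq_true, if_false]
      rw [insB_fns]
      change _ = (φ (some ((rai G z).hf z).1), ((rai G z).hf z).2 - 1)
      rw [rai_self]
      rfl
    · change (insB w f s G z).hf (inl (f, if true = true then s else !s)) = _
      simp only [if_true]
      rw [insB_fs]
      rfl
    · exact key (inl (e, false))
    · exact key (inl (e, true))
    · rfl
    · exact key (inr x)

/-- Renaming vertices and edges in a bubble. -/
lemma bubble_relab {V' E' : Type} (φ : V ≃ V') (ρ : E ≃ E') (G : Gr V E L)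
    (z : (E × Bool) ⊕ L) :
    (G.bubble z).Iso ((G.relab φ ρ).bubble (z.map (Prod.map ρ id) id)) := by
  have hu : ∀ y : (E × Bool) ⊕ L, ((G.relab φ ρ).bubble (z.map (Prod.map ρ id) id)).hf
      ((y.map (Prod.map ρ id) id).map (fun p => (some p.1, p.2)) some) =
      ((G.bubble z).hf (y.map (fun p => (some p.1, p.2)) some)).map (Option.map φ) id := by
    intro y
    rw [bubble_hf, bubble_hf]
    have hinj : Function.Injective (Sum.map (Prod.map ρ id) id :
        (E × Bool) ⊕ L → (E' × Bool) ⊕ L) :=
      Sum.map_injective.2 ⟨ρ.injective.prodMap Function.injective_id, Function.injective_id⟩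
    rw [if_congr hinj.eq_iff rfl rfl]
    split_ifs with hy
    · rfl
    · rcases y with ⟨e, b⟩ | x
      · simp [Gr.relab]
      · simp [Gr.relab]
  refine Gr.Iso.mk' (Equiv.optionCongr φ) (Equiv.optionCongr ρ) ?_ ?_ ?_
  · rintro (_ | v)
    · rfl
    · change (G.relab φ ρ).dec (φ v) = G.dec v
      simp [Gr.relab]
  · rintro (_ | e) b
    · cases b
      · change ((some ((G.relab φ ρ).hf (z.map (Prod.map ρ id) id)).1,
          ((G.relab φ ρ).hf (z.map (Prod.map ρ id) id)).2 - 1) : Option V' × ℕ) =
          (some (φ (G.hf z).1), (G.hf z).2 - 1)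
        rcases z with ⟨e, b⟩ | x
        · simp [Gr.relab]
        · simp [Gr.relab]
      · rfl
    · exact hu (inl (e, b))
  · rintro (_ | x)
    · rfl
    · exact hu (inr x)

/-- The sum of the bubbles. -/
def RB (γ e : ℕ) (A : L → ℕ) (t : Q.Fn (Option L)) (V E : Type) : ℚ :=
  ∑ᶠ G : Gr V E L, wt G γ A e * pbb t G

lemma RB_congr (γ e : ℕ) (A : L → ℕ) (t : Q.Fn (Option L)) (ht : IsoInv t) {V E V' E' : Type}
    (φ : V ≃ V') (ρ : E ≃ E') : RB γ e A t V E = RB γ e A t V' E' := by
  unfold RB
  rw [← finsum_comp_equiv (relabEquiv φ ρ)]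
  apply finsum_congr
  intro G
  change _ = wt (G.relab φ ρ) γ A e * pbb t (G.relab φ ρ)
  rw [wt_relab]
  congr 1
  unfold pbb
  rw [← finsum_comp_equiv (Equiv.sumCongr (Equiv.prodCongr ρ (Equiv.refl Bool)) (Equiv.refl L))]
  apply finsum_congr
  intro z
  have h1 : (Equiv.sumCongr (Equiv.prodCongr ρ (Equiv.refl Bool)) (Equiv.refl L)) z =
      z.map (Prod.map ρ id) id := by
    rcases z with z | z <;> rfl
  rw [h1]
  have h2 : ((G.relab φ ρ).hf (z.map (Prod.map ρ id) id)).2 = (G.hf z).2 := by
    rcases z with z | z <;> simp [Gr.relab]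
  rw [finsum_eq_if, finsum_eq_if, h2]
  split_ifs
  · exact ht _ _ _ _ _ _ (bubble_relab φ ρ G z)
  · rfl

end Vale.Agent.P273.D14
end
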