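import Vale.Agent.P273.D14.Glue

/-!
The formal forgetful pullback, and functionals killed by it.
-/

noncomputable section
namespace Vale.Agent.P273.D14.Mv
open Sum Vale.Agent.P273 Vale.Agent.P273.C1.R3B Vale.Agent.P273.C1.R1B
open scoped Classical

variable {V E V' E' L M N R T : Type}

/-- The value of a functional on a decorated graph. -/
abbrev sg (s : Q.Fn N) (G : Gr V E N) : ℚ := s V E G.dec G.hf

/-- The dual of the forgetful pullback, without the condition that the graph is stable. -/
def pb (t : Q.Fn (Option L)) : Q.Fn L := fun V E a f =>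
  ∑ᶠ v, (t V E a (Q.ad f v 0) - ((a v).2.map fun k =>
      t V E (Function.update a v ((a v).1, (a v).2.erase k)) (Q.ad f v k)).sum) -
    ∑ᶠ (z) (_ : (f z).2 ≠ 0), t (Option V) (Option E) (Option.elim' (0, 0) a) (Q.bub f z)

lemma pb_eq (t : Q.Fn (Option L)) (G : Gr V E L) : pb t V E G.dec G.hf =
    ∑ᶠ v, (sg t (G.addLeg v (G.dec v).2 0) -
      ((G.dec v).2.map fun k => sg t (G.addLeg v ((G.dec v).2.erase k) k)).sum) -
    ∑ᶠ (z) (_ : (G.hf z).2 ≠ 0), sg t (G.bubble z) := by
  unfold pb
  congr 1
  apply finsum_congr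
  intro v
  congr 1
  show t V E G.dec (Q.ad G.hf v 0) = t V E (Function.update G.dec v ((G.dec v).1, (G.dec v).2))
    (Q.ad G.hf v 0)
  congr 1
  funext w
  by_cases h : w = v
  · subst h
    simp
  · rw [Function.update_of_ne h]

lemma pull_eq (g d : ℕ) (t : Q.Fn (Option L)) (a : V → ℕ × Multiset ℕ)
    (f : (E × Bool) ⊕ L → V × ℕ) (h : Q.Stab a f g d) : Q.pull g d t V E a f = pb t V E a f := by
  unfold Q.pull pb
  rw [finsum_eq_if, if_pos h]

lemma nv_addLeg [Finite E] [Finite L] (G : Gr V E L) (v : V) (K : Multiset ℕ) (c : ℕ) (w : V) :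
    (G.addLeg v K c).nv w = G.nv w + if v = w then 1 else 0 := by
  rw [nv_eq_finsum, nv_eq_finsum, finsum_flags, add_comm]
  congr 1
  apply finsum_congr
  intro y
  rcases y with y | y <;> rfl

/-- Everything but stability of the vertices. -/
def Pre (G : Gr V E L) (g d : ℕ) : Prop := Nonempty V ∧
  (∀ s : Set V, (∀ e, (G.hf (inl (e, true))).1 ∈ s ↔ (G.hf (inl (e, false))).1 ∈ s) →
    s = ∅ ∨ s = Set.univ) ∧ ∑ᶠ v, (G.dec v).1 + Nat.card E + 1 = g + Nat.card V ∧ G.deg = d

lemma valid_pre {G : Gr V E L} {g d : ℕ} (h : Q.Valid G.dec G.hf g d) : Pre G g d := by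
  rw [cValid_iff] at h
  exact ⟨h.1.2.2.1.1, h.1.2.2.1.2.1, h.1.2.2.1.2.2.1, h.2⟩

lemma stab_of_pre [Finite V] [Finite E] {G : Gr V E L} {g d : ℕ} (h : Pre G g d)
    (h' : ∀ v, 2 < 2 * (G.dec v).1 + G.nv v) : Q.Stab G.dec G.hf g d := by
  rw [cStab_iff]
  exact ⟨inferInstance, inferInstance, ⟨h.1, h.2.1, h.2.2.1, h'⟩, h.2.2.2⟩

lemma sum_upd [Fintype V] {M : Type*} [AddCommMonoid M] (h : V → M) (v : V) (w : M) :
    ∑ u, (if u = v then w else h u) = w + ∑ u ∈ Finset.univ.erase v, h u := by
  rw [← Finset.add_sum_erase _ _ (Finset.mem_univ v), if_pos rfl]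
  congr 1
  apply Finset.sum_congr rfl
  intro u hu
  rw [if_neg (Finset.ne_of_mem_erase hu)]

lemma addLeg_pre [Finite V] [Finite E] [Finite L] {G : Gr V E L} {g d : ℕ} {v : V}
    {K : Multiset ℕ} {c : ℕ} (h : Pre (G.addLeg v K c) g d)
    (hK : K.sum + c = (G.dec v).2.sum) : Pre G g d := by
  have := Fintype.ofFinite V
  have := Fintype.ofFinite E
  have := Fintype.ofFinite L
  obtain ⟨h1, h2, h3, h4⟩ := h
  refine ⟨h1, h2, ?_, ?_⟩
  · rw [← h3]
    congr 2
    apply finsum_congr
    intro w
    by_cases hw : w = v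
    · subst hw; rw [addLeg_dec_self]
    · rw [addLeg_dec_ne G hw]
  · rw [← h4]
    unfold Gr.deg
    rw [finsum_flags]
    have e1 : ∑ᶠ y, ((G.addLeg v K c).hf (optEquiv E L (some y))).2 = ∑ᶠ y, (G.hf y).2 := by
      apply finsum_congr
      rintro (y | y) <;> rfl
    have e2 : ((G.addLeg v K c).hf (inr none)).2 = c := rfl
    have e3 : ∑ᶠ w, ((G.addLeg v K c).dec w).2.sum + c = ∑ᶠ w, (G.dec w).2.sum := by
      rw [finsum_eq_sum_of_fintype, finsum_eq_sum_of_fintype]
      have e4 : ∀ w, ((G.addLeg v K c).dec w).2.sum = if w = v then K.sum else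
          (G.dec w).2.sum := by
        intro w
        by_cases hw : w = v
        · subst hw; rw [addLeg_dec_self, if_pos rfl]
        · rw [addLeg_dec_ne G hw, if_neg hw]
      rw [Finset.sum_congr rfl fun w _ => e4 w, sum_upd (fun w => (G.dec w).2.sum),
        ← Finset.add_sum_erase _ (fun w => (G.dec w).2.sum) (Finset.mem_univ v)]
      omega
    rw [e1, e2]
    omega

/-- The half-edge function of a bubble at the old half-edges. -/
def bubold (G : Gr V E L) (z y : (E × Bool) ⊕ L) : Option V × ℕ :=
  if y = z then (none, 0) else (some (G.hf y).1, (G.hf y).2)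

/-- The old half-edges in a bubble. -/
def oldf (y : (E × Bool) ⊕ L) : (Option E × Bool) ⊕ Option L :=
  y.map (fun p => (some p.1, p.2)) some

lemma bubble_old (G : Gr V E L) (z y : (E × Bool) ⊕ L) :
    (G.bubble z).hf (oldf y) = bubold G z y := by
  have h : (G.bubble z).hf (oldf y) =
      Function.update (fun y => (some (G.hf y).1, (G.hf y).2)) z (none, 0) y := by
    rcases y with ⟨e, b⟩ | x <;> rfl
  rw [h, bubold]
  by_cases hy : y = z
  · subst hy; simp
  · rw [Function.update_of_ne hy, if_neg hy]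

lemma bubble_new_true (G : Gr V E L) (z : (E × Bool) ⊕ L) :
    (G.bubble z).hf (inl (none, true)) = (none, 0) := rfl

lemma bubble_new_false (G : Gr V E L) (z : (E × Bool) ⊕ L) :
    (G.bubble z).hf (inl (none, false)) = (some (G.hf z).1, (G.hf z).2 - 1) := rfl

lemma bubble_new_leg (G : Gr V E L) (z : (E × Bool) ⊕ L) :
    (G.bubble z).hf (inr none) = (none, 0) := rfl

lemma bubble_cases (y : (Option E × Bool) ⊕ Option L) : y = inl (none, true) ∨
    y = inl (none, false) ∨ y = inr none ∨ ∃ y', y = oldf y' := by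
  rcases y with ⟨_ | e, _ | _⟩ | _ | x
  · exact Or.inr (Or.inl rfl)
  · exact Or.inl rfl
  · exact Or.inr (Or.inr (Or.inr ⟨inl (e, false), rfl⟩))
  · exact Or.inr (Or.inr (Or.inr ⟨inl (e, true), rfl⟩))
  · exact Or.inr (Or.inr (Or.inl rfl))
  · exact Or.inr (Or.inr (Or.inr ⟨inr x, rfl⟩))

lemma finsum_bub {M : Type*} [AddCommMonoid M] [Finite E] [Finite L]
    (f : (Option E × Bool) ⊕ Option L → M) :
    ∑ᶠ y, f y = f (inl (none, true)) + f (inl (none, false)) + f (inr none) +
      ∑ᶠ y, f (oldf y) := by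
  have := Fintype.ofFinite E
  have := Fintype.ofFinite L
  rw [finsum_eq_sum_of_fintype, finsum_eq_sum_of_fintype, Fintype.sum_sum_type,
    Fintype.sum_sum_type, Fintype.sum_prod_type, Fintype.sum_prod_type, Fintype.sum_option,
    Fintype.sum_option]
  simp only [Fintype.sum_bool]
  have e1 : ∀ e : E, ∀ b, f (oldf (inl (e, b))) = f (inl (some e, b)) := fun e b => rfl
  have e2 : ∀ x : L, f (oldf (inr x)) = f (inr (some x)) := fun x => rfl
  simp only [e1, e2]
  abel

lemma nv_bubble [Finite E] [Finite L] (G : Gr V E L) (z : (E × Bool) ⊕ L) (w : V) :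
    (G.bubble z).nv (some w) = G.nv w := by
  have := Fintype.ofFinite E
  have := Fintype.ofFinite L
  rw [nv_eq_finsum, nv_eq_finsum, finsum_bub]
  simp only [bubble_old, bubble_new_true, bubble_new_false, bubble_new_leg, reduceCtorEq,
    if_false, zero_add, add_zero, Option.some.injEq]
  rw [finsum_eq_sum_of_fintype, finsum_eq_sum_of_fintype,
    ← Finset.add_sum_erase _ (fun y => if (G.hf y).1 = w then 1 else 0)
      (Finset.mem_univ z)]
  congr 1
  rw [← Finset.add_sum_erase _ _ (Finset.mem_univ z)]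
  have e1 : (if (bubold G z z).1 = some w then 1 else 0) = 0 := by
    unfold bubold
    simp
  rw [e1, zero_add]
  apply Finset.sum_congr rfl
  intro y hy
  unfold bubold
  rw [if_neg (Finset.ne_of_mem_erase hy)]
  simp

lemma bubble_pre [Finite V] [Finite E] [Finite L] {G : Gr V E L} {g d : ℕ}
    {z : (E × Bool) ⊕ L} (hz : (G.hf z).2 ≠ 0) (h : Pre (G.bubble z) g d) : Pre G g d := by
  have := Fintype.ofFinite V
  have := Fintype.ofFinite E
  have := Fintype.ofFinite L
  obtain ⟨h1, h2, h3, h4⟩ := h
  refine ⟨⟨(G.hf z).1⟩, ?_, ?_, ?_⟩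
  · intro s hs
    have h5 := h2 {w | w.elim ((G.hf z).1 ∈ s) (· ∈ s)} (by
      have key : ∀ y, ((G.bubble z).hf (oldf y)).1 ∈
          ({w | w.elim ((G.hf z).1 ∈ s) (· ∈ s)} : Set (Option V)) ↔ (G.hf y).1 ∈ s := by
        intro y
        rw [bubble_old, bubold]
        by_cases hy : y = z
        · subst hy
          rw [if_pos rfl]
          exact Iff.rfl
        · rw [if_neg hy]
          exact Iff.rfl
      rintro (_ | e)
      · rw [bubble_new_true, bubble_new_false]
        exact Iff.rfl
      · exact (key (inl (e, true))).trans ((hs e).trans (key (inl (e, false))).symm))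
    rcases h5 with h5 | h5
    · left
      ext w
      have h6 : some w ∈ ({w | w.elim ((G.hf z).1 ∈ s) (· ∈ s)} : Set (Option V)) ↔
          some w ∈ (∅ : Set (Option V)) := by rw [h5]
      exact h6
    · right
      ext w
      have h6 : some w ∈ ({w | w.elim ((G.hf z).1 ∈ s) (· ∈ s)} : Set (Option V)) ↔
          some w ∈ (Set.univ : Set (Option V)) := by rw [h5]
      simpa using h6
  · rw [finsum_eq_sum_of_fintype, Fintype.sum_option] at h3
    rw [finsum_eq_sum_of_fintype]
    have e1 : ((G.bubble z).dec none).1 = 0 := rfl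
    have e2 : ∀ v, ((G.bubble z).dec (some v)).1 = (G.dec v).1 := fun v => rfl
    simp only [e1, e2, zero_add] at h3
    rw [Finite.card_option, Finite.card_option] at h3
    omega
  · rw [← h4]
    unfold Gr.deg
    rw [finsum_bub, bubble_new_true, bubble_new_false, bubble_new_leg, Finite.card_option]
    have e1 : ∑ᶠ v, ((G.bubble z).dec v).2.sum = ∑ᶠ v, (G.dec v).2.sum := by
      rw [finsum_eq_sum_of_fintype, finsum_eq_sum_of_fintype, Fintype.sum_option]
      have e1 : ((G.bubble z).dec none).2.sum = 0 := rfl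
      have e2 : ∀ v, ((G.bubble z).dec (some v)).2.sum = (G.dec v).2.sum := fun v => rfl
      simp only [e1, e2, zero_add]
    have e2 : ∑ᶠ y, ((G.bubble z).hf (oldf y)).2 + (G.hf z).2 = ∑ᶠ y, (G.hf y).2 := by
      rw [finsum_eq_sum_of_fintype, finsum_eq_sum_of_fintype,
        ← Finset.add_sum_erase _ (fun y => (G.hf y).2) (Finset.mem_univ z),
        ← Finset.add_sum_erase _ _ (Finset.mem_univ z)]
      have e3 : ((G.bubble z).hf (oldf z)).2 = 0 := by
        rw [bubble_old, bubold, if_pos rfl]
      have e4 : ∀ y ∈ Finset.univ.erase z, ((G.bubble z).hf (oldf y)).2 = (G.hf y).2 := by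
        intro y hy
        rw [bubble_old, bubold, if_neg (Finset.ne_of_mem_erase hy)]
      rw [Finset.sum_congr rfl e4, e3]
      omega
    rw [e1]
    dsimp only
    omega

lemma erase_sum {κ : Multiset ℕ} {k : ℕ} (hk : k ∈ κ) : (κ.erase k).sum + k = κ.sum := by
  rw [add_comm, ← Multiset.sum_cons, Multiset.cons_erase hk]

/-- The summand of `pb` at a vertex. -/
def lterm (s : Q.Fn (Option N)) (G : Gr V E N) (v : V) : ℚ :=
  sg s (G.addLeg v (G.dec v).2 0) -
    ((G.dec v).2.map fun k => sg s (G.addLeg v ((G.dec v).2.erase k) k)).sum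

lemma pb_eq' (t : Q.Fn (Option L)) (G : Gr V E L) : pb t V E G.dec G.hf =
    ∑ᶠ v, lterm t G v - ∑ᶠ (z) (_ : (G.hf z).2 ≠ 0), sg t (G.bubble z) := pb_eq t G

lemma lterm_zero {s : Q.Fn (Option N)} {g d : ℕ} (hs : Q.Tr g d s) {G : Gr V E N} {v : V}
    (h : ∀ K c, K.sum + c = (G.dec v).2.sum →
      ¬ Q.Valid (G.addLeg v K c).dec (G.addLeg v K c).hf g d) : lterm s G v = 0 := by
  have h0 : sg s (G.addLeg v (G.dec v).2 0) = 0 := hs.1 _ _ _ _ (h _ _ (by simp))
  unfold lterm
  rw [h0, zero_sub, neg_eq_zero]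
  apply Multiset.sum_eq_zero
  intro x hx
  rw [Multiset.mem_map] at hx
  obtain ⟨k, hk, rfl⟩ := hx
  exact hs.1 _ _ _ _ (h _ _ (erase_sum hk))

lemma lterm_dil [Finite E] [Finite N] {s : Q.Fn (Option N)} {g d : ℕ} (hs : Q.Tr g d s)
    {G : Gr V E N} {v : V} (h0 : (G.dec v).1 = 0) (h2 : G.nv v = 2) (hne : (G.dec v).2 ≠ 0) :
    lterm s G v = 0 := by
  by_cases hz : (G.dec v).2.sum = 0
  · have h3 : ∀ k ∈ (G.dec v).2, k = 0 := by
      intro k hk
      have := erase_sum hk
      omega
    obtain ⟨j, hj⟩ : ∃ j, (G.dec v).2 = Multiset.replicate (j + 1) 0 := by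
      have h4 := Multiset.eq_replicate_card.2 h3
      have h5 : (G.dec v).2.card ≠ 0 := by simpa using hne
      obtain ⟨j, hj⟩ := Nat.exists_eq_succ_of_ne_zero h5
      exact ⟨j, by rw [hj] at h4; exact h4⟩
    unfold lterm
    rw [hj]
    have e1 : (Multiset.replicate (j + 1) 0).erase 0 = Multiset.replicate j 0 := by
      rw [Multiset.replicate_succ, Multiset.erase_cons_head]
    rw [Multiset.map_replicate, e1, Multiset.sum_replicate]
    have h4 := hs.2.2 _ _ (G.addLeg v (Multiset.replicate j 0) 0).dec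
      (G.addLeg v (Multiset.replicate j 0) 0).hf v
    rw [addLeg_dec_self, ← Multiset.replicate_succ, h0] at h4
    have e2 : Function.update (G.addLeg v (Multiset.replicate j 0) 0).dec v
        (0, Multiset.replicate (j + 1) 0) = (G.addLeg v (Multiset.replicate (j + 1) 0) 0).dec := by
      show Function.update (Function.update G.dec v _) v _ = Function.update G.dec v _
      rw [Function.update_idem, h0]
    have e3 : Q.nv (G.addLeg v (Multiset.replicate j 0) 0).hf v = 3 := by
      rw [cnv_eq (G.addLeg v (Multiset.replicate j 0) 0).dec]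
      have := nv_addLeg G v (Multiset.replicate j 0) 0 v
      rw [if_pos rfl, h2] at this
      exact this
    have e4 : (G.addLeg v (Multiset.replicate (j + 1) 0) 0).hf =
        (G.addLeg v (Multiset.replicate j 0) 0).hf := rfl
    rw [e2, e3] at h4
    unfold sg
    rw [e4, h4, Multiset.card_replicate, nsmul_eq_mul]
    push_cast
    ring
  · apply lterm_zero hs
    intro K c hK hv
    rw [cValid_iff] at hv
    have h1 := hv.1.2.2.2 v
    have h3 := nv_addLeg G v K c v
    have e : (G.addLeg v K c).dec v = ((G.dec v).1, K) := addLeg_dec_self _ _ _ _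
    change ((G.addLeg v K c).dec v).2.sum + _ + 3 ≤ 3 * ((G.addLeg v K c).dec v).1 +
      (G.addLeg v K c).nv v at h1
    rw [h3, e, h0, h2, if_pos rfl] at h1
    have h4 : c ≤ ∑ᶠ (y) (_ : ((G.addLeg v K c).hf y).1 = v), ((G.addLeg v K c).hf y).2 := by
      rw [psi_eq_finsum, finsum_flags]
      have : ((G.addLeg v K c).hf (inr none)) = (v, c) := rfl
      rw [this, if_pos rfl]
      omega
    dsimp only at h1 h4
    omega

lemma not_valid_of_unstable {G : Gr V E L} {g d : ℕ} {v : V}
    (h : 2 * (G.dec v).1 + G.nv v ≤ 2) : ¬ Q.Valid G.dec G.hf g d := by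
  intro hv
  rw [cValid_iff] at hv
  have h1 : 2 < 2 * (G.dec v).1 + G.nv v := hv.1.2.2.1.2.2.2 v
  omega

/-- A functional killed by the forgetful pullback is killed by the formal pullback of graphs
whose unstable vertices have kappa decorations. -/
theorem pb_zero [Finite V] [Finite E] [Finite N] {s : Q.Fn (Option N)} {g d : ℕ}
    (hs : Q.Tr g d s) (hp : ∀ (V E : Type) a f, Q.pull g d s V E a f = 0)
    (hg : 2 < 2 * g + Nat.card N) (G : Gr V E N)
    (hst : ∀ v, 2 < 2 * (G.dec v).1 + G.nv v ∨ (G.dec v).2 ≠ 0) :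
    pb s V E G.dec G.hf = 0 := by
  by_cases hall : ∀ v, 2 < 2 * (G.dec v).1 + G.nv v
  · by_cases hP : Pre G g d
    · rw [← pull_eq g d s _ _ (stab_of_pre hP hall)]
      exact hp _ _ _ _
    · rw [pb_eq', finsum_eq_zero_of_forall_eq_zero fun v => lterm_zero hs fun K c hK hv =>
        hP (addLeg_pre (valid_pre hv) hK), finsum_eq_zero_of_forall_eq_zero, sub_zero]
      intro z
      rw [finsum_eq_if]
      split_ifs with hz
      · refine hs.1 _ _ _ _ fun hv => hP ?_
        exact bubble_pre hz (valid_pre hv)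
      · rfl
  · push Not at hall
    obtain ⟨v0, h0⟩ := hall
    have hne : (G.dec v0).2 ≠ 0 := by
      rcases hst v0 with h | h
      · omega
      · exact h
    rw [pb_eq', finsum_eq_zero_of_forall_eq_zero, finsum_eq_zero_of_forall_eq_zero, sub_zero]
    · intro z
      rw [finsum_eq_if]
      split_ifs with hz
      · refine hs.1 _ _ _ _ ?_
        apply not_valid_of_unstable (v := some v0)
        rw [nv_bubble]
        exact h0
      · rfl
    · intro v
      by_cases hv : v = v0
      · subst hv
        have hcase : ((G.dec v).1 = 0 ∧ G.nv v < 2) ∨ ((G.dec v).1 = 0 ∧ G.nv v = 2) ∨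
            ((G.dec v).1 = 1 ∧ G.nv v = 0) := by omega
        rcases hcase with ⟨h1, h2⟩ | ⟨h1, h2⟩ | ⟨h1, h2⟩
        · apply lterm_zero hs
          intro K c _
          apply not_valid_of_unstable (v := v)
          rw [addLeg_dec_self, nv_addLeg, if_pos rfl, h1]
          omega
        · exact lterm_dil hs h1 h2 hne
        · apply lterm_zero hs
          intro K c _ hval
          obtain ⟨_, hconn, hgen, _⟩ := valid_pre hval
          have hno : ∀ y, (G.hf y).1 ≠ v := by
            intro y hy
            have := Fintype.ofFinite E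
            have := Fintype.ofFinite N
            have h3 : 0 < G.nv v := by
              unfold Gr.nv
              have : Nonempty {y // (G.hf y).1 = v} := ⟨⟨y, hy⟩⟩
              exact Nat.card_pos
            omega
          have h3 := hconn {v} (by
            intro e
            constructor
            · intro h
              exact absurd h (hno (inl (e, true)))
            · intro h
              exact absurd h (hno (inl (e, false))))
          have h4 : ({v} : Set V) = Set.univ := by
            rcases h3 with h3 | h3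
            · exact absurd h3 (Set.singleton_ne_empty v)
            · exact h3
          have h5 : ∀ w, w = v := by
            intro w
            have : w ∈ ({v} : Set V) := by rw [h4]; trivial
            exact this
          have hE : IsEmpty E := ⟨fun e => hno (inl (e, true)) (h5 _)⟩
          have hN : IsEmpty N := ⟨fun e => hno (inr e) (h5 _)⟩
          have hU : Unique V := ⟨⟨v⟩, h5⟩
          rw [finsum_unique] at hgen
          have h6 : (default : V) = v := h5 _
          rw [h6, addLeg_dec_self, h1, Nat.card_of_isEmpty (α := E), Nat.card_unique] at hgen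
          rw [Nat.card_of_isEmpty (α := N)] at hg
          omega
      · apply lterm_zero hs
        intro K c _
        apply not_valid_of_unstable (v := v0)
        rw [addLeg_dec_ne G (Ne.symm hv), nv_addLeg, if_neg hv]
        exact h0

end Vale.Agent.P273.D14.Mv
end
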