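import Vale.Agent.P273.D14.Move1

/-!
The formal forgetful pullback of a graft.
-/

noncomputable section
namespace Vale.Agent.P273.D14.Mv
open Sum Vale.Agent.P273 Vale.Agent.P273.C1.R3B Vale.Agent.P273.C1.R1B
open scoped Classical

variable {V E V' E' L M N R T : Type}

/-- The new leg takes a new position `none` of the vertex. -/
def optE (W : Env R T L N) : Env R T (Option L) (Option N) :=
  ⟨W.dec, fun y => ((optEquiv T N).symm y).elim (inl none) (fun y => (W.use y).map some id),
    Option.elim' 0 W.b⟩

/-- The new leg takes the position `p`. -/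
def putE (W : Env R T L N) (p : L ⊕ R × ℕ) : Env R T L (Option N) :=
  ⟨W.dec, fun y => ((optEquiv T N).symm y).elim p W.use, W.b⟩

/-- The new leg is put at the vertex `r`, with exponent `c`, and `r` gets the kappa
decoration `K`. -/
def kapE (W : Env R T L N) (r : R) (K : Multiset ℕ) (c : ℕ) : Env R T L (Option N) :=
  ⟨Function.update W.dec r ((W.dec r).1, K),
    fun y => ((optEquiv T N).symm y).elim (inr (r, c)) W.use, W.b⟩

/-- Old half-edges in the bubble at `y`. -/
def bo (W : Env R T L N) (y y' : (T × Bool) ⊕ N) : L ⊕ Option R × ℕ :=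
  if y' = y then inr (none, 0) else (W.use y').map id (Prod.map some id)

/-- A bubble, with the new leg, at the outer half-edge `y`. -/
def bubE (W : Env R T L N) (y : (T × Bool) ⊕ N) : Env (Option R) (Option T) L (Option N) :=
  ⟨Option.elim' (0, 0) W.dec, Sum.elim (fun p => p.1.elim (cond p.2 (inr (none, 0))
      ((W.use y).map id (Prod.map some (· - 1)))) fun t => bo W y (inl (t, p.2)))
    (fun x => x.elim (inr (none, 0)) fun i => bo W y (inr i)),
    fun x => if W.use y = inl x then W.b x - 1 else W.b x⟩

/-! ### legs and unused legs -/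

lemma optEquiv_cases (y : (T × Bool) ⊕ Option N) : y = inr none ∨ ∃ y', y = optEquiv T N (some y') := by
  obtain ⟨y', rfl⟩ := (optEquiv T N).surjective y
  rcases y' with _ | y'
  · exact Or.inl rfl
  · exact Or.inr ⟨y', rfl⟩

lemma addLeg_hf_old (G : Gr V E L) (v : V) (K : Multiset ℕ) (c : ℕ) (y : (E × Bool) ⊕ L) :
    (G.addLeg v K c).hf (optEquiv E L (some y)) = G.hf y := by
  rcases y with y | y <;> rfl

lemma optEquiv_lft (y : (T × Bool) ⊕ N) :
    optEquiv (E ⊕ T) N (some (lft E y)) = lft E (optEquiv T N (some y)) := by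
  rcases y with y | y <;> rfl

lemma lft_none : lft E (inr none : (T × Bool) ⊕ Option N) = inr none := rfl

lemma optE_use_none (W : Env R T L N) : (optE W).use (inr none) = inl none := rfl

lemma optE_use_some (W : Env R T L N) (y : (T × Bool) ⊕ N) :
    (optE W).use (optEquiv T N (some y)) = (W.use y).map some id := by
  rcases y with y | y <;> rfl

lemma optE_b_none (W : Env R T L N) : (optE W).b none = 0 := rfl

lemma optE_b_some (W : Env R T L N) (x : L) : (optE W).b (some x) = W.b x := rfl

lemma putE_use_none (W : Env R T L N) (p : L ⊕ R × ℕ) : (putE W p).use (inr none) = p := rfl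

lemma putE_use_some (W : Env R T L N) (p : L ⊕ R × ℕ) (y : (T × Bool) ⊕ N) :
    (putE W p).use (optEquiv T N (some y)) = W.use y := by
  rcases y with y | y <;> rfl

lemma kapE_use_none (W : Env R T L N) (r : R) (K : Multiset ℕ) (c : ℕ) :
    (kapE W r K c).use (inr none) = inr (r, c) := rfl

lemma kapE_use_some (W : Env R T L N) (r : R) (K : Multiset ℕ) (c : ℕ) (y : (T × Bool) ⊕ N) :
    (kapE W r K c).use (optEquiv T N (some y)) = W.use y := by
  rcases y with y | y <;> rfl

lemma bubE_use_true (W : Env R T L N) (y : (T × Bool) ⊕ N) :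
    (bubE W y).use (inl (none, true)) = inr (none, 0) := rfl

lemma bubE_use_false (W : Env R T L N) (y : (T × Bool) ⊕ N) :
    (bubE W y).use (inl (none, false)) = (W.use y).map id (Prod.map some (· - 1)) := rfl

lemma bubE_use_none (W : Env R T L N) (y : (T × Bool) ⊕ N) :
    (bubE W y).use (inr none) = inr (none, 0) := rfl

lemma bubE_use_old (W : Env R T L N) (y y' : (T × Bool) ⊕ N) :
    (bubE W y).use (oldf y') = bo W y y' := by
  rcases y' with y' | y' <;> rfl

lemma map_some_eq {W : Env R T L N} {y : (T × Bool) ⊕ N} {x : L} :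
    ((W.use y).map some id : Option L ⊕ R × ℕ) = inl (some x) ↔ W.use y = inl x := by
  rcases W.use y with a | p <;> simp

lemma map_some_ne {W : Env R T L N} {y : (T × Bool) ⊕ N} :
    ((W.use y).map some id : Option L ⊕ R × ℕ) ≠ inl none := by
  rcases W.use y with a | p <;> simp

lemma optE_range (W : Env R T L N) (x : L) :
    inl (some x) ∈ Set.range (optE W).use ↔ inl x ∈ Set.range W.use := by
  constructor
  · rintro ⟨y, hy⟩
    rcases optEquiv_cases y with rfl | ⟨y', rfl⟩
    · rw [optE_use_none] at hy
      simp at hy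
    · rw [optE_use_some, map_some_eq] at hy
      exact ⟨y', hy⟩
  · rintro ⟨y, hy⟩
    exact ⟨optEquiv T N (some y), by rw [optE_use_some, map_some_eq, hy]⟩

lemma optE_range_none (W : Env R T L N) : inl none ∈ Set.range (optE W).use :=
  ⟨inr none, rfl⟩

lemma optE_inj {W : Env R T L N} (hW : ∀ y z x, W.use y = inl x → W.use z = inl x → y = z) :
    ∀ y z x, (optE W).use y = inl x → (optE W).use z = inl x → y = z := by
  intro y z x hy hz
  rcases optEquiv_cases y with rfl | ⟨y', rfl⟩ <;> rcases optEquiv_cases z with rfl | ⟨z', rfl⟩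
  · rfl
  · rw [optE_use_none] at hy
    rw [optE_use_some, ← inl.inj hy] at hz
    exact absurd hz map_some_ne
  · rw [optE_use_none] at hz
    rw [optE_use_some, ← inl.inj hz] at hy
    exact absurd hy map_some_ne
  · rw [optE_use_some] at hy hz
    rcases x with _ | x
    · exact absurd hy map_some_ne
    · rw [map_some_eq] at hy hz
      rw [hW _ _ _ hy hz]

lemma put_range (W : Env R T L N) (Q : Env R T L (Option N)) {p : R × ℕ}
    (h1 : Q.use (inr none) = inr p)
    (h2 : ∀ y, Q.use (optEquiv T N (some y)) = W.use y) (x : L) :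
    inl x ∈ Set.range Q.use ↔ inl x ∈ Set.range W.use := by
  constructor
  · rintro ⟨y, hy⟩
    rcases optEquiv_cases y with rfl | ⟨y', rfl⟩
    · rw [h1] at hy
      cases hy
    · exact ⟨y', by rw [← h2, hy]⟩
  · rintro ⟨y, hy⟩
    exact ⟨optEquiv T N (some y), by rw [h2, hy]⟩

lemma put_inj {W : Env R T L N} (hW : ∀ y z x, W.use y = inl x → W.use z = inl x → y = z)
    (Q : Env R T L (Option N)) {p : L ⊕ R × ℕ} (hp : p ∉ Set.range W.use ∨ ∃ q, p = inr q)
    (h1 : Q.use (inr none) = p)
    (h2 : ∀ y, Q.use (optEquiv T N (some y)) = W.use y) :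
    ∀ y z x, Q.use y = inl x → Q.use z = inl x → y = z := by
  intro y z x hy hz
  rcases optEquiv_cases y with rfl | ⟨y', rfl⟩ <;> rcases optEquiv_cases z with rfl | ⟨z', rfl⟩
  · rfl
  · exfalso
    rw [h1] at hy
    rw [h2] at hz
    rcases hp with hp | ⟨q, hq⟩
    · exact hp ⟨z', by rw [hz, hy]⟩
    · rw [hq] at hy
      cases hy
  · exfalso
    rw [h1] at hz
    rw [h2] at hy
    rcases hp with hp | ⟨q, hq⟩
    · exact hp ⟨y', by rw [hz, hy]⟩
    · rw [hq] at hz
      cases hz
  · rw [h2] at hy hz
    rw [hW _ _ _ hy hz]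

lemma bo_eq_inl {W : Env R T L N} {y y' : (T × Bool) ⊕ N} {x : L} :
    bo W y y' = inl x ↔ y' ≠ y ∧ W.use y' = inl x := by
  unfold bo
  by_cases h : y' = y
  · rw [if_pos h]
    simp [h]
  · rw [if_neg h]
    rcases W.use y' with a | p <;> simp [h]

lemma bf_eq_inl {W : Env R T L N} {y : (T × Bool) ⊕ N} {x : L} :
    ((W.use y).map id (Prod.map some (· - 1)) : L ⊕ Option R × ℕ) = inl x ↔
      W.use y = inl x := by
  rcases W.use y with a | p <;> simp

lemma bubE_range (W : Env R T L N) (y : (T × Bool) ⊕ N) (x : L) :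
    inl x ∈ Set.range (bubE W y).use ↔ inl x ∈ Set.range W.use := by
  constructor
  · rintro ⟨z, hz⟩
    rcases bubble_cases z with rfl | rfl | rfl | ⟨z', rfl⟩
    · cases hz
    · rw [bubE_use_false, bf_eq_inl] at hz
      exact ⟨y, hz⟩
    · cases hz
    · rw [bubE_use_old, bo_eq_inl] at hz
      exact ⟨z', hz.2⟩
  · rintro ⟨z, hz⟩
    by_cases h : z = y
    · exact ⟨inl (none, false), by rw [bubE_use_false, bf_eq_inl, ← h, hz]⟩
    · exact ⟨oldf z, by rw [bubE_use_old, bo_eq_inl]; exact ⟨h, hz⟩⟩

lemma bubE_inj {W : Env R T L N} (hW : ∀ y z x, W.use y = inl x → W.use z = inl x → y = z)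
    (y₀ : (T × Bool) ⊕ N) :
    ∀ y z x, (bubE W y₀).use y = inl x → (bubE W y₀).use z = inl x → y = z := by
  intro y z x hy hz
  rcases bubble_cases y with rfl | rfl | rfl | ⟨y', rfl⟩
  · cases hy
  · rw [bubE_use_false, bf_eq_inl] at hy
    rcases bubble_cases z with rfl | rfl | rfl | ⟨z', rfl⟩
    · cases hz
    · rfl
    · cases hz
    · rw [bubE_use_old, bo_eq_inl] at hz
      exact absurd (hW _ _ _ hz.2 hy) hz.1
  · cases hy
  · rw [bubE_use_old, bo_eq_inl] at hy
    rcases bubble_cases z with rfl | rfl | rfl | ⟨z', rfl⟩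
    · cases hz
    · rw [bubE_use_false, bf_eq_inl] at hz
      exact absurd (hW _ _ _ hy.2 hz) hy.1
    · cases hz
    · rw [bubE_use_old, bo_eq_inl] at hz
      rw [hW _ _ _ hy.2 hz.2]

/-- the unused legs of `optE W` are the unused legs of `W` -/
lemma optE_unused [Finite L] (W : Env R T L N) (G : Gr V E (Option L)) (v : V) :
    (optE W).unused G v =
      ∑ᶠ (x) (_ : inl x ∉ Set.range W.use ∧ (G.hf (inr (some x))).1 = v),
        {(G.hf (inr (some x))).2 + W.b x} := by
  have := Fintype.ofFinite L
  unfold Env.unused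
  rw [finsum_eq_sum_of_fintype, Fintype.sum_option, finsum_eq_if,
    if_neg (fun h => h.1 (optE_range_none W)), zero_add, finsum_eq_sum_of_fintype]
  apply Finset.sum_congr rfl
  intro x _
  rw [optE_range]
  rfl

lemma optE_addLeg [Finite L] (W : Env R T L N) (G : Gr V E L) (v : V) (K : Multiset ℕ) (c : ℕ) :
    (optE W).graft (G.addLeg v K c) = (W.graft G).addLeg (inl v) (K + W.unused G v) c := by
  apply Gr.ext'
  · rintro (w | r)
    · rw [Env.graft_dec_inl, optE_unused]
      have e : (∑ᶠ (x) (_ : inl x ∉ Set.range W.use ∧ ((G.addLeg v K c).hf (inr (some x))).1 = w),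
        ({((G.addLeg v K c).hf (inr (some x))).2 + W.b x} : Multiset ℕ)) = W.unused G w := rfl
      rw [e]
      by_cases hw : w = v
      · subst hw
        rw [addLeg_dec_self, addLeg_dec_self, Env.graft_dec_inl]
      · rw [addLeg_dec_ne _ hw, addLeg_dec_ne _ (fun h => hw (inl.inj h)), Env.graft_dec_inl]
    · rw [Env.graft_dec_inr, addLeg_dec_ne _ (fun h => by cases h), Env.graft_dec_inr]
      rfl
  · intro y
    rcases graft_cases y with ⟨e, b, rfl⟩ | ⟨y, rfl⟩
    · rfl
    · rw [graft_hf_lft]
      rcases optEquiv_cases y with rfl | ⟨y, rfl⟩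
      · rfl
      · rw [← optEquiv_lft, addLeg_hf_old, graft_hf_lft]
        rcases hy : W.use y with x | p
        · have h1 : (optE W).use (optEquiv T N (some y)) = inl (some x) := by
            rw [optE_use_some, hy]; rfl
          rw [Env.usehf_inl h1, Env.usehf_inl hy]
          rfl
        · have h1 : (optE W).use (optEquiv T N (some y)) = inr p := by
            rw [optE_use_some, hy]; rfl
          rw [Env.usehf_inr h1, Env.usehf_inr hy]

lemma kapE_graft (W : Env R T L N) (G : Gr V E L) (r : R) (K : Multiset ℕ) (c : ℕ) :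
    (kapE W r K c).graft G = (W.graft G).addLeg (inr r) K c := by
  apply Gr.ext'
  · rintro (w | r')
    · rw [Env.graft_dec_inl, addLeg_dec_ne _ (fun h => by cases h), Env.graft_dec_inl]
      have e : (kapE W r K c).unused G w = W.unused G w := by
        unfold Env.unused
        simp only [put_range W (kapE W r K c) rfl (kapE_use_some W r K c)]
        rfl
      rw [e]
    · rw [Env.graft_dec_inr]
      by_cases hr : r' = r
      · subst hr
        rw [addLeg_dec_self, Env.graft_dec_inr]
        show Function.update W.dec r' ((W.dec r').1, K) r' = _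
        rw [Function.update_self]
      · rw [addLeg_dec_ne _ (fun h => hr (inr.inj h)), Env.graft_dec_inr]
        show Function.update W.dec r ((W.dec r).1, K) r' = _
        rw [Function.update_of_ne hr]
  · intro y
    rcases graft_cases y with ⟨e, b, rfl⟩ | ⟨y, rfl⟩
    · rfl
    · rw [graft_hf_lft]
      rcases optEquiv_cases y with rfl | ⟨y, rfl⟩
      · rfl
      · rw [← optEquiv_lft, addLeg_hf_old, graft_hf_lft]
        rcases hy : W.use y with x | p
        · have h1 : (kapE W r K c).use (optEquiv T N (some y)) = inl x := by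
            rw [kapE_use_some, hy]
          rw [Env.usehf_inl h1, Env.usehf_inl hy]
          rfl
        · have h1 : (kapE W r K c).use (optEquiv T N (some y)) = inr p := by
            rw [kapE_use_some, hy]
          rw [Env.usehf_inr h1, Env.usehf_inr hy]

/-- Put the new leg back. -/
lemma pushG_addLeg_back (H : Gr V E (Option L)) :
    H.pushG.addLeg (H.hf (inr none)).1
      ((H.pushG.dec (H.hf (inr none)).1).2.erase (H.hf (inr none)).2) (H.hf (inr none)).2 = H := by
  apply Gr.ext'
  · intro w
    by_cases hw : w = (H.hf (inr none)).1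
    · subst hw
      rw [addLeg_dec_self, Gr.pushG_dec_self _ rfl, Multiset.erase_cons_head]
    · rw [addLeg_dec_ne _ hw, Gr.pushG_dec_ne _ (Ne.symm hw)]
  · intro y
    rcases optEquiv_cases y with rfl | ⟨y, rfl⟩
    · rfl
    · rw [addLeg_hf_old, Gr.pushG_hf]

lemma putE_pushE (W : Env R T L N) (x : L) : (putE W (inl x)).pushE = W := by
  have h : (fun y => (putE W (inl x)).use (optEquiv T N (some y))) = W.use :=
    funext fun y => putE_use_some W _ y
  unfold Env.pushE
  rw [h]
  rfl

lemma putE_graft [Finite L] (W : Env R T L N)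
    (hW : ∀ y z x, W.use y = inl x → W.use z = inl x → y = z) (G : Gr V E L) {x : L}
    (hx : inl x ∉ Set.range W.use) :
    (W.graft G).addLeg (inl (G.hf (inr x)).1)
      (((W.graft G).dec (inl (G.hf (inr x)).1)).2.erase ((G.hf (inr x)).2 + W.b x))
      ((G.hf (inr x)).2 + W.b x) = (putE W (inl x)).graft G := by
  have h1 := (putE W (inl x)).pushG_graft (put_inj hW _ (Or.inl hx) rfl (putE_use_some W _)) G
  rw [putE_pushE] at h1
  have h2 : ((putE W (inl x)).graft G).hf (inr none) =
      (inl (G.hf (inr x)).1, (G.hf (inr x)).2 + W.b x) := by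
    rw [Env.graft_hf_leg]
    exact Env.usehf_inl (putE_use_none W _) G
  have h3 := pushG_addLeg_back ((putE W (inl x)).graft G)
  rw [h1, h2] at h3
  exact h3

lemma multiset_map_sum {ι : Type} (S : Finset ι) (m : ι → Multiset ℕ) (F : ℕ → ℚ) :
    ((∑ i ∈ S, m i).map F).sum = ∑ i ∈ S, ((m i).map F).sum :=
  map_sum (Multiset.sumAddMonoidHom.comp (Multiset.mapAddMonoidHom F)) m S

/-- the pullback at a vertex of the inserted graph -/
lemma lterm_inl [Finite L] (s : Q.Fn (Option N)) (W : Env R T L N)
    (hW : ∀ y z x, W.use y = inl x → W.use z = inl x → y = z) (G : Gr V E L) (v : V) :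
    lterm s (W.graft G) (inl v) =
      lterm (fun V E a f => sg s ((optE W).graft (⟨a, f⟩ : Gr V E (Option L)))) G v -
      ∑ᶠ (x) (_ : inl x ∉ Set.range W.use ∧ (G.hf (inr x)).1 = v),
        sg s ((putE W (inl x)).graft G) := by
  have := Fintype.ofFinite L
  unfold lterm
  have e1 : sg (fun V E a f => sg s ((optE W).graft (⟨a, f⟩ : Gr V E (Option L))))
      (G.addLeg v (G.dec v).2 0) = sg s ((W.graft G).addLeg (inl v)
        ((W.graft G).dec (inl v)).2 0) := by
    show sg s ((optE W).graft (G.addLeg v (G.dec v).2 0)) = _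
    rw [optE_addLeg, Env.graft_dec_inl]
  rw [e1, Env.graft_dec_inl]
  dsimp only
  rw [Multiset.map_add, Multiset.sum_add]
  have e2 : ((G.dec v).2.map fun k => sg s ((W.graft G).addLeg (inl v)
      (((G.dec v).2 + W.unused G v).erase k) k)).sum =
      ((G.dec v).2.map fun k => sg (fun V E a f =>
        sg s ((optE W).graft (⟨a, f⟩ : Gr V E (Option L))))
          (G.addLeg v ((G.dec v).2.erase k) k)).sum := by
    apply congrArg
    apply Multiset.map_congr rfl
    intro k hk
    show _ = sg s ((optE W).graft (G.addLeg v ((G.dec v).2.erase k) k))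
    rw [optE_addLeg, Multiset.erase_add_left_pos _ hk]
  have e3 : ((W.unused G v).map fun k => sg s ((W.graft G).addLeg (inl v)
      (((G.dec v).2 + W.unused G v).erase k) k)).sum =
      ∑ᶠ (x) (_ : inl x ∉ Set.range W.use ∧ (G.hf (inr x)).1 = v),
        sg s ((putE W (inl x)).graft G) := by
    conv_lhs =>
      enter [1, 2]
      unfold Env.unused
      rw [finsum_eq_sum_of_fintype]
    rw [multiset_map_sum, finsum_eq_sum_of_fintype]
    apply Finset.sum_congr rfl
    intro x _
    rw [finsum_eq_if, finsum_eq_if]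
    split_ifs with h
    · obtain ⟨h1, rfl⟩ := h
      rw [Multiset.map_singleton, Multiset.sum_singleton]
      have h2 := putE_graft W hW G h1
      rw [Env.graft_dec_inl] at h2
      rw [← h2]
    · simp
  rw [e2, e3]
  ring

/-! ### bubbles -/

/-- `A ⊕ Option B ≃ Option (A ⊕ B)` -/
def swr {A B : Type} : A ⊕ Option B → Option (A ⊕ B) :=
  Sum.elim (fun a => some (inl a)) (fun b => b.map inr)

/-- `Option A ⊕ B ≃ Option (A ⊕ B)` -/
def swl {A B : Type} : Option A ⊕ B → Option (A ⊕ B) :=
  Sum.elim (fun a => a.map inl) (fun b => some (inr b))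

lemma swr_bij {A B : Type} : (swr : A ⊕ Option B → _).Bijective := by
  constructor
  · rintro (a | _ | b) (a' | _ | b') h <;> simp_all [swr]
  · rintro (_ | a | b)
    · exact ⟨inr none, rfl⟩
    · exact ⟨inl a, rfl⟩
    · exact ⟨inr (some b), rfl⟩

lemma swl_bij {A B : Type} : (swl : Option A ⊕ B → _).Bijective := by
  constructor
  · rintro ((_ | a) | b) ((_ | a') | b') h <;> simp_all [swl]
  · rintro (_ | a | b)
    · exact ⟨inl none, rfl⟩
    · exact ⟨inl (some a), rfl⟩
    · exact ⟨inr b, rfl⟩

/-- a bubble at an outer half-edge -/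
lemma bubE_iso {g d : ℕ} {s : Q.Fn (Option N)} (hs : Q.Tr g d s) (W : Env R T L N)
    (hW : ∀ y z x, W.use y = inl x → W.use z = inl x → y = z)
    (G : Gr V E L) (y : (T × Bool) ⊕ N)
    (hy : (W.use y).elim (fun x => W.b x ≠ 0) (fun p => p.2 ≠ 0)) :
    sg s ((bubE W y).graft G) = sg s ((W.graft G).bubble (lft E y)) := by
  have hb : ∀ x, inl x ∉ Set.range W.use → (bubE W y).b x = W.b x := by
    intro x hx
    show (if W.use y = inl x then W.b x - 1 else W.b x) = W.b x
    rw [if_neg (fun h => hx ⟨y, h⟩)]
  apply iso_s hs _ _ swr swr swr_bij swr_bij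
  · rintro (v | _ | r)
    · show ((W.graft G).dec (inl v)) = _
      rw [Env.graft_dec_inl, Env.graft_dec_inl]
      congr 2
      unfold Env.unused
      apply finsum_congr
      intro x
      rw [bubE_range, finsum_eq_if, finsum_eq_if]
      split_ifs with h
      · rw [hb x h.1]
      · rfl
    · rfl
    · rfl
  · intro z
    rcases graft_cases z with ⟨e, b, rfl⟩ | ⟨z, rfl⟩
    · have h1 : (inl (inl e, b) : ((E ⊕ Option T) × Bool) ⊕ Option N).map
          (Prod.map swr id) id = oldf (inl (inl e, b)) := rfl
      rw [h1, bubble_old, Env.graft_hf_inl, bubold, if_neg]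
      · rfl
      · rcases y with y | y <;> simp [lft]
    · rw [graft_hf_lft]
      rcases bubble_cases z with rfl | rfl | rfl | ⟨z, rfl⟩
      · have h1 : (lft E (inl (none, true)) : ((E ⊕ Option T) × Bool) ⊕ Option N).map
          (Prod.map swr id) id = inl (none, true) := rfl
        rw [h1, bubble_new_true]
        rfl
      · have h1 : (lft E (inl (none, false)) : ((E ⊕ Option T) × Bool) ⊕ Option N).map
          (Prod.map swr id) id = inl (none, false) := rfl
        rw [h1, bubble_new_false, graft_hf_lft]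
        rcases hz : W.use y with x | p
        · have h2 : (bubE W y).use (inl (none, false)) = inl x := by
            rw [bubE_use_false, hz]; rfl
          rw [Env.usehf_inl h2, Env.usehf_inl hz]
          rw [hz] at hy
          have h3 : (bubE W y).b x = W.b x - 1 := if_pos hz
          rw [h3]
          have h4 : W.b x ≠ 0 := hy
          show (some (inl (G.hf (inr x)).1), (G.hf (inr x)).2 + W.b x - 1) =
            (some (inl (G.hf (inr x)).1), (G.hf (inr x)).2 + (W.b x - 1))
          congr 1
          omega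
        · have h2 : (bubE W y).use (inl (none, false)) = inr (some p.1, p.2 - 1) := by
            rw [bubE_use_false, hz]; rfl
          rw [Env.usehf_inr h2, Env.usehf_inr hz]
          rfl
      · have h1 : (lft E (inr none) : ((E ⊕ Option T) × Bool) ⊕ Option N).map
          (Prod.map swr id) id = inr none := rfl
        rw [h1, bubble_new_leg]
        rfl
      · have h1 : (lft E (oldf z) : ((E ⊕ Option T) × Bool) ⊕ Option N).map
          (Prod.map swr id) id = oldf (lft E z) := by
          rcases z with ⟨t, b⟩ | z <;> rfl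
        rw [h1, bubble_old, bubold]
        by_cases hzy : z = y
        · subst hzy
          have h2 : (bubE W z).use (oldf z) = inr (none, 0) := by
            rw [bubE_use_old, bo, if_pos rfl]
          rw [if_pos rfl, Env.usehf_inr h2]
          rfl
        · have hl : lft E z ≠ lft E y := fun h => hzy (lf_inj (E := E) h)
          rw [if_neg hl, graft_hf_lft]
          rcases hz : W.use z with x | p
          · have h2 : (bubE W y).use (oldf z) = inl x := by
              rw [bubE_use_old, bo, if_neg hzy, hz]; rfl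
            rw [Env.usehf_inl h2, Env.usehf_inl hz]
            have h3 : (bubE W y).b x = W.b x := if_neg (fun h => hzy (hW _ _ _ hz h))
            rw [h3]
            rfl
          · have h2 : (bubE W y).use (oldf z) = inr (some p.1, p.2) := by
              rw [bubE_use_old, bo, if_neg hzy, hz]; rfl
            rw [Env.usehf_inr h2, Env.usehf_inr hz]
            rfl

/-- a bubble in the inserted graph -/
lemma bubI_iso [Finite L] {g d : ℕ} {s : Q.Fn (Option N)} (hs : Q.Tr g d s) (W : Env R T L N)
    (G : Gr V E L) (z : (E × Bool) ⊕ L) (zz : ((E ⊕ T) × Bool) ⊕ N)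
    (P1 : (W.graft G).hf zz = (inl (G.hf z).1, (G.hf z).2))
    (P2 : ∀ e b, (inl (inl e, b) : ((E ⊕ T) × Bool) ⊕ N) = zz ↔
      (inl (e, b) : (E × Bool) ⊕ L) = z)
    (P3 : ∀ y x, W.use y = inl x → (lft E y = zz ↔ (inr x : (E × Bool) ⊕ L) = z))
    (P3' : ∀ x, (inr x : (E × Bool) ⊕ L) = z → W.b x = 0)
    (P4 : ∀ y p, W.use y = inr p → lft E y ≠ zz)
    (P5 : ∀ x, inl x ∉ Set.range W.use → (inr x : (E × Bool) ⊕ L) ≠ z) :
    sg s ((optE W).graft (G.bubble z)) = sg s ((W.graft G).bubble zz) := by
  have hold : ∀ x : L, (G.bubble z).hf (inr (some x)) = bubold G z (inr x) := fun x =>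
    bubble_old G z (inr x)
  apply iso_s hs _ _ swl swl swl_bij swl_bij
  · rintro ((_ | v) | r)
    · rw [Env.graft_dec_inl, optE_unused]
      have e : (∑ᶠ (x) (_ : inl x ∉ Set.range W.use ∧
          ((G.bubble z).hf (inr (some x))).1 = none),
        ({((G.bubble z).hf (inr (some x))).2 + W.b x} : Multiset ℕ)) = 0 := by
        apply finsum_eq_zero_of_forall_eq_zero
        intro x
        rw [finsum_eq_if, if_neg]
        rintro ⟨h1, h2⟩
        rw [hold, bubold, if_neg (P5 x h1)] at h2
        cases h2
      rw [e]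
      rfl
    · show ((W.graft G).dec (inl v)) = _
      rw [Env.graft_dec_inl, Env.graft_dec_inl, optE_unused]
      show _ = ((G.dec v).1, (G.dec v).2 + _)
      congr 2
      unfold Env.unused
      apply finsum_congr
      intro x
      rw [finsum_eq_if, finsum_eq_if, hold, bubold]
      by_cases hx : inl x ∈ Set.range W.use
      · rw [if_neg (fun h => h.1 hx), if_neg (fun h => h.1 hx)]
      · rw [if_neg (P5 x hx)]
        apply if_congr _ rfl rfl
        simp
    · rfl
  · intro y
    rcases graft_cases y with ⟨_ | e, b, rfl⟩ | ⟨y, rfl⟩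
    · rcases b with _ | _
      · show (some ((W.graft G).hf zz).1, ((W.graft G).hf zz).2 - 1) = _
        rw [P1]
        rfl
      · rfl
    · have h1 : (inl (inl (some e), b) : ((Option E ⊕ T) × Bool) ⊕ Option N).map
          (Prod.map swl id) id = oldf (inl (inl e, b)) := rfl
      rw [h1, bubble_old, Env.graft_hf_inl, bubold]
      have h2 : (G.bubble z).hf (inl (some e, b)) = bubold G z (inl (e, b)) :=
        bubble_old G z (inl (e, b))
      rw [h2, bubold]
      by_cases h : (inl (e, b) : (E × Bool) ⊕ L) = z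
      · rw [if_pos h, if_pos ((P2 e b).2 h)]
        rfl
      · rw [if_neg h, if_neg (fun h' => h ((P2 e b).1 h'))]
        rfl
    · rw [graft_hf_lft]
      rcases optEquiv_cases y with rfl | ⟨y, rfl⟩
      · rfl
      · have h1 : (lft (Option E) (optEquiv T N (some y)) :
          ((Option E ⊕ T) × Bool) ⊕ Option N).map (Prod.map swl id) id = oldf (lft E y) := by
          rcases y with ⟨t, b⟩ | y <;> rfl
        rw [h1, bubble_old, bubold]
        rcases hy : W.use y with x | p
        · have h2 : (optE W).use (optEquiv T N (some y)) = inl (some x) := by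
            rw [optE_use_some, hy]; rfl
          rw [Env.usehf_inl h2, hold, bubold, graft_hf_lft, Env.usehf_inl hy]
          by_cases h : (inr x : (E × Bool) ⊕ L) = z
          · rw [if_pos h, if_pos ((P3 y x hy).2 h), optE_b_some, P3' x h]
            rfl
          · rw [if_neg h, if_neg (fun h' => h ((P3 y x hy).1 h'))]
            rfl
        · have h2 : (optE W).use (optEquiv T N (some y)) = inr p := by
            rw [optE_use_some, hy]; rfl
          rw [Env.usehf_inr h2, if_neg (P4 y p hy), graft_hf_lft, Env.usehf_inr hy]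
          rfl

lemma bubI_edge [Finite L] {g d : ℕ} {s : Q.Fn (Option N)} (hs : Q.Tr g d s)
    (W : Env R T L N) (G : Gr V E L) (e : E) (b : Bool) :
    sg s ((optE W).graft (G.bubble (inl (e, b)))) =
      sg s ((W.graft G).bubble (inl (inl e, b))) := by
  apply bubI_iso hs
  · rfl
  · intro e' b'
    simp
  · intro y x _
    constructor
    · intro h
      exact absurd h (lf_ne e b y)
    · intro h
      cases h
  · intro x h
    cases h
  · intro y p _ h
    exact absurd h (lf_ne e b y)
  · intro x _ h
    cases h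

lemma bubI_leg [Finite L] {g d : ℕ} {s : Q.Fn (Option N)} (hs : Q.Tr g d s)
    (W : Env R T L N) (hW : ∀ y z x, W.use y = inl x → W.use z = inl x → y = z)
    (G : Gr V E L) {y : (T × Bool) ⊕ N} {x : L} (hy : W.use y = inl x) (hb : W.b x = 0) :
    sg s ((optE W).graft (G.bubble (inr x))) = sg s ((W.graft G).bubble (lft E y)) := by
  apply bubI_iso hs
  · rw [graft_hf_lft, Env.usehf_inl hy, hb]
    rfl
  · intro e' b'
    constructor
    · intro h
      exact absurd h.symm (lf_ne e' b' y)
    · intro h
      cases h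
  · intro y' x' hy'
    constructor
    · intro h
      have h1 : y' = y := lf_inj (E := E) h
      rw [h1, hy] at hy'
      rw [inl.inj hy']
    · intro h
      rw [← inr.inj h] at hy
      rw [hW _ _ _ hy' hy]
  · intro x' h
    rw [inr.inj h]
    exact hb
  · intro y' p hy' h
    have h1 : y' = y := lf_inj (E := E) h
    rw [h1, hy] at hy'
    cases hy'
  · intro x' hx' h
    rw [inr.inj h] at hx'
    exact hx' ⟨y, hy⟩

/-! ### invalid graphs -/

lemma nv_bubble_none [Finite E] [Finite L] (G : Gr V E L) (z : (E × Bool) ⊕ L) :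
    (G.bubble z).nv none = 3 := by
  have := Fintype.ofFinite E
  have := Fintype.ofFinite L
  rw [nv_eq_finsum, finsum_bub]
  simp only [bubble_old, bubble_new_true, bubble_new_false, bubble_new_leg, reduceCtorEq,
    if_false, if_true, add_zero]
  rw [finsum_eq_sum_of_fintype, Finset.sum_eq_single z]
  · unfold bubold
    simp
  · intro y _ hy
    unfold bubold
    rw [if_neg hy]
    simp
  · intro h
    exact absurd (Finset.mem_univ z) h

lemma card_sum_ite {ι : Type} [Fintype ι] (P : ι → Prop) (c : ι → ℕ) :
    (∑ᶠ (x) (_ : P x), ({c x} : Multiset ℕ)).card = ∑ x, if P x then 1 else 0 := by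
  rw [finsum_eq_sum_of_fintype, Multiset.card_sum]
  apply Finset.sum_congr rfl
  intro x _
  rw [finsum_eq_if]
  split_ifs <;> simp

lemma nv_graft_add [Finite E] [Finite T] [Finite L] [Finite N] (W : Env R T L N)
    (hW : ∀ y z x, W.use y = inl x → W.use z = inl x → y = z) (G : Gr V E L) (v : V) :
    (W.graft G).nv (inl v) + (W.unused G v).card = G.nv v := by
  have := Fintype.ofFinite E
  have := Fintype.ofFinite T
  have := Fintype.ofFinite L
  have := Fintype.ofFinite N
  have e0 : (W.graft G).nv (inl v) = ∑ y, if ((W.graft G).hf y).1 = inl v then 1 else 0 := by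
    rw [nv_eq_finsum, finsum_eq_sum_of_fintype]
    apply Finset.sum_congr rfl
    intro y _
    congr
  rw [e0, nv_eq_finsum, Env.unused, card_sum_ite, finsum_eq_sum_of_fintype,
    Fintype.sum_sum_type (f := fun y => if (G.hf y).1 = v then 1 else 0)]
  have e3 : ∑ y, (if ((W.graft G).hf y).1 = inl v then 1 else 0) =
      ∑ y : E × Bool, (if (G.hf (inl y)).1 = v then 1 else 0) +
      ∑ z, if (W.usehf G z).1 = inl v then 1 else 0 := by
    rw [Fintype.sum_sum_type, ← Equiv.sum_comp (Equiv.sumProdDistrib E T Bool).symm,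
      Fintype.sum_sum_type, Fintype.sum_sum_type
        (f := fun z => if (W.usehf G z).1 = inl v then 1 else 0), add_assoc]
    congr 1
    apply Finset.sum_congr rfl
    intro y _
    show (if (inl (G.hf (inl y)).1 : V ⊕ R) = inl v then 1 else 0) = _
    simp only [inl.injEq]
  have e4 : ∑ z, (if (W.usehf G z).1 = inl v then 1 else 0) =
      ∑ x, W.us (fun x => if (G.hf (inr x)).1 = v then 1 else 0) x := by
    rw [← sum_use W hW (fun x => if (G.hf (inr x)).1 = v then 1 else 0)]
    apply Finset.sum_congr rfl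
    intro z _
    rcases hz : W.use z with x | p
    · rw [Env.usehf_inl hz]
      simp
    · rw [Env.usehf_inr hz]
      simp
  have e5 : ∀ x, (@ite ℕ (inl x ∉ Set.range W.use ∧ (G.hf (inr x)).1 = v)
      (Classical.propDecidable _) 1 0) =
      W.un (fun x => if (G.hf (inr x)).1 = v then 1 else 0) x := by
    intro x
    unfold Env.un
    by_cases h1 : inl x ∈ Set.range W.use
    · rw [if_neg (fun h => h.1 h1), if_neg (not_not.2 h1)]
    · rw [if_pos h1]
      by_cases h2 : (G.hf (inr x)).1 = v
      · rw [if_pos ⟨h1, h2⟩]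
        exact (if_pos h2).symm
      · rw [if_neg (fun h => h2 h.2)]
        exact (if_neg h2).symm
  rw [e3, e4, Finset.sum_congr rfl fun x _ => e5 x, add_assoc, ← Finset.sum_add_distrib]
  congr 1
  apply Finset.sum_congr rfl
  intro x _
  rw [add_comm]
  exact us_add_un W _ x

lemma valid_psi_le [Finite L] {G : Gr V E L} {g d : ℕ} (h : Q.Valid G.dec G.hf g d)
    (y : (E × Bool) ⊕ L) : (G.dec (G.hf y).1).2.sum + (G.hf y).2 + 3 ≤
      3 * (G.dec (G.hf y).1).1 + G.nv (G.hf y).1 := by
  rw [cValid_iff] at h
  have hE : Finite E := h.1.2.1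
  have := Fintype.ofFinite E
  have := Fintype.ofFinite L
  have h1 := h.1.2.2.2 (G.hf y).1
  change (G.dec (G.hf y).1).2.sum + ∑ᶠ (z) (_ : (G.hf z).1 = (G.hf y).1), (G.hf z).2 + 3 ≤
      3 * (G.dec (G.hf y).1).1 + G.nv (G.hf y).1 at h1
  rw [psi_eq_finsum, finsum_eq_sum_of_fintype] at h1
  have h2 := Finset.single_le_sum (f := fun z => if (G.hf z).1 = (G.hf y).1 then (G.hf z).2 else 0)
    (fun _ _ => Nat.zero_le _) (Finset.mem_univ y)
  rw [if_pos rfl] at h2
  omega

/-! ### the identity -/

/-- the half-edges of a graft -/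
def gfl : (E × Bool) ⊕ ((T × Bool) ⊕ N) → ((E ⊕ T) × Bool) ⊕ N :=
  Sum.elim (fun p => inl (inl p.1, p.2)) (lft E)

lemma gfl_bij : (gfl : (E × Bool) ⊕ ((T × Bool) ⊕ N) → _).Bijective := by
  constructor
  · rintro (p | y) (p' | y') h
    · simp only [gfl, elim_inl, inl.injEq, Prod.mk.injEq] at h
      rw [Prod.ext h.1 h.2]
    · exact absurd h.symm (lf_ne p.1 p.2 y')
    · exact absurd h (lf_ne p'.1 p'.2 y)
    · have h1 : y = y' := lf_inj (E := E) h
      rw [h1]
  · intro z
    rcases graft_cases z with ⟨e, s, rfl⟩ | ⟨y, rfl⟩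
    · exact ⟨inl (e, s), rfl⟩
    · exact ⟨inr y, rfl⟩

/-- Condition for a bubble at an outer half-edge. -/
def BC (W : Env R T L N) (y : (T × Bool) ⊕ N) : Prop :=
  (W.use y).elim (fun x => W.b x ≠ 0) (fun p => p.2 ≠ 0)

lemma inner_bubble_zero [Finite E] [Finite T] [Finite L] [Finite N] {g d : ℕ}
    {s : Q.Fn (Option N)} (hs : Q.Tr g d s)
    (W : Env R T L N) (hW : ∀ y z x, W.use y = inl x → W.use z = inl x → y = z) (G : Gr V E L)
    {x : L} (hx : inl x ∉ Set.range W.use ∨ W.b x ≠ 0) :
    sg s ((optE W).graft (G.bubble (inr x))) = 0 := by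
  apply hs.1
  intro hv
  have h1 := nv_graft_add (optE W) (optE_inj hW) (G.bubble (inr x)) none
  rw [nv_bubble_none] at h1
  have h0 : ((optE W).graft (G.bubble (inr x))).dec (inl none) =
      (0, 0 + (optE W).unused (G.bubble (inr x)) none) := rfl
  by_cases hx' : inl x ∈ Set.range W.use
  · rcases hx with hx | hx
    · exact hx hx'
    · obtain ⟨y, hy⟩ := hx'
      have h2 : (optE W).use (optEquiv T N (some y)) = inl (some x) := by
        rw [optE_use_some, hy]; rfl
      have h3 := valid_psi_le hv (lft (Option E) (optEquiv T N (some y)))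
      have h4 : (G.bubble (inr x)).hf (inr (some x)) = (none, 0) := by
        have := bubble_old G (inr x) (inr x)
        rw [bubold, if_pos rfl] at this
        exact this
      rw [graft_hf_lft, Env.usehf_inl h2, h4] at h3
      dsimp only at h3
      rw [h0, optE_b_some] at h3
      dsimp only at h3
      omega
  · have h2 : ((optE W).unused (G.bubble (inr x)) none).card ≠ 0 := by
      have := Fintype.ofFinite L
      rw [optE_unused, card_sum_ite]
      have h4 : (G.bubble (inr x)).hf (inr (some x)) = (none, 0) := by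
        have := bubble_old G (inr x) (inr x)
        rw [bubold, if_pos rfl] at this
        exact this
      have h5 := Finset.single_le_sum (f := fun x' => @ite ℕ (inl x' ∉ Set.range W.use ∧
        ((G.bubble (inr x)).hf (inr (some x'))).1 = none) (Classical.propDecidable _) 1 0)
        (fun _ _ => Nat.zero_le _) (Finset.mem_univ x)
      rw [if_pos ⟨hx', by rw [h4]⟩] at h5
      omega
    have h3 := valid_psi_le hv (lft (Option E) (inr none))
    have h4 : (optE W).use (inr none) = inl none := rfl
    rw [graft_hf_lft, Env.usehf_inl h4, bubble_new_leg] at h3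
    dsimp only at h3
    rw [h0] at h3
    dsimp only at h3
    omega

lemma sum_use' [Fintype L] [Fintype T] [Fintype N] (W : Env R T L N)
    (hW : ∀ y z x, W.use y = inl x → W.use z = inl x → y = z) (f : L → ℚ)
    (hf : ∀ x, inl x ∉ Set.range W.use → f x = 0) :
    ∑ z, (W.use z).elim f (fun _ => 0) = ∑ x, f x := by
  have h1 : ∀ z, (W.use z).elim f (fun _ => 0) = ∑ x, if W.use z = inl x then f x else 0 := by
    intro z
    rcases hz : W.use z with x | p
    · simp only [elim_inl, inl.injEq, Finset.sum_ite_eq, Finset.mem_univ, ↓reduceIte]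
    · simp only [elim_inr, reduceCtorEq, ↓reduceIte, Finset.sum_const_zero]
  have h2 : ∀ x, f x = ∑ z, if W.use z = inl x then f x else 0 := by
    intro x
    by_cases hx : inl x ∈ Set.range W.use
    · obtain ⟨z, hz⟩ := hx
      rw [Finset.sum_eq_single z]
      · rw [if_pos hz]
      · intro z' _ hz'
        rw [if_neg]
        intro h
        exact hz' (hW _ _ x h hz)
      · intro h
        exact absurd (Finset.mem_univ z) h
    · rw [hf x hx, Finset.sum_eq_zero]
      intro z _
      split_ifs <;> rfl
  rw [Finset.sum_congr rfl fun z _ => h1 z, Finset.sum_comm]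
  exact Finset.sum_congr rfl fun x _ => (h2 x).symm

/-- the bubbles in the formal pullback of a graft -/
lemma bubbles [Finite E] [Finite T] [Finite L] [Finite N] {g d : ℕ}
    {s : Q.Fn (Option N)} (hs : Q.Tr g d s)
    (W : Env R T L N) (hW : ∀ y z x, W.use y = inl x → W.use z = inl x → y = z) (G : Gr V E L) :
    ∑ᶠ (z) (_ : ((W.graft G).hf z).2 ≠ 0), sg s ((W.graft G).bubble z) =
    ∑ᶠ (z) (_ : (G.hf z).2 ≠ 0), sg s ((optE W).graft (G.bubble z)) +
    ∑ᶠ (y) (_ : BC W y), sg s ((bubE W y).graft G) := by
  have := Fintype.ofFinite E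
  have := Fintype.ofFinite T
  have := Fintype.ofFinite L
  have := Fintype.ofFinite N
  have eA : ∑ᶠ (z) (_ : ((W.graft G).hf z).2 ≠ 0), sg s ((W.graft G).bubble z) =
      ∑ p : E × Bool, (∑ᶠ (_ : ((W.graft G).hf (inl (inl p.1, p.2))).2 ≠ 0),
        sg s ((W.graft G).bubble (inl (inl p.1, p.2)))) +
      ∑ y, ∑ᶠ (_ : ((W.graft G).hf (lft E y)).2 ≠ 0),
        sg s ((W.graft G).bubble (lft E y)) := by
    rw [← finsum_comp_equiv (Equiv.ofBijective _ gfl_bij), finsum_eq_sum_of_fintype,
      Fintype.sum_sum_type]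
    rfl
  have eB : ∑ᶠ (z) (_ : (G.hf z).2 ≠ 0), sg s ((optE W).graft (G.bubble z)) =
      ∑ p : E × Bool, (∑ᶠ (_ : (G.hf (inl p)).2 ≠ 0),
        sg s ((optE W).graft (G.bubble (inl p)))) +
      ∑ x, ∑ᶠ (_ : (G.hf (inr x)).2 ≠ 0), sg s ((optE W).graft (G.bubble (inr x))) := by
    rw [finsum_eq_sum_of_fintype, Fintype.sum_sum_type]
  rw [eA, eB, finsum_eq_sum_of_fintype, add_assoc]
  have hI : ∀ x, inl x ∉ Set.range W.use →
      (∑ᶠ (_ : (G.hf (inr x)).2 ≠ 0), sg s ((optE W).graft (G.bubble (inr x)))) = 0 := by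
    intro x hx
    rw [inner_bubble_zero hs W hW G (Or.inl hx), finsum_eq_if]
    split_ifs <;> rfl
  rw [← sum_use' W hW _ hI, ← Finset.sum_add_distrib]
  congr 1
  · apply Finset.sum_congr rfl
    intro p _
    rw [← bubI_edge hs W G p.1 p.2]
    rfl
  · apply Finset.sum_congr rfl
    intro y _
    rw [graft_hf_lft, finsum_eq_if, finsum_eq_if]
    rcases hy : W.use y with x | p
    · rw [Env.usehf_inl hy, elim_inl, finsum_eq_if]
      by_cases hb : W.b x = 0
      · have h1 : ¬ BC W y := by
          unfold BC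
          rw [hy]
          exact fun h => h hb
        rw [if_neg h1, add_zero, hb, bubI_leg hs W hW G hy hb]
        rfl
      · have h1 : BC W y := by
          unfold BC
          rw [hy]
          exact hb
        rw [if_pos h1, if_pos (by dsimp only; omega), inner_bubble_zero hs W hW G (Or.inr hb),
          bubE_iso hs W hW G y h1]
        split_ifs <;> simp
    · rw [Env.usehf_inr hy, elim_inr, zero_add]
      by_cases hb : p.2 = 0
      · have h1 : ¬ BC W y := by
          unfold BC
          rw [hy]
          exact fun h => h hb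
        rw [if_neg h1, if_neg (fun h => h hb)]
      · have h1 : BC W y := by
          unfold BC
          rw [hy]
          exact hb
        rw [if_pos h1, if_pos hb, bubE_iso hs W hW G y h1]

/-- The formal pullback of a graft. -/
theorem pb_graft [Finite V] [Finite E] [Finite R] [Finite T] [Finite L] [Finite N] {g d : ℕ}
    {s : Q.Fn (Option N)} (hs : Q.Tr g d s)
    (W : Env R T L N) (hW : ∀ y z x, W.use y = inl x → W.use z = inl x → y = z) (G : Gr V E L) :
    pb s _ _ (W.graft G).dec (W.graft G).hf =
      pb (fun V E a f => sg s ((optE W).graft (⟨a, f⟩ : Gr V E (Option L)))) V E G.dec G.hf +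
      ∑ᶠ r, (sg s ((kapE W r (W.dec r).2 0).graft G) -
        ((W.dec r).2.map fun k => sg s ((kapE W r ((W.dec r).2.erase k) k).graft G)).sum) -
      ∑ᶠ (x) (_ : inl x ∉ Set.range W.use), sg s ((putE W (inl x)).graft G) -
      ∑ᶠ (y) (_ : BC W y), sg s ((bubE W y).graft G) := by
  have := Fintype.ofFinite V
  have := Fintype.ofFinite R
  have := Fintype.ofFinite L
  rw [pb_eq', pb_eq', bubbles hs W hW G]
  have e1 : ∑ᶠ w, lterm s (W.graft G) w =
      ∑ᶠ v, lterm (fun V E a f => sg s ((optE W).graft (⟨a, f⟩ : Gr V E (Option L)))) G v -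
      ∑ᶠ (x) (_ : inl x ∉ Set.range W.use), sg s ((putE W (inl x)).graft G) +
      ∑ᶠ r, (sg s ((kapE W r (W.dec r).2 0).graft G) -
        ((W.dec r).2.map fun k => sg s ((kapE W r ((W.dec r).2.erase k) k).graft G)).sum) := by
    rw [finsum_eq_sum_of_fintype, Fintype.sum_sum_type]
    congr 1
    · rw [Finset.sum_congr rfl fun v _ => lterm_inl s W hW G v, Finset.sum_sub_distrib,
        finsum_eq_sum_of_fintype]
      congr 1
      simp_rw [finsum_eq_sum_of_fintype]
      rw [Finset.sum_comm]
      apply Finset.sum_congr rfl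
      intro x _
      rw [finsum_eq_if, Finset.sum_eq_single (G.hf (inr x)).1]
      · rw [finsum_eq_if]
        simp
      · intro v _ hv
        rw [finsum_eq_if, if_neg (fun h => hv h.2.symm)]
      · intro h
        exact absurd (Finset.mem_univ _) h
    · rw [finsum_eq_sum_of_fintype]
      apply Finset.sum_congr rfl
      intro r _
      simp only [kapE_graft]
      rfl
  rw [e1]
  have e2 : (∑ᶠ (z) (_ : (G.hf z).2 ≠ 0), sg (fun V E a f =>
      sg s ((optE W).graft (⟨a, f⟩ : Gr V E (Option L)))) (G.bubble z)) =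
      ∑ᶠ (z) (_ : (G.hf z).2 ≠ 0), sg s ((optE W).graft (G.bubble z)) := rfl
  rw [e2]
  ring

end Vale.Agent.P273.D14.Mv
end
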