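import Vale.Agent.P273.D14.Move2
import Vale.Agent.P273.D14.K

/-!
Moving a leg that is killed by the forgetful pullback away from a relation, and the resulting
criterion for Pixton's relations.
-/

noncomputable section
namespace Vale.Agent.P273.D14.Mv
open Sum Vale.Agent.P273 Vale.Agent.P273.C1.R3B Vale.Agent.P273.C1.R1B
open scoped Classical

variable {V E V' E' L M N R T : Type}

/-- Isomorphism invariance. -/
def Inv (t : Q.Fn L) : Prop := ∀ V E V' E' a f f' (p : V → V') (q : E × Bool → E' × Bool),
  p.Bijective → q.Bijective → (∀ e, (q (e, true)).1 = (q (e, false)).1) →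
    (∀ y, f' (y.map q id) = (f y).map p id) → t V E (a ∘ p) f = t V' E' a f'

/-- The weight of a graph in the sum over labelled graphs. -/
def cf [Finite L] (γ : ℕ) (A : L → ℕ) (e : ℕ) (p : Σ k m : ℕ, Gr (Fin k) (Fin m) L) : ℚ :=
  wt p.2.2 γ A e / (p.1.factorial * p.2.1.factorial * 2 ^ p.2.1)

/-- The pullback of a relation is a relation. -/
theorem kthm [Finite L] (t : Q.Fn (Option L)) (A : L → ℕ) (hA : ∀ x, A x ≤ 1) (γ e : ℕ)
    (hγ : 2 < 2 * γ + Nat.card L) (hinv : Inv t)
    (h0 : ∀ (V E : Type) (G : Gr V E (Option L)), Finite V → Finite E →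
      (G.dec (G.hf (inr none)).1).1 = 0 → G.nv (G.hf (inr none)).1 = 3 →
      G.degAt (G.hf (inr none)).1 ≠ 0 → sg t G = 0) :
    ∑ p ∈ supp γ (Option.elim' 0 A) e, cf γ (Option.elim' 0 A) e p * sg t p.2.2 =
      ∑ p ∈ supp γ A e, cf γ A e p * pb t _ _ p.2.2.dec p.2.2.hf := by
  set t' : Q.Fn (Option L) := fun V E a f =>
    if Finite V ∧ Finite E ∧ ∀ v, 0 ∉ (a v).2 then t V E a f else 0 with ht'
  have e1 : ∀ {V E : Type} (G : Gr V E (Option L)), Finite V → Finite E →
      (∀ v, 0 ∉ (G.dec v).2) → sg t' G = sg t G := by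
    intro V E G h1 h2 h3
    exact if_pos ⟨h1, h2, h3⟩
  have k := thmK γ e hγ A hA t' (by
    intro V E V' E' G G' hiso
    obtain ⟨φ, ρ, I⟩ := hiso.data
    have hV : Finite V ↔ Finite V' := Equiv.finite_iff (Equiv.ofBijective φ I.h1)
    have hE : Finite E ↔ Finite E' := by
      rw [← finite_prod_bool, ← finite_prod_bool (E := E')]
      exact Equiv.finite_iff (Equiv.ofBijective ρ I.h2)
    have hz : (∀ v, 0 ∉ (G.dec v).2) ↔ ∀ v, 0 ∉ (G'.dec v).2 := by
      constructor
      · intro h v
        obtain ⟨w, rfl⟩ := I.h1.2 v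
        rw [I.h4]
        exact h w
      · intro h v
        rw [← I.h4]
        exact h _
    show (if _ then _ else _) = (if _ then _ else _)
    apply if_congr (by rw [hV, hE, hz])
    · have h5 := hinv V E V' E' G'.dec G.hf G'.hf φ ρ I.h1 I.h2 I.h3 I.h5
      have h6 : G'.dec ∘ φ = G.dec := funext I.h4
      rw [h6] at h5
      exact h5
    · rfl) (by
    intro V E G g0 g3 hcl
    by_cases hc : Finite V ∧ Finite E ∧ ∀ v, 0 ∉ (G.dec v).2
    · show (if _ then _ else _) = _
      rw [if_pos hc]
      apply h0 V E G hc.1 hc.2.1 g0 g3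
      intro hd
      apply hcl
      have hE : Finite E := hc.2.1
      have := Fintype.ofFinite E
      have := Fintype.ofFinite L
      rw [degAt_eq, psi_eq_finsum, Nat.add_eq_zero_iff, finsum_eq_sum_of_fintype,
        Finset.sum_eq_zero_iff] at hd
      constructor
      · by_contra hne
        obtain ⟨k, hk⟩ := Multiset.exists_mem_of_ne_zero hne
        have := erase_sum hk
        have h1 : k = 0 := by omega
        rw [h1] at hk
        exact hc.2.2 _ hk
      · intro y hy
        have := hd.2 y (Finset.mem_univ y)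
        rw [if_pos hy] at this
        exact this
    · exact if_neg hc)
  have k1 : ∑ p ∈ supp γ (Option.elim' 0 A) e, cf γ (Option.elim' 0 A) e p * sg t p.2.2 =
      ∑ p ∈ supp γ (Option.elim' 0 A) e, (wt p.2.2 γ (Option.elim' 0 A) e /
        (p.1.factorial * p.2.1.factorial * 2 ^ p.2.1)) * vl t' p.2.2 := by
    apply Finset.sum_congr rfl
    intro p _
    by_cases hw : wt p.2.2 γ (Option.elim' 0 A) e = 0
    · rw [cf, hw, zero_div, zero_mul, zero_mul]
    · rw [← e1 p.2.2 inferInstance inferInstance (wt_ne_zero hw).2.2]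
      rfl
  rw [k1, k]
  apply Finset.sum_congr rfl
  intro p _
  by_cases hw : wt p.2.2 γ A e = 0
  · rw [cf, hw, zero_div, zero_mul, zero_mul]
  · have hz := (wt_ne_zero hw).2.2
    show _ = wt p.2.2 γ A e / _ * _
    congr 1
    rw [pb_eq]
    show pba t' p.2.2 - pbb t' p.2.2 = _
    unfold pba pbb
    congr 1
    · apply finsum_congr
      intro v
      have h1 : ∀ (K : Multiset ℕ) (c : ℕ), 0 ∉ K →
          vl t' (p.2.2.addLeg v K c) = sg t (p.2.2.addLeg v K c) := by
        intro K c hK
        apply e1 _ inferInstance inferInstance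
        intro w
        by_cases hwv : w = v
        · subst hwv
          rw [addLeg_dec_self]
          exact hK
        · rw [addLeg_dec_ne _ hwv]
          exact hz w
      rw [h1 _ _ (hz v)]
      congr 2
      apply Multiset.map_congr rfl
      intro k _
      exact h1 _ _ (fun h => hz v (Multiset.mem_of_mem_erase h))
    · apply finsum_congr
      intro z
      apply finsum_congr
      intro _
      apply e1 _ inferInstance inferInstance
      rintro (_ | w)
      · show 0 ∉ (0 : Multiset ℕ)
        simp
      · exact hz w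

/-- The relation in an environment. -/
def rlE (s : Q.Fn N) (W : Env R T L N) (A : L → ℕ) (γ e : ℕ) : ℚ :=
  rl s W.dec W.use W.b A γ e

lemma rlE_eq [Finite L] (s : Q.Fn N) (W : Env R T L N) (A : L → ℕ) (γ e : ℕ) :
    rlE s W A γ e = ∑ p ∈ supp γ A e, cf γ A e p * sg s (W.graft p.2.2) := rl_eq s W A γ e

lemma graft_unused_iso {G : Gr V E L} {G' : Gr V' E' L} {φ : V → V'}
    {ρ : E × Bool → E' × Bool} (I : IsoData G G' φ ρ) (W : Env R T L N) (v : V) :
    W.unused G' (φ v) = W.unused G v := by
  unfold Env.unused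
  apply finsum_congr
  intro x
  rw [finsum_eq_if, finsum_eq_if, I.hf_inr]
  apply if_congr _ rfl rfl
  dsimp only
  rw [I.h1.1.eq_iff]

lemma graft_iso {G : Gr V E L} {G' : Gr V' E' L} {φ : V → V'}
    {ρ : E × Bool → E' × Bool} (I : IsoData G G' φ ρ) (W : Env R T L N) :
    IsoData (W.graft G) (W.graft G') (Sum.map φ id) (C1.R1T.em2 ρ) where
  h1 := by
    constructor
    · rintro (v | x) (v' | x') h
      · rw [I.h1.1 (inl.inj h)]
      · cases h
      · cases h
      · exact congrArg inr (inr.inj h)
    · rintro (v | x)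
      · obtain ⟨w, rfl⟩ := I.h1.2 v
        exact ⟨inl w, rfl⟩
      · exact ⟨inr x, rfl⟩
  h2 := C1.R1T.em2_bij I.h2
  h3 := by
    rintro (e | t)
    · show (inl (ρ (e, true)).1 : E' ⊕ T) = inl (ρ (e, false)).1
      rw [I.h3]
    · rfl
  h4 := by
    rintro (v | x)
    · show (W.graft G').dec (inl (φ v)) = _
      rw [Env.graft_dec_inl, Env.graft_dec_inl, graft_unused_iso I, I.h4]
    · rfl
  h5 := by
    intro y
    rcases graft_cases y with ⟨e, b, rfl⟩ | ⟨y, rfl⟩
    · show (W.graft G').hf (inl (inl (ρ (e, b)).1, (ρ (e, b)).2)) = _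
      rw [Env.graft_hf_inl, Env.graft_hf_inl]
      rw [show ((ρ (e, b)).1, (ρ (e, b)).2) = ρ (e, b) from rfl, I.hf_inl]
      rfl
    · have h1 : (lft E y).map (C1.R1T.em2 ρ) id = lft E' y := by
        rcases y with y | y <;> rfl
      rw [h1, graft_hf_lft, graft_hf_lft]
      rcases hy : W.use y with x | p
      · rw [Env.usehf_inl hy, Env.usehf_inl hy, I.hf_inr]
        rfl
      · rw [Env.usehf_inr hy, Env.usehf_inr hy]
        rfl

lemma inv_graft {g d : ℕ} {s : Q.Fn N} (hs : Q.Tr g d s) (W : Env R T L N) :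
    Inv (fun V E a f => sg s (W.graft (⟨a, f⟩ : Gr V E L))) := by
  intro V E V' E' a f f' p q k1 k2 k3 k5
  have I : IsoData (⟨a ∘ p, f⟩ : Gr V E L) (⟨a, f'⟩ : Gr V' E' L) p q :=
    ⟨k1, k2, k3, fun _ => rfl, k5⟩
  have J := graft_iso I W
  have h2 := hs.2.1 _ _ _ _ (W.graft (⟨a, f'⟩ : Gr V' E' L)).dec
    (W.graft (⟨a ∘ p, f⟩ : Gr V E L)).hf (W.graft (⟨a, f'⟩ : Gr V' E' L)).hf _ _
    J.h1 J.h2 J.h3 J.h5
  have h3 : (W.graft (⟨a, f'⟩ : Gr V' E' L)).dec ∘ Sum.map p id =
      (W.graft (⟨a ∘ p, f⟩ : Gr V E L)).dec := funext fun x => J.h4 x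
  rw [h3] at h2
  exact h2

/-- A graph with the new leg at a vertex of genus 0 and valence 3 with decorations. -/
lemma optE_deg_zero [Finite T] [Finite L] [Finite N] {g d : ℕ} {s : Q.Fn (Option N)}
    (hs : Q.Tr g d s) (W : Env R T L N)
    (hW : ∀ y z x, W.use y = inl x → W.use z = inl x → y = z) (V E : Type)
    (G : Gr V E (Option L)) (_ : Finite V) (_ : Finite E)
    (h1 : (G.dec (G.hf (inr none)).1).1 = 0) (h2 : G.nv (G.hf (inr none)).1 = 3)
    (h3 : G.degAt (G.hf (inr none)).1 ≠ 0) : sg s ((optE W).graft G) = 0 := by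
  apply hs.1
  intro hv
  have h4 := nv_graft_add (optE W) (optE_inj hW) G (G.hf (inr none)).1
  have h5 : 2 < 2 * (((optE W).graft G).dec (inl (G.hf (inr none)).1)).1 +
      ((optE W).graft G).nv (inl (G.hf (inr none)).1) := by
    by_contra h
    push Not at h
    exact not_valid_of_unstable h hv
  rw [Env.graft_dec_inl] at h5
  dsimp only at h5
  have h6 : (optE W).unused G (G.hf (inr none)).1 = 0 := by
    rw [← Multiset.card_eq_zero]
    omega
  rw [h6, Multiset.card_zero] at h4
  have key : ∀ y : (E × Bool) ⊕ Option L, (G.hf y).1 = (G.hf (inr none)).1 →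
      (G.dec (G.hf (inr none)).1).2.sum + (G.hf y).2 = 0 := by
    intro y hy
    rcases y with ⟨e, b⟩ | x
    · have h7 := valid_psi_le hv (inl (inl e, b))
      rw [Env.graft_hf_inl] at h7
      dsimp only at h7
      rw [hy, Env.graft_dec_inl, h6] at h7
      dsimp only at h7
      rw [add_zero] at h7
      omega
    · have h8 : inl x ∈ Set.range (optE W).use := by
        by_contra hx
        have := Fintype.ofFinite L
        have h9 : ((optE W).unused G (G.hf (inr none)).1).card = 0 := by
          rw [h6, Multiset.card_zero]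
        unfold Env.unused at h9
        rw [card_sum_ite] at h9
        have h10 := Finset.single_le_sum (f := fun x' => @ite ℕ (inl x' ∉
          Set.range (optE W).use ∧ (G.hf (inr x')).1 = (G.hf (inr none)).1)
          (Classical.propDecidable _) 1 0) (fun _ _ => Nat.zero_le _) (Finset.mem_univ x)
        rw [if_pos ⟨hx, hy⟩] at h10
        omega
      obtain ⟨y', hy'⟩ := h8
      have h7 := valid_psi_le hv (lft E y')
      rw [graft_hf_lft, Env.usehf_inl hy'] at h7
      dsimp only at h7
      rw [hy, Env.graft_dec_inl, h6] at h7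
      dsimp only at h7
      rw [add_zero] at h7
      omega
  apply h3
  rw [degAt_eq, Nat.add_eq_zero_iff]
  have := key (inr none) rfl
  refine ⟨by omega, ?_⟩
  apply finsum_eq_zero_of_forall_eq_zero
  intro y
  rw [finsum_eq_if]
  split_ifs with hy
  · have := key y hy
    omega
  · rfl

lemma optE_nR [Finite T] [Finite L] [Finite N] (W : Env R T L N) (r : R) :
    (optE W).nR r = W.nR r := by
  have h1 := nv_graft_inr (optE W) ((pt0 L).addLeg () 0 0) r
  rw [optE_addLeg, nv_addLeg, nv_graft_inr, if_neg (fun h => by cases h)] at h1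
  omega

lemma stable_or [Finite E] [Finite T] [Finite L] [Finite N] (W : Env R T L N)
    (hW : ∀ y z x, W.use y = inl x → W.use z = inl x → y = z)
    (hR : ∀ r, 2 < 2 * (W.dec r).1 + W.nR r) (G : Gr V E L)
    (hG : ∀ v, 2 < 2 * (G.dec v).1 + G.nv v) (w : V ⊕ R) :
    2 < 2 * ((W.graft G).dec w).1 + (W.graft G).nv w ∨ ((W.graft G).dec w).2 ≠ 0 := by
  rcases w with v | r
  · by_cases h : W.unused G v = 0
    · left
      have h1 := nv_graft_add W hW G v
      rw [h, Multiset.card_zero] at h1
      have := hG v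
      rw [Env.graft_dec_inl]
      dsimp only
      omega
    · right
      rw [Env.graft_dec_inl]
      intro h2
      apply h
      dsimp only at h2
      rw [← Multiset.card_eq_zero] at h2 ⊢
      rw [Multiset.card_add] at h2
      omega
  · left
    rw [nv_graft_inr, Env.graft_dec_inr]
    exact hR r

/-- The exceptional case: the vertex is unstable without the new leg. -/
lemma optE_small [Finite R] [Finite T] [Finite L] [Finite N] {g d : ℕ} {s : Q.Fn (Option N)}
    (hs : Q.Tr g d s) (hg : 2 < 2 * g + Nat.card N) (W : Env R T L N)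
    (hW : ∀ y z x, W.use y = inl x → W.use z = inl x → y = z) [Finite V] [Finite E] {γ e : ℕ}
    (hγ : 2 * γ + Nat.card L ≤ 2) (he : e ≠ 0)
    (G : Gr V E (Option L)) (hG : G.Stab γ) (hd : G.deg = e) :
    sg s ((optE W).graft G) = 0 := by
  have := Fintype.ofFinite V
  have := Fintype.ofFinite E
  have := Fintype.ofFinite L
  have := Fintype.ofFinite R
  -- the graph has one vertex
  have hcard : Fintype.card V ≤ 1 := by
    have h1 := hG.sum_chi (inferInstance : Finite E)
    have h2 : ∀ v ∈ Finset.univ, (1 : ℚ) ≤ 2 * ((G.dec v).1 : ℚ) - 2 + G.nv v := by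
      intro v _
      have h3 := hG.2.2.2 v
      have h4 : (3 : ℚ) ≤ 2 * (G.dec v).1 + G.nv v := by exact_mod_cast h3
      linarith
    have h3 := Finset.sum_le_sum h2
    rw [h1] at h3
    simp only [Finset.sum_const, Finset.card_univ, nsmul_eq_mul, mul_one] at h3
    rw [Finite.card_option] at h3
    have h4 : (2 * (γ : ℚ) + Nat.card L) ≤ 2 := by exact_mod_cast hγ
    push_cast at h3
    have h5 : (Fintype.card V : ℚ) ≤ 1 := by linarith
    exact_mod_cast h5
  obtain ⟨v⟩ := hG.1
  have huniq : ∀ w, w = v := fun w => Fintype.card_le_one_iff.1 hcard w v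
  have hU : Unique V := ⟨⟨v⟩, huniq⟩
  have hgen := hG.2.2.1
  have hdef : (default : V) = v := huniq _
  rw [finsum_unique, Nat.card_unique (α := V), hdef] at hgen
  have hnv := hG.2.2.2 v
  have hcardV : Fintype.card V = 1 := Fintype.card_unique
  have hchi : 2 * (G.dec v).1 + G.nv v = 2 * γ + Nat.card L + 1 := by
    have h1 := hG.sum_chi (inferInstance : Finite E)
    rw [Fintype.sum_unique, hdef, Finite.card_option] at h1
    have h2 : (2 * ((G.dec v).1 : ℚ) + G.nv v) = 2 * γ + Nat.card L + 1 := by
      push_cast at h1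
      linarith
    exact_mod_cast h2
  by_cases hγ0 : γ = 0
  · -- genus zero
    have hE : Nat.card E = 0 := by omega
    apply optE_deg_zero hs W hW V E G inferInstance inferInstance
    · rw [huniq (G.hf (inr none)).1]
      omega
    · rw [huniq (G.hf (inr none)).1]
      omega
    · rw [huniq (G.hf (inr none)).1]
      have h1 := sum_degAt G
      rw [Fintype.sum_unique, hdef] at h1
      omega
  · -- genus one
    have hL0 : Nat.card L = 0 := by omega
    have hL : IsEmpty L := by
      rw [Nat.card_eq_fintype_card] at hL0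
      exact Fintype.card_eq_zero_iff.1 hL0
    apply hs.1
    intro hv
    obtain ⟨_, hconn, hgen', _⟩ := valid_pre hv
    have huse : ∀ y, ∃ p, (optE W).use (optEquiv T N (some y)) = inr p := by
      intro y
      rw [optE_use_some]
      rcases W.use y with x | p
      · exact hL.elim x
      · exact ⟨p, rfl⟩
    have hR : IsEmpty R := by
      have h1 := hconn {w | ∃ v, w = inl v} (by
        rintro (e | t)
        · rw [Env.graft_hf_inl, Env.graft_hf_inl]
          exact ⟨fun _ => ⟨_, rfl⟩, fun _ => ⟨_, rfl⟩⟩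
        · obtain ⟨p, hp⟩ := huse (inl (t, true))
          obtain ⟨q, hq⟩ := huse (inl (t, false))
          have h2 : ((optE W).graft G).hf (inl (inr t, true)) = (inr p.1, p.2) :=
            Env.usehf_inr hp G
          have h3 : ((optE W).graft G).hf (inl (inr t, false)) = (inr q.1, q.2) :=
            Env.usehf_inr hq G
          rw [h2, h3]
          constructor
          · rintro ⟨v, h⟩
            cases h
          · rintro ⟨v, h⟩
            cases h)
      constructor
      intro r
      rcases h1 with h1 | h1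
      · have : (inl v : V ⊕ R) ∈ ({w | ∃ v, w = inl v} : Set (V ⊕ R)) := ⟨v, rfl⟩
        rw [h1] at this
        exact this
      · have : (inr r : V ⊕ R) ∈ ({w | ∃ v, w = inl v} : Set (V ⊕ R)) := by
          rw [h1]
          trivial
        obtain ⟨v', h⟩ := this
        cases h
    have hT : IsEmpty T := ⟨fun t => by
      obtain ⟨p, hp⟩ := huse (inl (t, true))
      exact hR.elim p.1⟩
    have hN : IsEmpty N := ⟨fun n => by
      obtain ⟨p, hp⟩ := huse (inr n)
      exact hR.elim p.1⟩
    rw [finsum_eq_sum_of_fintype, Fintype.sum_sum_type, Fintype.sum_unique, Nat.card_sum,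
      Nat.card_sum, Nat.card_of_isEmpty (α := R), Nat.card_of_isEmpty (α := T),
      Nat.card_unique (α := V),
      Finset.univ_eq_empty, Finset.sum_empty, hdef, Env.graft_dec_inl] at hgen'
    dsimp only at hgen'
    rw [Nat.card_of_isEmpty (α := N)] at hg
    omega

lemma sum_map_swap {ι : Type} (S : Finset ι) (κ : Multiset ℕ) (F : ℕ → ι → ℚ) :
    ∑ p ∈ S, (κ.map fun k => F k p).sum = (κ.map fun k => ∑ p ∈ S, F k p).sum := by
  induction κ using Multiset.induction_on with
  | empty => simp
  | cons a κ ih => simp [Finset.sum_add_distrib, ih]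

/-- The leg `none`, at a position with `A = b = 0`, can be moved away from the relation. -/
theorem move [Finite R] [Finite T] [Finite L] [Finite N] {g d : ℕ}
    {s : Q.Fn (Option N)} (hs : Q.Tr g d s)
    (hp : ∀ (V E : Type) a f, Q.pull g d s V E a f = 0) (hg : 2 < 2 * g + Nat.card N)
    (W : Env R T L N) (hW : ∀ y z x, W.use y = inl x → W.use z = inl x → y = z)
    (A : L → ℕ) (hA : ∀ x, A x ≤ 1) (γ e : ℕ) (he : e ≠ 0)
    (h1 : ∀ x, inl x ∉ Set.range W.use → rlE s (putE W (inl x)) A γ e = 0)
    (h2 : ∀ r K c, rlE s (kapE W r K c) A γ e = 0)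
    (h3 : ∀ y, rlE s (bubE W y) A γ e = 0) :
    rlE s (optE W) (Option.elim' 0 A) γ e = 0 := by
  have := Fintype.ofFinite R
  have := Fintype.ofFinite T
  have := Fintype.ofFinite L
  have := Fintype.ofFinite N
  by_cases hR : ∀ r, 2 < 2 * (W.dec r).1 + W.nR r
  · by_cases hγ : 2 < 2 * γ + Nat.card L
    · rw [rlE_eq]
      have k1 := kthm (fun V E a f => sg s ((optE W).graft (⟨a, f⟩ :
        Gr V E (Option L)))) A hA γ e hγ (inv_graft hs (optE W)) (optE_deg_zero hs W hW)
      refine k1.trans ?_
      have k2 : ∀ p ∈ supp γ A e, cf γ A e p * pb (fun V E a f =>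
          sg s ((optE W).graft (⟨a, f⟩ : Gr V E (Option L)))) _ _ p.2.2.dec p.2.2.hf =
          - ∑ r, (cf γ A e p * sg s ((kapE W r (W.dec r).2 0).graft p.2.2) -
            ((W.dec r).2.map fun k => cf γ A e p *
              sg s ((kapE W r ((W.dec r).2.erase k) k).graft p.2.2)).sum) +
          ∑ x, (if inl x ∉ Set.range W.use then
            cf γ A e p * sg s ((putE W (inl x)).graft p.2.2) else 0) +
          ∑ y, (if BC W y then cf γ A e p * sg s ((bubE W y).graft p.2.2) else 0) := by
        intro p _
        have k3 : cf γ A e p * pb s _ _ (W.graft p.2.2).dec (W.graft p.2.2).hf = 0 := by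
          by_cases hw : wt p.2.2 γ A e = 0
          · rw [cf, hw, zero_div, zero_mul]
          · rw [pb_zero hs hp hg _ (stable_or W hW hR _ (wt_ne_zero hw).1.2.2.2), mul_zero]
        rw [pb_graft hs W hW, finsum_eq_sum_of_fintype, finsum_eq_sum_of_fintype,
          finsum_eq_sum_of_fintype] at k3
        have e1 : ∑ r, (cf γ A e p * sg s ((kapE W r (W.dec r).2 0).graft p.2.2) -
            ((W.dec r).2.map fun k => cf γ A e p *
              sg s ((kapE W r ((W.dec r).2.erase k) k).graft p.2.2)).sum) =
            cf γ A e p * ∑ r, (sg s ((kapE W r (W.dec r).2 0).graft p.2.2) -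
            ((W.dec r).2.map fun k =>
              sg s ((kapE W r ((W.dec r).2.erase k) k).graft p.2.2)).sum) := by
          rw [Finset.mul_sum]
          apply Finset.sum_congr rfl
          intro r _
          rw [mul_sub, Multiset.sum_map_mul_left]
        have e2 : ∑ x, (if inl x ∉ Set.range W.use then
            cf γ A e p * sg s ((putE W (inl x)).graft p.2.2) else 0) =
            cf γ A e p * ∑ x, ∑ᶠ (_ : inl x ∉ Set.range W.use),
              sg s ((putE W (inl x)).graft p.2.2) := by
          rw [Finset.mul_sum]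
          apply Finset.sum_congr rfl
          intro x _
          rw [finsum_eq_if]
          split_ifs <;> simp
        have e3 : ∑ y, (if BC W y then cf γ A e p * sg s ((bubE W y).graft p.2.2) else 0) =
            cf γ A e p * ∑ y, ∑ᶠ (_ : BC W y), sg s ((bubE W y).graft p.2.2) := by
          rw [Finset.mul_sum]
          apply Finset.sum_congr rfl
          intro x _
          rw [finsum_eq_if]
          split_ifs <;> simp
        rw [e1, e2, e3]
        linarith [k3]
      rw [Finset.sum_congr rfl k2, Finset.sum_add_distrib, Finset.sum_add_distrib,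
        Finset.sum_neg_distrib, Finset.sum_comm, Finset.sum_comm (s := supp γ A e),
        Finset.sum_comm (s := supp γ A e)]
      have e1 : ∀ r ∈ Finset.univ, ∑ p ∈ supp γ A e,
          (cf γ A e p * sg s ((kapE W r (W.dec r).2 0).graft p.2.2) -
            ((W.dec r).2.map fun k => cf γ A e p *
              sg s ((kapE W r ((W.dec r).2.erase k) k).graft p.2.2)).sum) = 0 := by
        intro r _
        rw [Finset.sum_sub_distrib, ← rlE_eq, h2, zero_sub, neg_eq_zero]
        have e4 : ∀ k, ∑ p ∈ supp γ A e, cf γ A e p *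
              sg s ((kapE W r ((W.dec r).2.erase k) k).graft p.2.2) = 0 := by
          intro k
          rw [← rlE_eq, h2]
        rw [sum_map_swap]
        simp [e4]
      have e2 : ∀ x ∈ Finset.univ, ∑ p ∈ supp γ A e, (if inl x ∉ Set.range W.use then
            cf γ A e p * sg s ((putE W (inl x)).graft p.2.2) else 0) = 0 := by
        intro x _
        by_cases hx : inl x ∉ Set.range W.use
        · simp only [if_pos hx]
          rw [← rlE_eq, h1 x hx]
        · simp only [if_neg hx]
          rw [Finset.sum_const_zero]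
      have e3 : ∀ y ∈ Finset.univ, ∑ p ∈ supp γ A e, (if BC W y then
          cf γ A e p * sg s ((bubE W y).graft p.2.2) else 0) = 0 := by
        intro y _
        by_cases hx : BC W y
        · simp only [if_pos hx]
          rw [← rlE_eq, h3 y]
        · simp only [if_neg hx]
          rw [Finset.sum_const_zero]
      rw [Finset.sum_eq_zero e1, Finset.sum_eq_zero e2, Finset.sum_eq_zero e3]
      ring
    · rw [rlE_eq]
      apply Finset.sum_eq_zero
      intro p _
      by_cases hw : wt p.2.2 γ (Option.elim' 0 A) e = 0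
      · rw [cf, hw, zero_div, zero_mul]
      · obtain ⟨p1, p2, _⟩ := wt_ne_zero hw
        rw [optE_small hs hg W hW (by omega) he p.2.2 p1 p2, mul_zero]
  · push Not at hR
    obtain ⟨r, hr⟩ := hR
    rw [rlE_eq]
    apply Finset.sum_eq_zero
    intro p _
    have h0 : sg s ((optE W).graft p.2.2) = 0 := by
      apply hs.1
      apply not_valid_of_unstable (v := inr r)
      rw [nv_graft_inr, optE_nR, Env.graft_dec_inr]
      exact hr
    rw [h0, mul_zero]

end Vale.Agent.P273.D14.Mv
end
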